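import Vale.Agent.P227.C2.AreaB

/-!
# P227 / C2 : area of a rotation invariant polygon
-/

open Finset Real MeasureTheory

namespace Vale.Agent.P227.C2

namespace AreaA

open scoped ENNReal

lemma lintegral_Ioc_sum (φ : ℕ → ℝ) (hφ : Monotone φ) (F : ℝ → ℝ≥0∞) (n : ℕ) :
    ∫⁻ θ in Set.Ioc (φ 0) (φ n), F θ = ∑ k ∈ range n, ∫⁻ θ in Set.Ioc (φ k) (φ (k + 1)), F θ := by
  induction n with
  | zero => simp
  | succ n ih =>
    rw [sum_range_succ, ← ih, ← lintegral_union measurableSet_Ioc,
      Set.Ioc_union_Ioc_eq_Ioc (hφ (Nat.zero_le n)) (hφ (Nat.le_succ n))]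
    rw [Set.disjoint_left]
    intro x hx hx'
    exact absurd hx.2 (not_le.2 hx'.1)

lemma vol_P2_eq {d : ℝ} {g : ℤ → ℝ} {N : ℕ} (hd0 : 0 < d) (hN : (N : ℝ) * d = π) (hN1 : 3 ≤ N)
    (hper : ∀ j, g (j + 2 * N) = g j) (hg : ∀ j, 0 < g j) (hL : ∀ j, 0 ≤ L d g j) :
    volume (P2 d g) =
      ∑ k ∈ range (2 * N), ENNReal.ofReal (g (k + 1) * L d g (k + 1) / (2 * sin d)) := by
  have hd2 : d < π / 2 := by
    have h1 : (3 : ℝ) ≤ N := by exact_mod_cast hN1
    nlinarith [pi_pos]
  have hsd : 0 < sin d := sin_pos_of_pos_of_lt_pi hd0 (by linarith [pi_pos])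
  set φ : ℕ → ℝ := fun n =>
    (n : ℝ) * d + arctan ((g (n + 1) - cos d * g n) / sin d / g n) with hφ
  have hlink : ∀ n : ℕ, φ n = ((n + 1 : ℤ) : ℝ) * d +
      arctan ((cos d * g (n + 1) - g (n + 1 - 1)) / sin d / g (n + 1)) := by
    intro n
    simp only [hφ]
    rw [link hd0 hd2 (hg n) (hg (n + 1))]
    have e : (n : ℤ) + 1 - 1 = n := by ring
    rw [e]
    push_cast
    ring
  have hlink2 : ∀ n : ℕ, φ (n + 1) = ((n + 1 : ℤ) : ℝ) * d +
      arctan ((g (n + 1 + 1) - cos d * g (n + 1)) / sin d / g (n + 1)) := by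
    intro n
    simp only [hφ]
    push_cast
    rfl
  have hmono : Monotone φ := by
    apply monotone_nat_of_le_succ
    intro n
    rw [hlink n, hlink2 n]
    have := hL (n + 1)
    simp only [L] at this
    have h1 : arctan ((cos d * g (n + 1) - g (n + 1 - 1)) / sin d / g (n + 1)) ≤
        arctan ((g (n + 1 + 1) - cos d * g (n + 1)) / sin d / g (n + 1)) := by
      apply arctan_strictMono.monotone
      apply div_le_div_of_nonneg_right _ (hg _).le
      apply div_le_div_of_nonneg_right _ hsd.le
      linarith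
    linarith
  have hend : φ (2 * N) = φ 0 + 2 * π := by
    simp only [hφ]
    have e1 : g (((2 * N : ℕ) : ℤ) + 1) = g (((0 : ℕ) : ℤ) + 1) := by
      rw [← hper (((0 : ℕ) : ℤ) + 1)]
      congr 1
      push_cast
      ring
    have e2 : g ((2 * N : ℕ) : ℤ) = g ((0 : ℕ) : ℤ) := by
      rw [← hper ((0 : ℕ) : ℤ)]
      congr 1
      push_cast
      ring
    rw [e1, e2, ← hN]
    push_cast
    ring
  have hperiodic : Function.Periodic (Psi d g) (2 * π) := by
    intro θ
    simp only [Psi]
    rw [cos_add_two_pi, sin_add_two_pi]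
  rw [vol_P2]
  have e1 : ∫⁻ θ in Set.Ioo (-π) π, Psi d g θ = ∫⁻ θ in Set.Ioc (-π) (-π + 2 * π), Psi d g θ := by
    have : -π + 2 * π = π := by ring
    rw [this]
    exact setLIntegral_congr Ioo_ae_eq_Ioc
  have e2 : ∫⁻ θ in Set.Ioc (-π) (-π + 2 * π), Psi d g θ =
      ∫⁻ θ in Set.Ioc (φ 0) (φ 0 + 2 * π), Psi d g θ := by
    have : VAddInvariantMeasure (AddSubgroup.zmultiples (2 * π)) ℝ volume :=
      ⟨fun c s _ => measure_preimage_add _ _ _⟩
    apply IsAddFundamentalDomain.setLIntegral_eq (G := AddSubgroup.zmultiples (2 * π))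
    exacts [isAddFundamentalDomain_Ioc two_pi_pos _, isAddFundamentalDomain_Ioc two_pi_pos _,
      hperiodic.map_vadd_zmultiples]
  rw [e1, e2, ← hend, lintegral_Ioc_sum φ hmono]
  apply sum_congr rfl
  intro k _
  rw [← piece hd0 hN (by omega) hper hg hL (k + 1), hlink k, hlink2 k]

end AreaA

open AreaA

/-- area of a rotation invariant polygon with support numbers `f` -/
theorem area_adm {m r : ℕ} [NeZero r] (hm : 3 ≤ m) (f : ZMod (2 * r) → ℝ) (hf : ∀ j, 0 < f j)
    (hl : ∀ j, 0 ≤ el (π / m) r f j) :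
    volume (poly (π / m) r f) =
      ENNReal.ofReal (m / (2 * sin (π / m / r)) * qa (π / m) r f) := by
  have hr : 0 < r := Nat.pos_of_ne_zero (NeZero.ne r)
  have hrR : (0 : ℝ) < r := by exact_mod_cast hr
  have hmR : (0 : ℝ) < m := by
    have : 0 < m := by omega
    exact_mod_cast this
  set d : ℝ := π / m / r with hd
  set g : ℤ → ℝ := fun j => f (j : ZMod (2 * r)) with hgdef
  have hd0 : 0 < d := by positivity
  have hN : ((r * m : ℕ) : ℝ) * d = π := by
    rw [hd]
    push_cast
    field_simp
  have hN1 : 3 ≤ r * m := le_trans hm (Nat.le_mul_of_pos_left m hr)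
  have hper : ∀ j, g (j + 2 * ((r * m : ℕ) : ℤ)) = g j := by
    intro j
    simp only [hgdef]
    congr 1
    push_cast
    have : (2 : ZMod (2 * r)) * ((r : ZMod (2 * r)) * (m : ZMod (2 * r))) = 0 := by
      rw [← mul_assoc]
      have h2 : ((2 * r : ℕ) : ZMod (2 * r)) = 0 := ZMod.natCast_self _
      push_cast at h2
      rw [h2, zero_mul]
    rw [this, add_zero]
  have hg : ∀ j, 0 < g j := fun j => hf _
  have hLel : ∀ j : ℤ, L d g j = el (π / m) r f (j : ZMod (2 * r)) := by
    intro j
    simp only [L, el, hgdef]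
    push_cast
    rfl
  have hL : ∀ j, 0 ≤ L d g j := by
    intro j
    rw [hLel]
    exact hl _
  have hsd : 0 < sin d := by
    apply sin_pos_of_pos_of_lt_pi hd0
    have h1 : (3 : ℝ) ≤ ((r * m : ℕ) : ℝ) := by exact_mod_cast hN1
    nlinarith [pi_pos]
  have hpoly : poly (π / m) r f = (MeasurableEquiv.finTwoArrow : (Fin 2 → ℝ) ≃ᵐ ℝ × ℝ) ⁻¹'
      (P2 d g) := by
    ext y
    simp [poly, P2, MeasurableEquiv.finTwoArrow, hgdef, hd]
  rw [hpoly, (volume_preserving_finTwoArrow ℝ).measure_preimage
    (isClosed_P2 d g).measurableSet.nullMeasurableSet, vol_P2_eq hd0 hN hN1 hper hg hL]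
  rw [← ENNReal.ofReal_sum_of_nonneg]
  swap
  · intro k _
    have h1 := hL (k + 1)
    have h2 := hg (k + 1)
    positivity
  congr 1
  -- the sum over `2 r m` indices
  set G : ZMod (2 * r) → ℝ := fun x => f x * el (π / m) r f x / (2 * sin d) with hG
  have h1 : ∀ k : ℕ, g (k + 1) * L d g (k + 1) / (2 * sin d) = G ((k : ZMod (2 * r)) + 1) := by
    intro k
    rw [hLel]
    simp only [hG, hgdef]
    push_cast
    rfl
  simp_rw [h1]
  have hone : ∀ q : ℕ, ∑ k ∈ range (2 * r), G (((k + q * (2 * r) : ℕ) : ZMod (2 * r)) + 1) =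
      ∑ x, G x := by
    intro q
    have h2 : ∀ k : ℕ, ((k + q * (2 * r) : ℕ) : ZMod (2 * r)) = (k : ZMod (2 * r)) := by
      intro k
      have h2 : ((2 * r : ℕ) : ZMod (2 * r)) = 0 := ZMod.natCast_self _
      rw [Nat.cast_add, Nat.cast_mul, h2, mul_zero, add_zero]
    simp_rw [h2]
    have h3 : ∑ x, G x = ∑ x, G (x + 1) :=
      (Fintype.sum_equiv (Equiv.addRight (1 : ZMod (2 * r))) _ _ (fun x => rfl)).symm
    rw [h3]
    apply Finset.sum_bij' (fun (k : ℕ) _ => (k : ZMod (2 * r))) (fun x _ => x.val)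
    · intro k _
      exact mem_univ _
    · intro x _
      exact mem_range.2 (ZMod.val_lt x)
    · intro k hk
      exact ZMod.val_cast_of_lt (mem_range.1 hk)
    · intro x _
      exact ZMod.natCast_zmod_val x
    · intro k _
      rfl
  have hmul : ∀ q : ℕ, ∑ k ∈ range (q * (2 * r)), G ((k : ZMod (2 * r)) + 1) = q * ∑ x, G x := by
    intro q
    induction q with
    | zero => simp
    | succ q ih =>
      rw [Nat.succ_mul, sum_range_add, ih]
      have h4 := hone q
      have h5 : ∀ k : ℕ, q * (2 * r) + k = k + q * (2 * r) := fun k => Nat.add_comm _ _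
      simp_rw [h5]
      rw [h4]
      push_cast
      ring
  have e3 : 2 * (r * m) = m * (2 * r) := by ring
  rw [e3, hmul m, qa, hG, ← sum_div]
  field_simp

/-- the polygon does not change when the right hand sides are replaced by the support numbers -/
theorem poly_supp {m r : ℕ} [NeZero r] (hm : 3 ≤ m) {c f : ZMod (2 * r) → ℝ}
    (h : IsSupp (π / m) r c f) : poly (π / m) r c = poly (π / m) r f := by
  have hr : 0 < r := Nat.pos_of_ne_zero (NeZero.ne r)
  have hrR : (1 : ℝ) ≤ r := by exact_mod_cast hr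
  have hmR : (3 : ℝ) ≤ m := by exact_mod_cast hm
  have hcos : 0 < cos (π / m / r) := by
    apply cos_pos_of_mem_Ioo
    have h0 : 0 < π / m / r := by positivity
    constructor
    · linarith [pi_pos]
    · rw [div_div, div_lt_div_iff_of_pos_left pi_pos (by positivity) (by norm_num)]
      nlinarith
  apply Set.Subset.antisymm
  · intro y hy
    -- the support function of the orbit
    set S : ZMod (2 * r) → Set ℝ := fun x =>
      {t | ∃ j : ℤ, (j : ZMod (2 * r)) = x ∧
        t = y 0 * cos (j * (π / m / r)) + y 1 * sin (j * (π / m / r))} with hS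
    have hne : ∀ x, (S x).Nonempty := by
      intro x
      obtain ⟨j, hj⟩ := ZMod.intCast_surjective x
      exact ⟨_, j, hj, rfl⟩
    have hub : ∀ x, ∀ t ∈ S x, t ≤ c x := by
      rintro x t ⟨j, hj, rfl⟩
      rw [← hj]
      exact hy j
    have hbdd : ∀ x, BddAbove (S x) := fun x => ⟨c x, hub x⟩
    have hmem : ∀ j : ℤ, y 0 * cos (j * (π / m / r)) + y 1 * sin (j * (π / m / r)) ≤
        sSup (S (j : ZMod (2 * r))) := fun j => le_csSup (hbdd _) ⟨j, rfl, rfl⟩
    have hle := h.max (fun x => sSup (S x)) (fun x => csSup_le (hne x) (hub x)) (by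
      intro x
      simp only [el]
      have h1 : sSup (S x) ≤ (sSup (S (x + 1)) + sSup (S (x - 1))) / (2 * cos (π / m / r)) := by
        apply csSup_le (hne x)
        rintro t ⟨j, hj, rfl⟩
        rw [le_div_iff₀ (by positivity)]
        have h2 := hmem (j + 1)
        have h3 := hmem (j - 1)
        have e1 : (((j + 1 : ℤ) : ℝ)) * (π / m / r) = j * (π / m / r) + π / m / r := by
          push_cast; ring
        have e2 : (((j - 1 : ℤ) : ℝ)) * (π / m / r) = j * (π / m / r) - π / m / r := by
          push_cast; ring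
        have e3 : ((j + 1 : ℤ) : ZMod (2 * r)) = x + 1 := by push_cast; rw [hj]
        have e4 : ((j - 1 : ℤ) : ZMod (2 * r)) = x - 1 := by push_cast; rw [hj]
        rw [e1, e3, cos_add, sin_add] at h2
        rw [e2, e4, cos_sub, sin_sub] at h3
        linarith
      rw [le_div_iff₀ (by positivity)] at h1
      linarith)
    intro j
    exact (hmem j).trans (hle _)
  · intro y hy j
    exact (hy j).trans (h.le _)

/-- a polygon of positive area contains the origin in its interior -/
theorem pos_of_poly {m r : ℕ} [NeZero r] (hm : 3 ≤ m) {c : ZMod (2 * r) → ℝ}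
    (h : volume (poly (π / m) r c) ≠ 0) (j : ZMod (2 * r)) : 0 < c j := by
  by_contra hc
  push Not at hc
  apply h
  have hr : 0 < r := Nat.pos_of_ne_zero (NeZero.ne r)
  have hrR : (0 : ℝ) < r := by exact_mod_cast hr
  have hmR : (3 : ℝ) ≤ m := by exact_mod_cast hm
  have hm0 : (0 : ℝ) < m := by linarith
  obtain ⟨i, hi⟩ := ZMod.intCast_surjective j
  have hsub : poly (π / m) r c ⊆ {0} := by
    intro y hy
    set v : ℕ → ℝ := fun k =>
      y 0 * cos (i * (π / m / r) + k * (2 * (π / m))) +
      y 1 * sin (i * (π / m / r) + k * (2 * (π / m))) with hv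
    have hv0 : ∀ k, v k ≤ 0 := by
      intro k
      have h1 := hy (i + k * (2 * r : ℕ))
      have e1 : ((i + k * (2 * r : ℕ) : ℤ) : ℝ) * (π / m / r) =
          i * (π / m / r) + k * (2 * (π / m)) := by
        push_cast
        field_simp
      have e2 : ((i + k * (2 * r : ℕ) : ℤ) : ZMod (2 * r)) = j := by
        have h2 : ((2 * r : ℕ) : ZMod (2 * r)) = 0 := ZMod.natCast_self _
        rw [Int.cast_add, Int.cast_mul, Int.cast_natCast, Int.cast_natCast, h2, mul_zero,
          add_zero, hi]
      rw [e1, e2] at h1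
      exact h1.trans hc
    have hrec : ∀ k, v (k + 2) = 2 * cos (2 * (π / m)) * v (k + 1) - v k := by
      intro k
      simp only [hv]
      have e1 : (i : ℝ) * (π / m / r) + ((k + 2 : ℕ) : ℝ) * (2 * (π / m)) =
          (i * (π / m / r) + ((k + 1 : ℕ) : ℝ) * (2 * (π / m))) + 2 * (π / m) := by
        push_cast; ring
      have e2 : (i : ℝ) * (π / m / r) + (k : ℝ) * (2 * (π / m)) =
          (i * (π / m / r) + ((k + 1 : ℕ) : ℝ) * (2 * (π / m))) - 2 * (π / m) := by
        push_cast; ring
      rw [e1, e2]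
      generalize (i : ℝ) * (π / m / r) + ((k + 1 : ℕ) : ℝ) * (2 * (π / m)) = A
      rw [cos_add, cos_sub, sin_add, sin_sub]
      ring
    have hperv : ∀ k, v (k + m) = v k := by
      intro k
      simp only [hv]
      have e1 : (i : ℝ) * (π / m / r) + ((k + m : ℕ) : ℝ) * (2 * (π / m)) =
          (i * (π / m / r) + (k : ℝ) * (2 * (π / m))) + 2 * π := by
        push_cast
        field_simp
        ring
      rw [e1, cos_add_two_pi, sin_add_two_pi]
    have hshift : ∀ q : ℕ, ∑ k ∈ range m, v (k + q) = ∑ k ∈ range m, v k := by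
      intro q
      induction q with
      | zero => simp
      | succ q ih =>
        rw [← ih]
        have h1 := Finset.sum_range_succ' (fun k => v (k + q)) m
        have h2 := Finset.sum_range_succ (fun k => v (k + q)) m
        rw [h1] at h2
        have h3 : v (m + q) = v (0 + q) := by
          rw [Nat.zero_add, Nat.add_comm m q, hperv]
        simp only [h3] at h2
        have h4 : ∑ k ∈ range m, v (k + (q + 1)) = ∑ k ∈ range m, v (k + 1 + q) := by
          apply sum_congr rfl
          intro k _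
          congr 1
          ring
        rw [h4]
        linarith
    have hcos1 : cos (2 * (π / m)) < 1 := by
      have h1 : 0 < 2 * (π / m) := by positivity
      have h2 : 2 * (π / m) ≤ π := by
        have : π / m ≤ π / 3 := div_le_div_of_nonneg_left pi_pos.le (by norm_num) hmR
        linarith [pi_pos]
      have := cos_lt_cos_of_nonneg_of_le_pi le_rfl h2 h1
      rwa [cos_zero] at this
    have hS0 : ∑ k ∈ range m, v k = 0 := by
      have h1 : ∑ k ∈ range m, v (k + 2) =
          2 * cos (2 * (π / m)) * ∑ k ∈ range m, v (k + 1) - ∑ k ∈ range m, v k := by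
        rw [mul_sum, ← sum_sub_distrib]
        exact sum_congr rfl fun k _ => hrec k
      rw [hshift 2, hshift 1] at h1
      have h2 : (2 * (1 - cos (2 * (π / m)))) * ∑ k ∈ range m, v k = 0 := by linarith
      rcases mul_eq_zero.1 h2 with h3 | h3
      · exfalso
        linarith
      · exact h3
    have hall : ∀ k ∈ range m, v k = 0 := by
      intro k hk
      exact (Finset.sum_eq_zero_iff_of_nonpos (fun k _ => hv0 k)).1 hS0 k hk
    have h0 : v 0 = 0 := hall 0 (mem_range.2 (by omega))
    have h1 : v 1 = 0 := hall 1 (mem_range.2 (by omega))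
    have hsin : 0 < sin (2 * (π / m)) := by
      apply sin_pos_of_pos_of_lt_pi
      · positivity
      · have : π / m ≤ π / 3 := div_le_div_of_nonneg_left pi_pos.le (by norm_num) hmR
        linarith [pi_pos]
    simp only [hv] at h0 h1
    have e0 : (i : ℝ) * (π / m / r) + ((0 : ℕ) : ℝ) * (2 * (π / m)) = i * (π / m / r) := by
      push_cast; ring
    have e1 : (i : ℝ) * (π / m / r) + ((1 : ℕ) : ℝ) * (2 * (π / m)) =
        i * (π / m / r) + 2 * (π / m) := by
      push_cast; ring
    rw [e0] at h0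
    rw [e1, cos_add, sin_add] at h1
    set A := cos (i * (π / m / r))
    set B := sin (i * (π / m / r))
    have hAB : A ^ 2 + B ^ 2 = 1 := cos_sq_add_sin_sq _
    have h2 : sin (2 * (π / m)) * (y 1 * A - y 0 * B) = 0 := by
      linear_combination h1 - cos (2 * (π / m)) * h0
    have h3 : y 1 * A - y 0 * B = 0 := by
      rcases mul_eq_zero.1 h2 with h | h
      · exact absurd h hsin.ne'
      · exact h
    have hy0 : y 0 = 0 := by
      linear_combination (-(y 0)) * hAB + A * h0 - B * h3
    have hy1 : y 1 = 0 := by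
      linear_combination (-(y 1)) * hAB + B * h0 + A * h3
    rw [Set.mem_singleton_iff]
    funext k
    fin_cases k
    · exact hy0
    · exact hy1
  exact measure_mono_null hsub (measure_singleton _)

end Vale.Agent.P227.C2
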