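import Vale.Agent.P227.C2.Defs

/-!
# P227 / C2 : area of a rotation invariant polygon, integer indexed preparations
-/

open Finset Real MeasureTheory

namespace Vale.Agent.P227.C2
namespace AreaA

/-- edge lengths times `sin d` -/
noncomputable def L (d : ℝ) (g : ℤ → ℝ) (j : ℤ) : ℝ := g (j + 1) + g (j - 1) - 2 * cos d * g j

/-- the discrete Wronskian argument -/
lemma fwd {d : ℝ} {g : ℤ → ℝ} (hd0 : 0 < d) (hdpi : d ≤ π) (hL : ∀ j, 0 ≤ L d g j) (j : ℤ)
    (k : ℕ) (hk : (k : ℝ) * d ≤ π) :
    0 ≤ g (j + k) * sin d - g (j + 1) * sin (k * d) + g j * sin ((k - 1) * d) := by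
  have hsd : 0 ≤ sin d := sin_nonneg_of_nonneg_of_le_pi hd0.le hdpi
  set F : ℕ → ℝ := fun k =>
    g (j + k) * sin d - g (j + 1) * sin (k * d) + g j * sin ((k - 1) * d) with hF
  have hF0 : F 0 = 0 := by
    simp [hF]
  have hF1 : F 1 = 0 := by
    simp [hF]
  have hrec : ∀ k : ℕ, F (k + 2) = 2 * cos d * F (k + 1) - F k + sin d * L d g (j + (k + 1)) := by
    intro k
    simp only [hF, L]
    have e1 : g (j + ((k + 2 : ℕ) : ℤ)) = g (j + (k + 1) + 1) := by
      congr 1
      push_cast
      ring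
    have e2 : g (j + ((k + 1 : ℕ) : ℤ)) = g (j + (k + 1)) := by
      congr 1
    have e3 : g (j + (k + 1) - 1) = g (j + (k : ℤ)) := by
      congr 1
      ring
    rw [e1, e2, e3]
    have s1 : sin (((k + 2 : ℕ) : ℝ) * d) =
        2 * cos d * sin (((k + 1 : ℕ) : ℝ) * d) - sin ((k : ℝ) * d) := by
      have h1 : ((k + 2 : ℕ) : ℝ) * d = ((k + 1 : ℕ) : ℝ) * d + d := by push_cast; ring
      have h2 : (k : ℝ) * d = ((k + 1 : ℕ) : ℝ) * d - d := by push_cast; ring
      rw [h1, h2, sin_add, sin_sub]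
      ring
    have s2 : sin ((((k + 2 : ℕ) : ℝ) - 1) * d) =
        2 * cos d * sin ((((k + 1 : ℕ) : ℝ) - 1) * d) - sin (((k : ℝ) - 1) * d) := by
      have h1 : (((k + 2 : ℕ) : ℝ) - 1) * d = (((k + 1 : ℕ) : ℝ) - 1) * d + d := by
        push_cast; ring
      have h2 : ((k : ℝ) - 1) * d = (((k + 1 : ℕ) : ℝ) - 1) * d - d := by push_cast; ring
      rw [h1, h2, sin_add, sin_sub]
      ring
    rw [s1, s2]
    ring
  have hW : ∀ k : ℕ, ((k : ℝ) * d ≤ π) →
      0 ≤ F (k + 1) * sin (k * d) - F k * sin ((k + 1) * d) := by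
    intro k
    induction k with
    | zero =>
      intro _
      simp [hF0]
    | succ k ih =>
      intro hk
      have hk' : (k : ℝ) * d ≤ π := by
        push_cast at hk
        nlinarith
      have h1 := ih hk'
      have h2 : 0 ≤ sin (((k + 1 : ℕ) : ℝ) * d) := by
        apply sin_nonneg_of_nonneg_of_le_pi _ hk
        positivity
      have h3 : F (k + 1 + 1) * sin (((k + 1 : ℕ) : ℝ) * d) -
          F (k + 1) * sin ((((k + 1 : ℕ) : ℝ) + 1) * d) =
          (F (k + 1) * sin (k * d) - F k * sin ((k + 1) * d)) +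
          sin (((k + 1 : ℕ) : ℝ) * d) * (sin d * L d g (j + (k + 1))) := by
        have e := hrec k
        have e' : F (k + 1 + 1) = F (k + 2) := rfl
        rw [e', e]
        have s1 : sin ((((k + 1 : ℕ) : ℝ) + 1) * d) =
            2 * cos d * sin (((k + 1 : ℕ) : ℝ) * d) - sin ((k : ℝ) * d) := by
          have h1 : (((k + 1 : ℕ) : ℝ) + 1) * d = ((k + 1 : ℕ) : ℝ) * d + d := by push_cast; ring
          have h2 : (k : ℝ) * d = ((k + 1 : ℕ) : ℝ) * d - d := by push_cast; ring
          rw [h1, h2, sin_add, sin_sub]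
          ring
        have s2 : ((k : ℝ) + 1) * d = ((k + 1 : ℕ) : ℝ) * d := by push_cast; ring
        rw [s1, s2]
        ring
      rw [h3]
      have h4 := mul_nonneg h2 (mul_nonneg hsd (hL (j + (k + 1))))
      linarith
  have hB : ∀ k : ℕ, ((k : ℝ) * d ≤ π) → 0 ≤ F k := by
    intro k
    induction k with
    | zero =>
      intro _
      rw [hF0]
    | succ k ih =>
      intro hk
      have hk' : (k : ℝ) * d < π := by
        push_cast at hk
        nlinarith
      rcases Nat.eq_zero_or_pos k with h0 | h0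
      · subst h0
        simp only [Nat.zero_add]
        rw [hF1]
      · have h1 := hW k hk'.le
        have h2 := ih hk'.le
        have h3 : 0 < sin ((k : ℝ) * d) := by
          apply sin_pos_of_pos_of_lt_pi _ hk'
          have : (0 : ℝ) < k := by exact_mod_cast h0
          positivity
        have h4 : 0 ≤ sin (((k : ℝ) + 1) * d) := by
          apply sin_nonneg_of_nonneg_of_le_pi
          · positivity
          · push_cast at hk
            exact hk
        have h5 : 0 ≤ F (k + 1) * sin ((k : ℝ) * d) := by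
          have := mul_nonneg h2 h4
          linarith
        by_contra hc
        push Not at hc
        have := mul_neg_of_neg_of_pos hc h3
        linarith
  exact hB k hk

lemma bwd {d : ℝ} {g : ℤ → ℝ} (hd0 : 0 < d) (hdpi : d ≤ π) (hL : ∀ j, 0 ≤ L d g j) (j : ℤ)
    (k : ℕ) (hk : (k : ℝ) * d ≤ π) :
    0 ≤ g (j + 1 - k) * sin d - g j * sin (k * d) + g (j + 1) * sin ((k - 1) * d) := by
  have h := fwd (g := fun i => g (-i)) hd0 hdpi (fun i => by
    have := hL (-i)
    simp only [L] at this ⊢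
    have e1 : -(i + 1) = -i - 1 := by ring
    have e2 : -(i - 1) = -i + 1 := by ring
    rw [e1, e2]
    linarith) (-(j + 1)) k hk
  have e1 : -(-(j + 1) + (k : ℤ)) = j + 1 - k := by ring
  have e2 : -(-(j + 1) + 1) = j := by ring
  have e3 : -(-(j + 1)) = j + 1 := by ring
  rw [e1, e2, e3] at h
  exact h

/-- the vertices of the polygon satisfy all the constraints -/
lemma vert {d : ℝ} {g : ℤ → ℝ} {N : ℕ} (hd0 : 0 < d) (hN : (N : ℝ) * d = π) (hN1 : 1 ≤ N)
    (hper : ∀ j, g (j + 2 * N) = g j) (hL : ∀ j, 0 ≤ L d g j) (j k : ℤ) :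
    g (j + 1) * sin ((k - j) * d) - g j * sin ((k - j - 1) * d) ≤ g k * sin d := by
  have hdpi : d ≤ π := by
    have h1 : (1 : ℝ) ≤ N := by exact_mod_cast hN1
    nlinarith
  -- reduce `k` modulo `2 N`
  have hperZ : ∀ (q : ℤ) (i : ℤ), g (i + q * (2 * N)) = g i := by
    intro q
    induction q using Int.induction_on with
    | zero => intro i; simp
    | succ n ih =>
      intro i
      have e : i + ((n : ℤ) + 1) * (2 * N) = (i + n * (2 * N)) + 2 * N := by ring
      rw [e, hper, ih]
    | pred n ih =>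
      intro i
      have h1 := hper (i + (-(n : ℤ) - 1) * (2 * N))
      have e : i + (-(n : ℤ) - 1) * (2 * N) + 2 * N = i + (-(n : ℤ)) * (2 * N) := by ring
      rw [e, ih] at h1
      exact h1.symm
  have hNpos : (0 : ℤ) < 2 * N := by
    have : (0 : ℤ) < N := by exact_mod_cast hN1
    linarith
  -- residue of `k - j + N - 1`
  set q : ℤ := (k - j + N - 1) / (2 * N) with hq
  set t : ℤ := (k - j + N - 1) % (2 * N) with ht
  have hdiv : (2 * N) * q + t = k - j + N - 1 := Int.mul_ediv_add_emod _ _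
  have ht0 : 0 ≤ t := Int.emod_nonneg _ hNpos.ne'
  have ht1 : t < 2 * N := Int.emod_lt_of_pos _ hNpos
  -- `i = t - N + 1`, `-N + 1 ≤ i ≤ N`
  obtain ⟨i, hi⟩ : ∃ i : ℤ, i = t - N + 1 := ⟨_, rfl⟩
  have hki : k = j + i + q * (2 * N) := by
    rw [hi]
    linarith
  have hgk : g k = g (j + i) := by rw [hki, hperZ]
  have hs : ∀ x : ℤ, sin (((i + x : ℤ) : ℝ) * d) = sin (((k - j + x : ℤ) : ℝ) * d) := by
    intro x
    have e : ((k - j + x : ℤ) : ℝ) * d = ((i + x : ℤ) : ℝ) * d + (q : ℝ) * (2 * π) := by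
      rw [hki, ← hN]
      push_cast
      ring
    rw [e, sin_add_int_mul_two_pi]
  have hs0 : sin (((k : ℝ) - j) * d) = sin ((i : ℝ) * d) := by
    have := hs 0
    push_cast at this
    simp only [add_zero] at this
    exact this.symm
  have hs1 : sin (((k : ℝ) - j - 1) * d) = sin (((i : ℝ) - 1) * d) := by
    have := hs (-1)
    push_cast at this
    rw [← sub_eq_add_neg, ← sub_eq_add_neg] at this
    exact this.symm
  rw [hs0, hs1, hgk]
  have hi1 : i ≤ N := by omega
  have hi2 : -N + 1 ≤ i := by omega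
  rcases le_total 0 i with h0 | h0
  · obtain ⟨n, hn⟩ := Int.eq_ofNat_of_zero_le h0
    have hnN : n ≤ N := by omega
    have h := fwd hd0 hdpi hL j n (by
      rw [← hN]
      have : (n : ℝ) ≤ N := by exact_mod_cast hnN
      nlinarith)
    rw [hn]
    push_cast
    linarith
  · obtain ⟨n, hn⟩ := Int.eq_ofNat_of_zero_le (show (0 : ℤ) ≤ 1 - i by omega)
    have hnN : n ≤ N := by omega
    have h := bwd hd0 hdpi hL j n (by
      rw [← hN]
      have : (n : ℝ) ≤ N := by exact_mod_cast hnN
      nlinarith)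
    have hi' : i = 1 - n := by omega
    have e1 : j + 1 - (n : ℤ) = j + i := by rw [hi']; ring
    rw [e1] at h
    have e2 : sin ((n : ℝ) * d) = - sin (((i : ℝ) - 1) * d) := by
      rw [← sin_neg, hi']
      congr 1
      push_cast
      ring
    have e3 : sin (((n : ℝ) - 1) * d) = - sin ((i : ℝ) * d) := by
      rw [← sin_neg, hi']
      congr 1
      push_cast
      ring
    rw [e2, e3] at h
    linarith

/-- points of the line of the `j`-th edge between the two vertices satisfy all the constraints -/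
lemma ray {d : ℝ} {g : ℤ → ℝ} {N : ℕ} (hd0 : 0 < d) (hN : (N : ℝ) * d = π) (hN1 : 2 ≤ N)
    (hper : ∀ j, g (j + 2 * N) = g j) (hL : ∀ j, 0 ≤ L d g j) (j : ℤ) (s : ℝ)
    (h1 : s * sin d ≤ g (j + 1) - cos d * g j) (h2 : cos d * g j - g (j - 1) ≤ s * sin d)
    (k : ℤ) : g j * cos ((k - j) * d) + s * sin ((k - j) * d) ≤ g k := by
  have hdpi : d < π := by
    have h1 : (2 : ℝ) ≤ N := by exact_mod_cast hN1
    nlinarith
  have hsd : 0 < sin d := sin_pos_of_pos_of_lt_pi hd0 hdpi
  rw [← mul_le_mul_iff_left₀ hsd]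
  rcases le_total 0 (sin (((k : ℝ) - j) * d)) with h | h
  · have hv := vert hd0 hN (by omega) hper hL j k
    have e : sin (((k : ℝ) - j - 1) * d) =
        sin (((k : ℝ) - j) * d) * cos d - cos (((k : ℝ) - j) * d) * sin d := by
      rw [← sin_sub]
      congr 1
      ring
    rw [e] at hv
    have h3 := mul_le_mul_of_nonneg_right h1 h
    nlinarith
  · have hv := vert hd0 hN (by omega) hper hL (j - 1) k
    have e1 : (j - 1 + 1 : ℤ) = j := by ring
    have e : sin (((k : ℝ) - ((j - 1 : ℤ) : ℝ)) * d) =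
        sin (((k : ℝ) - j) * d) * cos d + cos (((k : ℝ) - j) * d) * sin d := by
      rw [← sin_add]
      congr 1
      push_cast
      ring
    have e2 : sin (((k : ℝ) - ((j - 1 : ℤ) : ℝ) - 1) * d) = sin (((k : ℝ) - j) * d) := by
      congr 1
      push_cast
      ring
    rw [e, e1, e2] at hv
    have h3 := mul_le_mul_of_nonpos_right h2 h
    nlinarith

/-- the angles of the vertices, seen from the two adjacent normals -/
lemma link {d : ℝ} {u v : ℝ} (hd0 : 0 < d) (hd : d < π / 2) (hu : 0 < u) (hv : 0 < v) :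
    arctan ((v - cos d * u) / sin d / u) = d + arctan ((cos d * v - u) / sin d / v) := by
  have hsd : 0 < sin d := sin_pos_of_pos_of_lt_pi hd0 (by linarith [pi_pos])
  have hcd : 0 < cos d := cos_pos_of_mem_Ioo ⟨by linarith, hd⟩
  have h1 : d = arctan (tan d) := (arctan_tan (by linarith) hd).symm
  have htan : tan d = sin d / cos d := tan_eq_sin_div_cos d
  have hprod : tan d * ((cos d * v - u) / sin d / v) = 1 - u / (v * cos d) := by
    rw [htan]
    field_simp
  have hlt : tan d * ((cos d * v - u) / sin d / v) < 1 := by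
    rw [hprod]
    have : 0 < u / (v * cos d) := by positivity
    linarith
  have e0 : d + arctan ((cos d * v - u) / sin d / v) =
      arctan (tan d) + arctan ((cos d * v - u) / sin d / v) := by
    rw [arctan_tan (by linarith) hd]
  rw [e0, arctan_add hlt, hprod]
  congr 1
  rw [htan]
  have hsq := sin_sq_add_cos_sq d
  have hne : 1 - (1 - u / (v * cos d)) ≠ 0 := by
    have : 0 < u / (v * cos d) := by positivity
    linarith
  rw [eq_div_iff hne]
  field_simp
  linear_combination (-(u * v)) * hsq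

end AreaA
end Vale.Agent.P227.C2
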