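import Vale.Agent.P227.C2.AreaA

/-!
# P227 / C2 : area of a rotation invariant polygon in polar coordinates
-/

open Finset Real MeasureTheory
open scoped ENNReal

namespace Vale.Agent.P227.C2
namespace AreaA

/-- the polygon in `ℝ × ℝ` -/
def P2 (d : ℝ) (g : ℤ → ℝ) : Set (ℝ × ℝ) :=
  {p | ∀ j : ℤ, p.1 * cos (j * d) + p.2 * sin (j * d) ≤ g j}

lemma isClosed_P2 (d : ℝ) (g : ℤ → ℝ) : IsClosed (P2 d g) := by
  have : P2 d g = ⋂ j : ℤ, {p : ℝ × ℝ | p.1 * cos (j * d) + p.2 * sin (j * d) ≤ g j} := by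
    ext p
    simp [P2]
  rw [this]
  apply isClosed_iInter
  intro j
  apply isClosed_le
  · fun_prop
  · exact continuous_const

/-- half of the square of the radial function -/
noncomputable def Psi (d : ℝ) (g : ℤ → ℝ) (θ : ℝ) : ℝ≥0∞ :=
  ∫⁻ ρ in Set.Ioi (0 : ℝ), ENNReal.ofReal ρ *
    (P2 d g).indicator (fun _ => (1 : ℝ≥0∞)) (ρ * cos θ, ρ * sin θ)

lemma vol_P2 (d : ℝ) (g : ℤ → ℝ) :
    volume (P2 d g) = ∫⁻ θ in Set.Ioo (-π) π, Psi d g θ := by
  have hm : MeasurableSet (P2 d g) := (isClosed_P2 d g).measurableSet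
  rw [← lintegral_indicator_one hm, ← lintegral_comp_polarCoord_symm]
  have ht : polarCoord.target = Set.Ioi (0 : ℝ) ×ˢ Set.Ioo (-π) π := rfl
  rw [ht, Measure.volume_eq_prod, ← Measure.prod_restrict, lintegral_prod_symm]
  · rfl
  · apply Measurable.aemeasurable
    have h1 : Measurable (fun p : ℝ × ℝ => (p.1 * cos p.2, p.1 * sin p.2)) := by fun_prop
    have h2 : Measurable (fun p : ℝ × ℝ => ENNReal.ofReal p.1) := by fun_prop
    exact h2.mul ((measurable_one.indicator hm).comp h1)

/-- integral of `ρ` on `(0, a]` -/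
lemma lint_id {a : ℝ} (ha : 0 ≤ a) :
    ∫⁻ ρ in Set.Ioc (0 : ℝ) a, ENNReal.ofReal ρ = ENNReal.ofReal (a ^ 2 / 2) := by
  rw [← ofReal_integral_eq_lintegral_ofReal]
  · rw [← intervalIntegral.integral_of_le ha, integral_id]
    congr 1
    ring
  · have : IntervalIntegrable (fun x : ℝ => x) volume 0 a := continuous_id.intervalIntegrable _ _
    exact (intervalIntegrable_iff_integrableOn_Ioc_of_le ha).1 this
  · rw [Filter.EventuallyLE, ae_restrict_iff' measurableSet_Ioc]
    exact Filter.Eventually.of_forall fun x hx => hx.1.le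

/-- the radial function on the `j`-th arc -/
lemma Psi_eq {d : ℝ} {g : ℤ → ℝ} {N : ℕ} (hd0 : 0 < d) (hN : (N : ℝ) * d = π) (hN1 : 2 ≤ N)
    (hper : ∀ j, g (j + 2 * N) = g j) (hg : ∀ j, 0 < g j) (hL : ∀ j, 0 ≤ L d g j) (j : ℤ)
    {θ : ℝ}
    (h1 : θ - j * d ≤ arctan ((g (j + 1) - cos d * g j) / sin d / g j))
    (h2 : arctan ((cos d * g j - g (j - 1)) / sin d / g j) ≤ θ - j * d) :
    Psi d g θ = ENNReal.ofReal (g j ^ 2 / 2 * (1 / cos (θ - j * d) ^ 2)) := by
  have hdpi : d < π := by
    have h1 : (2 : ℝ) ≤ N := by exact_mod_cast hN1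
    nlinarith [pi_pos]
  have hsd : 0 < sin d := sin_pos_of_pos_of_lt_pi hd0 hdpi
  set α : ℝ := θ - j * d with hα
  have hα1 : α < π / 2 := lt_of_le_of_lt h1 (arctan_lt_pi_div_two _)
  have hα2 : -(π / 2) < α := lt_of_lt_of_le (neg_pi_div_two_lt_arctan _) h2
  have hc : 0 < cos α := cos_pos_of_mem_Ioo ⟨hα2, hα1⟩
  have hgj := hg j
  set s : ℝ := g j * tan α with hs
  have ht1 : tan α ≤ (g (j + 1) - cos d * g j) / sin d / g j := by
    rw [← tan_arctan ((g (j + 1) - cos d * g j) / sin d / g j)]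
    rcases h1.lt_or_eq with h | h
    · exact (tan_lt_tan_of_lt_of_lt_pi_div_two hα2 (arctan_lt_pi_div_two _) h).le
    · rw [h]
  have ht2 : (cos d * g j - g (j - 1)) / sin d / g j ≤ tan α := by
    rw [← tan_arctan ((cos d * g j - g (j - 1)) / sin d / g j)]
    rcases h2.lt_or_eq with h | h
    · exact (tan_lt_tan_of_lt_of_lt_pi_div_two (neg_pi_div_two_lt_arctan _) hα1 h).le
    · rw [h]
  have hs1 : s * sin d ≤ g (j + 1) - cos d * g j := by
    rw [div_div, le_div_iff₀ (by positivity)] at ht1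
    rw [hs]
    linarith
  have hs2 : cos d * g j - g (j - 1) ≤ s * sin d := by
    rw [div_div, div_le_iff₀ (by positivity)] at ht2
    rw [hs]
    linarith
  have hray := ray hd0 hN hN1 hper hL j s hs1 hs2
  have hsc : s * cos α = g j * sin α := by
    rw [hs, mul_assoc, tan_mul_cos hc.ne']
  have hmem : ∀ ρ : ℝ, 0 < ρ → ((ρ * cos θ, ρ * sin θ) ∈ P2 d g ↔ ρ ≤ g j / cos α) := by
    intro ρ hρ
    rw [le_div_iff₀ hc]
    constructor
    · intro h
      have h3 := h j
      simp only at h3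
      have e : ρ * cos θ * cos (j * d) + ρ * sin θ * sin (j * d) = ρ * cos α := by
        rw [hα, cos_sub]
        ring
      rw [e] at h3
      exact h3
    · intro h k
      simp only
      have e : ρ * cos θ * cos (k * d) + ρ * sin θ * sin (k * d) =
          (ρ * cos α / g j) * (g j * cos ((k - j) * d) + s * sin ((k - j) * d)) := by
        have e1 : ρ * cos θ * cos (k * d) + ρ * sin θ * sin (k * d) = ρ * cos (α - (k - j) * d) := by
          have : α - (k - j) * d = θ - k * d := by rw [hα]; ring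
          rw [this, cos_sub]
          ring
        rw [e1, cos_sub]
        have e2 : (ρ * cos α / g j) * (g j * cos ((k - j) * d) + s * sin ((k - j) * d)) =
            ρ * cos α * cos ((k - j) * d) + ρ / g j * (s * cos α) * sin ((k - j) * d) := by
          field_simp
        rw [e2, hsc]
        field_simp
      rw [e]
      have h4 : 0 < ρ * cos α / g j := by positivity
      have h5 : ρ * cos α / g j ≤ 1 := by
        rw [div_le_one hgj]
        exact h
      have h6 := hray k
      have h7 := hg k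
      calc (ρ * cos α / g j) * (g j * cos ((k - j) * d) + s * sin ((k - j) * d))
          ≤ (ρ * cos α / g j) * g k := mul_le_mul_of_nonneg_left h6 h4.le
        _ ≤ 1 * g k := mul_le_mul_of_nonneg_right h5 h7.le
        _ = g k := one_mul _
  have ha : 0 < g j / cos α := by positivity
  have e : Psi d g θ = ∫⁻ ρ in Set.Ioc (0 : ℝ) (g j / cos α), ENNReal.ofReal ρ := by
    rw [Psi, ← lintegral_indicator measurableSet_Ioi, ← lintegral_indicator measurableSet_Ioc]
    congr 1
    funext ρ
    by_cases hρ : 0 < ρ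
    · rw [Set.indicator_of_mem (show ρ ∈ Set.Ioi (0 : ℝ) from hρ)]
      by_cases h : ρ ≤ g j / cos α
      · rw [Set.indicator_of_mem ((hmem ρ hρ).2 h),
          Set.indicator_of_mem (show ρ ∈ Set.Ioc (0 : ℝ) (g j / cos α) from ⟨hρ, h⟩), mul_one]
      · rw [Set.indicator_of_notMem (fun h' => h ((hmem ρ hρ).1 h')),
          Set.indicator_of_notMem (fun h' : ρ ∈ Set.Ioc (0 : ℝ) (g j / cos α) => h h'.2), mul_zero]
    · rw [Set.indicator_of_notMem (show ρ ∉ Set.Ioi (0 : ℝ) from hρ),
        Set.indicator_of_notMem (fun h' : ρ ∈ Set.Ioc (0 : ℝ) (g j / cos α) => hρ h'.1)]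
  rw [e, lint_id ha.le]
  congr 1
  field_simp

/-- the integral over the `j`-th arc -/
lemma piece {d : ℝ} {g : ℤ → ℝ} {N : ℕ} (hd0 : 0 < d) (hN : (N : ℝ) * d = π) (hN1 : 2 ≤ N)
    (hper : ∀ j, g (j + 2 * N) = g j) (hg : ∀ j, 0 < g j) (hL : ∀ j, 0 ≤ L d g j) (j : ℤ) :
    ∫⁻ θ in Set.Ioc (j * d + arctan ((cos d * g j - g (j - 1)) / sin d / g j))
      (j * d + arctan ((g (j + 1) - cos d * g j) / sin d / g j)), Psi d g θ =
      ENNReal.ofReal (g j * L d g j / (2 * sin d)) := by
  have hdpi : d < π := by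
    have h1 : (2 : ℝ) ≤ N := by exact_mod_cast hN1
    nlinarith [pi_pos]
  have hsd : 0 < sin d := sin_pos_of_pos_of_lt_pi hd0 hdpi
  have hgj := hg j
  have hcong : ∫⁻ θ in Set.Ioc (j * d + arctan ((cos d * g j - g (j - 1)) / sin d / g j))
      (j * d + arctan ((g (j + 1) - cos d * g j) / sin d / g j)), Psi d g θ =
      ∫⁻ θ in Set.Ioc (j * d + arctan ((cos d * g j - g (j - 1)) / sin d / g j))
      (j * d + arctan ((g (j + 1) - cos d * g j) / sin d / g j)),
      ENNReal.ofReal (g j ^ 2 / 2 * (1 / cos (θ - j * d) ^ 2)) := by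
    apply setLIntegral_congr_fun measurableSet_Ioc
    intro θ hθ
    exact Psi_eq hd0 hN hN1 hper hg hL j (by linarith [hθ.2]) (by linarith [hθ.1])
  rw [hcong]
  set A := arctan ((cos d * g j - g (j - 1)) / sin d / g j) with hA
  set B := arctan ((g (j + 1) - cos d * g j) / sin d / g j) with hB
  have hAB : A ≤ B := by
    apply arctan_strictMono.monotone
    apply div_le_div_of_nonneg_right _ hgj.le
    apply div_le_div_of_nonneg_right _ hsd.le
    have := hL j
    simp only [L] at this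
    linarith
  have hcos : ∀ θ ∈ Set.Icc (j * d + A) (j * d + B), cos (θ - j * d) ≠ 0 := by
    intro θ hθ
    apply (cos_pos_of_mem_Ioo ⟨_, _⟩).ne'
    · have := neg_pi_div_two_lt_arctan ((cos d * g j - g (j - 1)) / sin d / g j)
      rw [← hA] at this
      linarith [hθ.1]
    · have := arctan_lt_pi_div_two ((g (j + 1) - cos d * g j) / sin d / g j)
      rw [← hB] at this
      linarith [hθ.2]
  have hcont : ContinuousOn (fun θ : ℝ => g j ^ 2 / 2 * (1 / cos (θ - j * d) ^ 2))
      (Set.Icc (j * d + A) (j * d + B)) := by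
    apply ContinuousOn.mul continuousOn_const
    apply ContinuousOn.div continuousOn_const
    · fun_prop
    · intro θ hθ
      exact pow_ne_zero 2 (hcos θ hθ)
  have hle : j * d + A ≤ j * d + B := by linarith
  have hint : IntervalIntegrable (fun θ : ℝ => g j ^ 2 / 2 * (1 / cos (θ - j * d) ^ 2)) volume
      (j * d + A) (j * d + B) := by
    apply ContinuousOn.intervalIntegrable
    rw [Set.uIcc_of_le hle]
    exact hcont
  rw [← ofReal_integral_eq_lintegral_ofReal]
  · congr 1
    rw [← intervalIntegral.integral_of_le hle]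
    have hder : ∀ θ ∈ Set.uIcc (j * d + A) (j * d + B),
        HasDerivAt (fun θ : ℝ => g j ^ 2 / 2 * tan (θ - j * d))
          (g j ^ 2 / 2 * (1 / cos (θ - j * d) ^ 2)) θ := by
      intro θ hθ
      rw [Set.uIcc_of_le hle] at hθ
      have h1 := (hasDerivAt_tan (hcos θ hθ)).comp_sub_const θ (j * d)
      exact h1.const_mul (g j ^ 2 / 2)
    rw [intervalIntegral.integral_eq_sub_of_hasDerivAt hder hint]
    have e1 : (j : ℝ) * d + B - j * d = B := by ring
    have e2 : (j : ℝ) * d + A - j * d = A := by ring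
    rw [e1, e2, hA, hB, tan_arctan, tan_arctan, L]
    field_simp
    ring
  · exact (intervalIntegrable_iff_integrableOn_Ioc_of_le hle).1 hint
  · exact Filter.Eventually.of_forall fun θ => by positivity

end AreaA
end Vale.Agent.P227.C2
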