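import Mathlib

/-!
# P227 / C2 : common rotation of odd order `m ≥ 3` in `R³` (definitions)

`b = π / m`, normals at the angles `j b / r`, everything of period `2 r` (rotation invariance).
-/

open Finset Real MeasureTheory

namespace Vale.Agent.P227.C2

/-- the kernel: `cos (b - b k / r)` for `0 ≤ k < 2 r` -/
noncomputable def ck (b : ℝ) (r : ℕ) (k : ZMod (2 * r)) : ℝ := cos (b - b / r * (k.val : ℝ))

/-- convolution with the kernel -/
noncomputable def cv (b : ℝ) (r : ℕ) [NeZero r] (x : ZMod (2 * r) → ℝ) (i : ZMod (2 * r)) : ℝ :=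
  ∑ j, ck b r (i - j) * x j

/-- edge lengths, times `sin (b / r)`, for the support numbers `f` -/
noncomputable def el (b : ℝ) (r : ℕ) (f : ZMod (2 * r) → ℝ) (j : ZMod (2 * r)) : ℝ :=
  f (j + 1) + f (j - 1) - 2 * cos (b / r) * f j

/-- area, up to the factor `m / (2 sin (b / r))` -/
noncomputable def qa (b : ℝ) (r : ℕ) [NeZero r] (f : ZMod (2 * r) → ℝ) : ℝ :=
  ∑ j, f j * el b r f j

/-- `f` is the sequence of support numbers of the polygon `y.n_j ≤ c j`: the largest sequence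
below `c` with nonnegative edge lengths -/
structure IsSupp (b : ℝ) (r : ℕ) (c f : ZMod (2 * r) → ℝ) : Prop where
  le : ∀ j, f j ≤ c j
  adm : ∀ j, 0 ≤ el b r f j
  max : ∀ g : ZMod (2 * r) → ℝ, (∀ j, g j ≤ c j) → (∀ j, 0 ≤ el b r g j) → ∀ j, g j ≤ f j

/-- the polygon `y.n_j ≤ c j` -/
def poly (b : ℝ) (r : ℕ) (c : ZMod (2 * r) → ℝ) : Set (Fin 2 → ℝ) :=
  {y | ∀ j : ℤ, y 0 * cos (j * (b / r)) + y 1 * sin (j * (b / r)) ≤ c (j : ZMod (2 * r))}

/-- right hand sides of the section at height one of the system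
`v x_0 + x'.n_j ≤ G j v`, `v ∈ V` -/
noncomputable def cm {r : ℕ} (V : Finset ℝ) (hV : V.Nonempty) (G : ZMod (2 * r) → ℝ → ℝ)
    (j : ZMod (2 * r)) : ℝ :=
  V.inf' hV fun v => G j v - v

/-- the polyhedron `v x_0 + x'.n_j ≤ H j v`, `v ∈ V` -/
def pol3 (b : ℝ) (r : ℕ) (V : Finset ℝ) (H : ZMod (2 * r) → ℝ → ℝ) : Set (Fin 3 → ℝ) :=
  {x | ∀ j : ℤ, ∀ v ∈ V,
    x 0 * v + x 1 * cos (j * (b / r)) + x 2 * sin (j * (b / r)) ≤ H (j : ZMod (2 * r)) v}

/-- rotation of angle `θ` about the zeroth axis -/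
noncomputable def rot (θ : ℝ) (x : Fin 3 → ℝ) : Fin 3 → ℝ :=
  ![x 0, x 1 * cos θ - x 2 * sin θ, x 1 * sin θ + x 2 * cos θ]

end Vale.Agent.P227.C2
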