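import Vale.Agent.P227.T1.Refl
import Vale.Agent.P227.C2.Defs

/-!
# P227 / C2 : the system of the normals `(v, cos (j b / r), sin (j b / r))` of a body
-/

open Finset Real MeasureTheory Filter Topology
open scoped ENNReal Matrix

namespace Vale.Agent.P227.C2

open Vale.Agent.P227.T1

/-- the direction with the height `v` and the angle `θ` -/
noncomputable def lu (v θ : ℝ) : Fin 3 → ℝ := ![v, cos θ, sin θ]

theorem lu_ne (v θ : ℝ) : lu v θ ≠ 0 := by
  intro h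
  have h1 : cos θ = 0 := congrFun h 1
  have h2 : sin θ = 0 := congrFun h 2
  have h3 := sin_sq_add_cos_sq θ
  rw [h1, h2] at h3
  norm_num at h3

theorem dot_lu (x : Fin 3 → ℝ) (v θ : ℝ) :
    x ⬝ᵥ lu v θ = x 0 * v + x 1 * cos θ + x 2 * sin θ := by
  simp [lu, dotProduct, Fin.sum_univ_three]

theorem rot_dot (θ φ v : ℝ) (x : Fin 3 → ℝ) : rot θ x ⬝ᵥ lu v (φ + θ) = x ⬝ᵥ lu v φ := by
  rw [dot_lu, dot_lu]
  have e0 : rot θ x 0 = x 0 := rfl
  have e1 : rot θ x 1 = x 1 * cos θ - x 2 * sin θ := rfl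
  have e2 : rot θ x 2 = x 1 * sin θ + x 2 * cos θ := rfl
  have h1 : cos φ = cos (φ + θ) * cos θ + sin (φ + θ) * sin θ := by
    rw [← cos_sub]
    ring_nf
  have h2 : sin φ = sin (φ + θ) * cos θ - cos (φ + θ) * sin θ := by
    rw [← sin_sub]
    ring_nf
  rw [e0, e1, e2, h1, h2]
  ring

section body

variable {K : Set (Fin 3 → ℝ)}

theorem hs_rot_le (hK : IsCompact K) (nK : K.Nonempty) {θ : ℝ} (rK : ∀ x ∈ K, rot θ x ∈ K)
    (v φ : ℝ) : hs K (lu v φ) ≤ hs K (lu v (φ + θ)) :=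
  hs_le nK fun x hx => by
    rw [← rot_dot θ]
    exact le_hs hK (rK x hx) _

theorem hs_rot_eq (hK : IsCompact K) (nK : K.Nonempty) {m : ℕ} (hm : 3 ≤ m)
    (rK : ∀ x ∈ K, rot (2 * π / m) x ∈ K) (v φ : ℝ) :
    hs K (lu v (φ + 2 * π / m)) = hs K (lu v φ) := by
  refine le_antisymm ?_ (hs_rot_le hK nK rK v φ)
  have h1 : ∀ k : ℕ, hs K (lu v (φ + 2 * π / m)) ≤ hs K (lu v (φ + (k + 1) * (2 * π / m))) := by
    intro k
    induction k with
    | zero =>
      refine le_of_eq ?_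
      congr 2
      push_cast
      ring
    | succ k ih =>
      refine ih.trans ((hs_rot_le hK nK rK v _).trans (le_of_eq ?_))
      congr 2
      push_cast
      ring
  have hm0 : (m : ℝ) ≠ 0 := by positivity
  refine (h1 (m - 1)).trans (le_of_eq ?_)
  have e : φ + (((m - 1 : ℕ) : ℝ) + 1) * (2 * π / m) = φ + 2 * π := by
    have : ((m - 1 : ℕ) : ℝ) + 1 = m := by
      rw [Nat.cast_sub (by omega)]
      push_cast
      ring
    rw [this]
    field_simp
  rw [e]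
  unfold lu
  rw [cos_add_two_pi, sin_add_two_pi]

theorem hs_rot_nat (hK : IsCompact K) (nK : K.Nonempty) {m : ℕ} (hm : 3 ≤ m)
    (rK : ∀ x ∈ K, rot (2 * π / m) x ∈ K) (v φ : ℝ) (k : ℕ) :
    hs K (lu v (φ + k * (2 * π / m))) = hs K (lu v φ) := by
  induction k with
  | zero => simp
  | succ k ih =>
    rw [← ih, ← hs_rot_eq hK nK hm rK v (φ + k * (2 * π / m))]
    congr 2
    push_cast
    ring

theorem hs_rot_int (hK : IsCompact K) (nK : K.Nonempty) {m : ℕ} (hm : 3 ≤ m)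
    (rK : ∀ x ∈ K, rot (2 * π / m) x ∈ K) (v φ : ℝ) (k : ℤ) :
    hs K (lu v (φ + k * (2 * π / m))) = hs K (lu v φ) := by
  obtain ⟨n, rfl | rfl⟩ := k.eq_nat_or_neg
  · exact_mod_cast hs_rot_nat hK nK hm rK v φ n
  · rw [← hs_rot_nat hK nK hm rK v _ n]
    congr 2
    push_cast
    ring

theorem hs_odd (hK : IsCompact K) (nK : K.Nonempty) (sK : ∀ x ∈ K, -x ∈ K) {m : ℕ}
    (hm : 3 ≤ m) (hodd : Odd m) (rK : ∀ x ∈ K, rot (2 * π / m) x ∈ K) (v φ : ℝ) :
    hs K (lu (-v) (φ + π / m)) = hs K (lu v φ) := by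
  obtain ⟨k, hk⟩ := hodd
  rw [← hs_rot_nat hK nK hm rK (-v) _ k, ← hs_neg hK nK sK (lu v φ)]
  congr 1
  have hm0 : (m : ℝ) ≠ 0 := by positivity
  have hmk : (m : ℝ) = 2 * k + 1 := by exact_mod_cast hk
  have e : φ + π / m + k * (2 * π / m) = φ + π := by
    have : π / m + k * (2 * π / m) = π * ((2 * k + 1) / m) := by ring
    rw [add_assoc, this, ← hmk, div_self hm0, mul_one]
  rw [e]
  unfold lu
  rw [cos_add_pi, sin_add_pi]
  simp

/-- the support numbers of a body -/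
noncomputable def hN (K : Set (Fin 3 → ℝ)) (m r : ℕ) (j : ZMod (2 * r)) (v : ℝ) : ℝ :=
  hs K (lu v (j.val * (π / m / r)))

theorem hN_int (hK : IsCompact K) (nK : K.Nonempty) {m r : ℕ} [NeZero r] (hm : 3 ≤ m)
    (rK : ∀ x ∈ K, rot (2 * π / m) x ∈ K) (v : ℝ) (z : ℤ) :
    hN K m r (z : ZMod (2 * r)) v = hs K (lu v (z * (π / m / r))) := by
  have hr : (r : ℝ) ≠ 0 := by exact_mod_cast NeZero.ne r
  have hm0 : (m : ℝ) ≠ 0 := by positivity
  unfold hN
  rw [← hs_rot_int hK nK hm rK v ((((z : ZMod (2 * r)).val : ℕ) : ℝ) * (π / m / r))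
    (z / ((2 * r : ℕ) : ℤ))]
  congr 2
  have h1 : (((z : ZMod (2 * r)).val : ℕ) : ℤ) = z % ((2 * r : ℕ) : ℤ) := ZMod.val_intCast z
  have h2 : z % ((2 * r : ℕ) : ℤ) + ((2 * r : ℕ) : ℤ) * (z / ((2 * r : ℕ) : ℤ)) = z :=
    Int.emod_add_mul_ediv z _
  have h3 : (((z : ZMod (2 * r)).val : ℕ) : ℝ) = z - (2 * r) * ((z / ((2 * r : ℕ) : ℤ) : ℤ) : ℝ) := by
    have h4 : (((z : ZMod (2 * r)).val : ℕ) : ℤ) = z - (2 * r) * (z / ((2 * r : ℕ) : ℤ)) := by
      rw [h1]
      push_cast at h2 ⊢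
      linarith
    exact_mod_cast h4
  rw [h3]
  field_simp
  ring

theorem hN_add (hK : IsCompact K) (nK : K.Nonempty) (sK : ∀ x ∈ K, -x ∈ K) {m r : ℕ} [NeZero r]
    (hm : 3 ≤ m) (hodd : Odd m) (rK : ∀ x ∈ K, rot (2 * π / m) x ∈ K) (v : ℝ)
    (j : ZMod (2 * r)) : hN K m r (j + r) (-v) = hN K m r j v := by
  have hr : (r : ℝ) ≠ 0 := by exact_mod_cast NeZero.ne r
  have e1 : j = ((j.val : ℤ) : ZMod (2 * r)) := by simp
  have e2 : j + r = (((j.val : ℤ) + r : ℤ) : ZMod (2 * r)) := by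
    push_cast
    simp
  have e3 : hN K m r j v = hs K (lu v (j.val * (π / m / r))) := rfl
  rw [e2, hN_int hK nK hm rK, e3, ← hs_odd hK nK sK hm hodd rK v (j.val * (π / m / r))]
  congr 2
  push_cast
  field_simp

theorem hN_pos (hK : IsCompact K) (sK : ∀ x ∈ K, -x ∈ K) (vK : volume K ≠ 0) (m r : ℕ)
    (j : ZMod (2 * r)) (v : ℝ) : 0 < hN K m r j v := hs_pos hK sK vK (lu_ne _ _)

end body

/-! ### The grids -/

/-- the heights `k / 2^N`, `|k| ≤ 4^N` -/
noncomputable def VV (N : ℕ) : Finset ℝ :=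
  (Finset.Icc (-(4 ^ N : ℤ)) (4 ^ N : ℤ)).image fun k : ℤ => (k : ℝ) / 2 ^ N

theorem mem_VV {N : ℕ} {v : ℝ} : v ∈ VV N ↔ ∃ k : ℤ, |k| ≤ 4 ^ N ∧ v = k / 2 ^ N := by
  unfold VV
  simp only [Finset.mem_image, Finset.mem_Icc, abs_le]
  constructor
  · rintro ⟨k, h, rfl⟩
    exact ⟨k, h, rfl⟩
  · rintro ⟨k, h, rfl⟩
    exact ⟨k, h, rfl⟩

theorem VV_nonempty (N : ℕ) : (VV N).Nonempty :=
  ⟨0, mem_VV.2 ⟨0, by simp, by simp⟩⟩

theorem VV_neg {N : ℕ} {v : ℝ} (h : v ∈ VV N) : -v ∈ VV N := by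
  obtain ⟨k, hk, rfl⟩ := mem_VV.1 h
  exact mem_VV.2 ⟨-k, by rwa [abs_neg], by push_cast; ring⟩

theorem VV_succ {N : ℕ} {v : ℝ} (h : v ∈ VV N) : v ∈ VV (N + 1) := by
  obtain ⟨k, hk, rfl⟩ := mem_VV.1 h
  refine mem_VV.2 ⟨2 * k, ?_, ?_⟩
  · rw [abs_mul, pow_succ]
    have : (0 : ℤ) ≤ 4 ^ N := by positivity
    have h2 : |(2 : ℤ)| = 2 := rfl
    rw [h2]
    linarith
  · push_cast
    rw [pow_succ]
    field_simp

/-- the polyhedron of the inequalities `x.u ≤ F u` for the directions of the grid -/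
def PP (b : ℝ) (F : (Fin 3 → ℝ) → ℝ) (N : ℕ) : Set (Fin 3 → ℝ) :=
  {x | ∀ j : ℤ, ∀ v ∈ VV N, x ⬝ᵥ lu v (j * (b / 2 ^ N)) ≤ F (lu v (j * (b / 2 ^ N)))}

theorem PP_closed (b : ℝ) (F : (Fin 3 → ℝ) → ℝ) (N : ℕ) : IsClosed (PP b F N) := by
  have : PP b F N = ⋂ j : ℤ, ⋂ v ∈ VV N,
      {x | x ⬝ᵥ lu v (j * (b / 2 ^ N)) ≤ F (lu v (j * (b / 2 ^ N)))} := by
    ext x
    simp [PP]
  rw [this]
  refine isClosed_iInter fun j => isClosed_iInter fun v => isClosed_iInter fun _ => ?_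
  refine isClosed_le ?_ continuous_const
  simp only [dot_lu]
  fun_prop

theorem PP_anti (b : ℝ) (F : (Fin 3 → ℝ) → ℝ) : Antitone (PP b F) := by
  refine antitone_nat_of_succ_le fun N => ?_
  intro x hx j v hv
  have h := hx (2 * j) v (VV_succ hv)
  have e : ((2 * j : ℤ) : ℝ) * (b / 2 ^ (N + 1)) = j * (b / 2 ^ N) := by
    push_cast
    rw [pow_succ]
    field_simp
  rwa [e] at h

theorem PP_bounded {m : ℕ} (hm : 3 ≤ m) (F : (Fin 3 → ℝ) → ℝ) :
    Bornology.IsBounded (PP (π / m) F 0) := by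
  have hm0 : (0 : ℝ) < m := by positivity
  have hb : 0 < π / m := by positivity
  have hb1 : π / m < π := by
    rw [div_lt_iff₀ hm0]
    have : (3 : ℝ) ≤ m := by exact_mod_cast hm
    nlinarith [pi_pos]
  have hs : 0 < sin (π / m) := sin_pos_of_pos_of_lt_pi hb hb1
  have h0 : (0 : ℝ) ∈ VV 0 := mem_VV.2 ⟨0, by simp, by simp⟩
  have h1 : (1 : ℝ) ∈ VV 0 := mem_VV.2 ⟨1, by simp, by simp⟩
  have h2 : (-1 : ℝ) ∈ VV 0 := VV_neg h1
  set A1 := |F (lu 0 0)|
  set A2 := |F (lu 0 π)|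
  set A3 := |F (lu 0 (π / m))|
  set A4 := |F (lu 0 (π / m + π))|
  set A5 := |F (lu 1 0)|
  set A6 := |F (lu (-1) 0)|
  set R1 := A1 + A2 with hR1
  set R2 := (A3 + A4 + R1) / sin (π / m) with hR2
  set R0 := A5 + A6 + R1 with hR0
  rw [isBounded_iff_forall_norm_le]
  refine ⟨R0 + R1 + R2, fun x hx => ?_⟩
  have hA1 : 0 ≤ A1 := abs_nonneg _
  have hA2 : 0 ≤ A2 := abs_nonneg _
  have hA3 : 0 ≤ A3 := abs_nonneg _
  have hA4 : 0 ≤ A4 := abs_nonneg _
  have hA5 : 0 ≤ A5 := abs_nonneg _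
  have hA6 : 0 ≤ A6 := abs_nonneg _
  have hR20 : 0 ≤ R2 := by positivity
  have e0 : ∀ j : ℤ, (j : ℝ) * (π / m / 2 ^ 0) = j * (π / m) := fun j => by simp
  have g1 := hx 0 0 h0
  have g2 := hx m 0 h0
  have g3 := hx 1 0 h0
  have g4 := hx (1 + m) 0 h0
  have g5 := hx 0 1 h1
  have g6 := hx 0 (-1) h2
  rw [e0] at g1 g2 g3 g4 g5 g6
  have e1 : (((m : ℕ) : ℤ) : ℝ) * (π / m) = π := by
    push_cast
    field_simp
  have e2 : ((1 + ((m : ℕ) : ℤ) : ℤ) : ℝ) * (π / m) = π / m + π := by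
    push_cast
    field_simp
  rw [e1] at g2
  rw [e2] at g4
  simp only [Int.cast_zero, Int.cast_one, zero_mul, one_mul] at g1 g3 g5 g6
  have k1 := g1.trans (le_abs_self _)
  have k2 := g2.trans (le_abs_self _)
  have k3 := g3.trans (le_abs_self _)
  have k4 := g4.trans (le_abs_self _)
  have k5 := g5.trans (le_abs_self _)
  have k6 := g6.trans (le_abs_self _)
  rw [dot_lu] at k1 k2 k3 k4 k5 k6
  rw [cos_zero, sin_zero] at k1 k5 k6
  rw [cos_pi, sin_pi] at k2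
  rw [cos_add_pi, sin_add_pi] at k4
  have x1 : |x 1| ≤ R1 := by
    rw [abs_le]
    constructor <;> linarith
  have x1' := abs_le.1 x1
  have x0 : |x 0| ≤ R0 := by
    rw [abs_le]
    constructor <;> linarith
  have hc := cos_le_one (π / m)
  have hc' := neg_one_le_cos (π / m)
  have hcx : |x 1 * cos (π / m)| ≤ R1 := by
    rw [abs_mul]
    have : |cos (π / m)| ≤ 1 := abs_cos_le_one _
    nlinarith [abs_nonneg (x 1), abs_nonneg (cos (π / m))]
  have hcx' := abs_le.1 hcx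
  have x2 : |x 2| ≤ R2 := by
    have e : |x 2| * sin (π / m) = |x 2 * sin (π / m)| := by rw [abs_mul, abs_of_pos hs]
    rw [hR2, le_div_iff₀ hs, e, abs_le]
    constructor <;> linarith
  rw [pi_norm_le_iff_of_nonneg (by positivity)]
  intro i
  rw [Real.norm_eq_abs]
  have hR00 : 0 ≤ R0 := by positivity
  have hR10 : 0 ≤ R1 := by positivity
  fin_cases i
  · show |x 0| ≤ _
    linarith
  · show |x 1| ≤ _
    linarith
  · show |x 2| ≤ _
    linarith

theorem fl_lim (v : ℝ) :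
    Tendsto (fun N : ℕ => (⌊v * 2 ^ N⌋ : ℝ) / 2 ^ N) atTop (𝓝 v) := by
  have h2 : Tendsto (fun N : ℕ => v - 1 / (2 : ℝ) ^ N) atTop (𝓝 v) := by
    have h1 : Tendsto (fun N : ℕ => 1 / (2 : ℝ) ^ N) atTop (𝓝 0) :=
      (tendsto_pow_atTop_atTop_of_one_lt (by norm_num)).const_div_atTop 1
    have := h1.const_sub v
    rwa [sub_zero] at this
  refine tendsto_of_tendsto_of_tendsto_of_le_of_le h2 tendsto_const_nhds (fun N => ?_) (fun N => ?_)
  · have h3 : (0 : ℝ) < 2 ^ N := by positivity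
    have h4 := Int.lt_floor_add_one (v * 2 ^ N)
    show v - 1 / 2 ^ N ≤ (⌊v * 2 ^ N⌋ : ℝ) / 2 ^ N
    rw [le_div_iff₀ h3, sub_mul, div_mul_cancel₀ _ h3.ne']
    linarith
  · have h3 : (0 : ℝ) < 2 ^ N := by positivity
    show (⌊v * 2 ^ N⌋ : ℝ) / 2 ^ N ≤ v
    rw [div_le_iff₀ h3]
    exact Int.floor_le _

/-- the polyhedra decrease to the Wulff shape -/
theorem PP_inter {b : ℝ} (hb : 0 < b) {F : (Fin 3 → ℝ) → ℝ} (hF : Continuous F)
    (hom : ∀ c : ℝ, 0 ≤ c → ∀ u, F (c • u) = c * F u) : (⋂ N, PP b F N) ⊆ wf F := by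
  intro x hx
  rw [Set.mem_iInter] at hx
  have hlu : Continuous fun p : ℝ × ℝ => lu p.1 p.2 := by
    refine continuous_pi fun i => ?_
    fin_cases i
    · exact continuous_fst
    · exact continuous_cos.comp continuous_snd
    · exact continuous_sin.comp continuous_snd
  have hdot : ∀ y : Fin 3 → ℝ, Continuous fun u : Fin 3 → ℝ => y ⬝ᵥ u := by
    intro y
    simp only [dotProduct]
    fun_prop
  -- all directions with a nonzero horizontal part
  have key : ∀ v θ : ℝ, x ⬝ᵥ lu v θ ≤ F (lu v θ) := by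
    intro v θ
    have h2 : Tendsto (fun N : ℕ => (2 : ℝ) ^ N) atTop atTop :=
      tendsto_pow_atTop_atTop_of_one_lt (by norm_num)
    have l1 := fl_lim v
    have l2 : Tendsto (fun N : ℕ => (⌊θ / b * 2 ^ N⌋ : ℝ) * (b / 2 ^ N)) atTop (𝓝 θ) := by
      have := (fl_lim (θ / b)).mul_const b
      rw [div_mul_cancel₀ _ hb.ne'] at this
      refine this.congr fun N => ?_
      ring
    have l3 : Tendsto (fun N : ℕ => lu ((⌊v * 2 ^ N⌋ : ℝ) / 2 ^ N)
        ((⌊θ / b * 2 ^ N⌋ : ℝ) * (b / 2 ^ N))) atTop (𝓝 (lu v θ)) :=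
      (hlu.tendsto (v, θ)).comp (l1.prodMk_nhds l2)
    refine le_of_tendsto_of_tendsto (((hdot x).tendsto _).comp l3) ((hF.tendsto _).comp l3) ?_
    have h3 : ∀ᶠ N : ℕ in atTop, |v| + 1 ≤ (2 : ℝ) ^ N := h2.eventually_ge_atTop _
    filter_upwards [h3] with N hN
    refine hx N _ _ (mem_VV.2 ⟨⌊v * 2 ^ N⌋, ?_, rfl⟩)
    have h4 : (|⌊v * 2 ^ N⌋| : ℝ) ≤ 4 ^ N := by
      have h5 := Int.floor_le (v * 2 ^ N)
      have h6 := Int.lt_floor_add_one (v * 2 ^ N)
      have h7 : (1 : ℝ) ≤ 2 ^ N := one_le_pow₀ (by norm_num)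
      have h8 : (4 : ℝ) ^ N = 2 ^ N * 2 ^ N := by
        rw [← mul_pow]
        norm_num
      have h9 : |v * 2 ^ N| ≤ |v| * 2 ^ N := by rw [abs_mul, abs_of_pos (by positivity : (0 : ℝ) < 2 ^ N)]
      have h10 := abs_le.1 h9
      have h11 : (|v| + 1) * 2 ^ N ≤ 2 ^ N * 2 ^ N := mul_le_mul_of_nonneg_right hN (by positivity)
      rw [h8, abs_le]
      constructor <;> linarith
    exact_mod_cast h4
  -- directions with a nonzero horizontal part, by homogeneity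
  have key2 : ∀ u : Fin 3 → ℝ, 0 < u 1 → x ⬝ᵥ u ≤ F u := by
    intro u hu
    set c := √(u 1 ^ 2 + u 2 ^ 2) with hc
    have hc0 : 0 < c := Real.sqrt_pos.2 (by positivity)
    have hc2 : c ^ 2 = u 1 ^ 2 + u 2 ^ 2 := Real.sq_sqrt (by positivity)
    set θ := arctan (u 2 / u 1) with hθ
    have e1 : cos θ = u 1 / c := by
      rw [hθ, cos_arctan]
      have : √(1 + (u 2 / u 1) ^ 2) = c / u 1 := by
        rw [Real.sqrt_eq_iff_mul_self_eq (by positivity) (by positivity)]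
        field_simp
        rw [hc2]
      rw [this]
      field_simp
    have e2 : sin θ = u 2 / c := by
      rw [hθ, sin_arctan]
      have : √(1 + (u 2 / u 1) ^ 2) = c / u 1 := by
        rw [Real.sqrt_eq_iff_mul_self_eq (by positivity) (by positivity)]
        field_simp
        rw [hc2]
      rw [this]
      field_simp
    have e3 : u = c • lu (u 0 / c) θ := by
      funext i
      fin_cases i
      · show u 0 = c * (u 0 / c)
        field_simp
      · show u 1 = c * cos θ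
        rw [e1]
        field_simp
      · show u 2 = c * sin θ
        rw [e2]
        field_simp
    rw [e3, hom c hc0.le, dotProduct_smul, smul_eq_mul]
    exact mul_le_mul_of_nonneg_left (key _ _) hc0.le
  have key2' : ∀ u : Fin 3 → ℝ, u 1 < 0 → x ⬝ᵥ u ≤ F u := by
    intro u hu
    have hu' : u 1 ≠ 0 := hu.ne
    set c := √(u 1 ^ 2 + u 2 ^ 2) with hc
    have hc0 : 0 < c := Real.sqrt_pos.2 (by positivity)
    have hc2 : c ^ 2 = u 1 ^ 2 + u 2 ^ 2 := Real.sq_sqrt (by positivity)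
    set θ := arctan (u 2 / u 1) + π with hθ
    have e0 : √(1 + (u 2 / u 1) ^ 2) = c / -u 1 := by
      have : 0 < -u 1 := by linarith
      rw [Real.sqrt_eq_iff_mul_self_eq (by positivity) (by positivity)]
      field_simp
      rw [hc2]
    have e1 : cos θ = u 1 / c := by
      rw [hθ, cos_add_pi, cos_arctan, e0]
      field_simp
    have e2 : sin θ = u 2 / c := by
      rw [hθ, sin_add_pi, sin_arctan, e0]
      field_simp
    have e3 : u = c • lu (u 0 / c) θ := by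
      funext i
      fin_cases i
      · show u 0 = c * (u 0 / c)
        field_simp
      · show u 1 = c * cos θ
        rw [e1]
        field_simp
      · show u 2 = c * sin θ
        rw [e2]
        field_simp
    rw [e3, hom c hc0.le, dotProduct_smul, smul_eq_mul]
    exact mul_le_mul_of_nonneg_left (key _ _) hc0.le
  intro u
  rcases lt_trichotomy (u 1) 0 with hu | hu | hu
  · exact key2' u hu
  · -- a limit
    set w : ℝ → Fin 3 → ℝ := fun ε => ![u 0, ε, u 2] with hw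
    have hwc : Continuous w := by
      refine continuous_pi fun i => ?_
      fin_cases i
      · exact continuous_const
      · exact continuous_id
      · exact continuous_const
    have hw0 : w 0 = u := by
      funext i
      fin_cases i
      · rfl
      · exact hu.symm
      · rfl
    have l1 : Tendsto (fun ε => x ⬝ᵥ w ε) (𝓝[>] 0) (𝓝 (x ⬝ᵥ u)) := by
      have := ((hdot x).comp hwc).tendsto 0
      simp only [Function.comp, hw0] at this
      exact this.mono_left nhdsWithin_le_nhds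
    have l2 : Tendsto (fun ε => F (w ε)) (𝓝[>] 0) (𝓝 (F u)) := by
      have := (hF.comp hwc).tendsto 0
      simp only [Function.comp, hw0] at this
      exact this.mono_left nhdsWithin_le_nhds
    refine le_of_tendsto_of_tendsto l1 l2 ?_
    filter_upwards [self_mem_nhdsWithin] with ε hε
    exact key2 (w ε) hε
  · exact key2 u hu

end Vale.Agent.P227.C2
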