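import Vale.Agent.P227.C2.Slice
import Vale.Agent.P227.C2.LimA

/-!
# P227 / C2 : bodies in `R³` with a common rotation of odd order about the zeroth axis
-/

open Finset Real MeasureTheory Filter Topology
open scoped ENNReal Matrix

namespace Vale.Agent.P227.C2

open Vale.Agent.P227.T1 in
/-- log-Brunn-Minkowski for a common rotation of odd order `m ≥ 3` about the zeroth axis -/
theorem rot_main {m : ℕ} (hm : 3 ≤ m) (hodd : Odd m) {K L : Set (Fin 3 → ℝ)}
    (cK : Convex ℝ K) (cL : Convex ℝ L) (hK : IsCompact K) (hL : IsCompact L)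
    (sK : ∀ x ∈ K, -x ∈ K) (sL : ∀ x ∈ L, -x ∈ L)
    (rK : ∀ x ∈ K, rot (2 * π / m) x ∈ K) (rL : ∀ x ∈ L, rot (2 * π / m) x ∈ L)
    {t : ℝ} (ht0 : 0 < t) (ht1 : t < 1) :
    volume K ^ (1 - t) * volume L ^ t ≤ volume (wf fun u => hs K u ^ (1 - t) * hs L u ^ t) := by
  have h1t : 0 < 1 - t := by linarith
  by_cases vK : volume K = 0
  · rw [vK, ENNReal.zero_rpow_of_pos h1t, zero_mul]
    exact zero_le
  by_cases vL : volume L = 0
  · rw [vL, ENNReal.zero_rpow_of_pos ht0, mul_zero]
    exact zero_le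
  have nK : K.Nonempty := by
    rw [Set.nonempty_iff_ne_empty]
    rintro rfl
    simp at vK
  have nL : L.Nonempty := by
    rw [Set.nonempty_iff_ne_empty]
    rintro rfl
    simp at vL
  obtain ⟨hF, -, -, hom⟩ := logFn_props hK hL sK sL vK vL ht0 ht1
  set F : (Fin 3 → ℝ) → ℝ := fun u => hs K u ^ (1 - t) * hs L u ^ t with hFdef
  have hm0 : (0 : ℝ) < m := by positivity
  have hb : 0 < π / m := by positivity
  have hstep : ∀ N : ℕ, volume K ^ (1 - t) * volume L ^ t ≤ volume (PP (π / m) F N) := by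
    intro N
    have : NeZero (2 ^ N) := ⟨by positivity⟩
    have h := slice_main (m := m) (r := 2 ^ N) hm hodd (VV_nonempty N) (fun v hv => VV_neg hv)
      (H0 := hN K m (2 ^ N)) (H1 := hN L m (2 ^ N))
      (fun j v _ => hN_pos hK sK vK m (2 ^ N) j v) (fun j v _ => hN_pos hL sL vL m (2 ^ N) j v)
      (fun j v _ => by exact_mod_cast hN_add hK nK sK hm hodd rK v j)
      (fun j v _ => by exact_mod_cast hN_add hL nL sL hm hodd rL v j) ht0 ht1
    have e1 : K ⊆ pol3 (π / m) (2 ^ N) (VV N) (hN K m (2 ^ N)) := by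
      intro x hx j v _
      rw [hN_int hK nK hm rK, ← dot_lu]
      exact le_hs hK hx _
    have e2 : L ⊆ pol3 (π / m) (2 ^ N) (VV N) (hN L m (2 ^ N)) := by
      intro x hx j v _
      rw [hN_int hL nL hm rL, ← dot_lu]
      exact le_hs hL hx _
    have e3 : pol3 (π / m) (2 ^ N) (VV N)
        (fun j v => hN K m (2 ^ N) j v ^ (1 - t) * hN L m (2 ^ N) j v ^ t) ⊆
        PP (π / m) F N := by
      intro x hx j v hv
      have h1 := hx j v hv
      simp only at h1
      rw [hN_int hK nK hm rK, hN_int hL nL hm rL, ← dot_lu] at h1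
      push_cast at h1
      exact h1
    calc volume K ^ (1 - t) * volume L ^ t
        ≤ volume (pol3 (π / m) (2 ^ N) (VV N) (hN K m (2 ^ N))) ^ (1 - t) *
          volume (pol3 (π / m) (2 ^ N) (VV N) (hN L m (2 ^ N))) ^ t :=
          mul_le_mul' (ENNReal.rpow_le_rpow (measure_mono e1) h1t.le)
            (ENNReal.rpow_le_rpow (measure_mono e2) ht0.le)
      _ ≤ _ := h
      _ ≤ volume (PP (π / m) F N) := measure_mono e3
  have hlim : Tendsto (volume ∘ PP (π / m) F) atTop (𝓝 (volume (⋂ N, PP (π / m) F N))) :=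
    tendsto_measure_iInter_atTop (fun N => (PP_closed (π / m) F N).measurableSet.nullMeasurableSet)
      (PP_anti (π / m) F) ⟨0, (PP_bounded hm F).measure_lt_top.ne⟩
  have h2 : volume K ^ (1 - t) * volume L ^ t ≤ volume (⋂ N, PP (π / m) F N) :=
    ge_of_tendsto' hlim hstep
  exact h2.trans (measure_mono (PP_inter hb hF hom))

end Vale.Agent.P227.C2
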