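import Vale.Agent.P227.T1.Biorth
import Vale.Agent.P227.C2.Lim
import Vale.Agent.P227.Rot.SymD

/-!
# P227 / C2 : common linear symmetry in `R³`
-/

open Finset Real MeasureTheory
open scoped ENNReal Matrix

namespace Vale.Agent.P227.C2

/-- coordinates of `ℂ × ℝ` with the axis first -/
noncomputable def cxe : (ℂ × ℝ) ≃ₗ[ℝ] (Fin 3 → ℝ) where
  toFun z := ![z.2, z.1.re, z.1.im]
  invFun x := (⟨x 1, x 2⟩, x 0)
  left_inv z := by simp
  right_inv x := by
    funext i
    fin_cases i <;> rfl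
  map_add' z z' := by
    funext i
    fin_cases i <;> simp
  map_smul' c z := by
    funext i
    fin_cases i <;> simp

theorem rex_eq (a : ℝ) : Rot.ex a = ⟨cos a, sin a⟩ := by
  unfold Rot.ex
  rw [Complex.exp_mul_I, ← Complex.ofReal_cos, ← Complex.ofReal_sin]
  apply Complex.ext <;> simp [Complex.cos_ofReal_re, Complex.sin_ofReal_re]

open Vale.Agent.P227.T1 in
/-- the rotation case -/
theorem rot_case {K L : Set (EuclideanSpace ℝ (Fin 3))} (hK : SymConvexBody K)
    (hL : SymConvexBody L) (T0 : EuclideanSpace ℝ (Fin 3) ≃L[ℝ] ℂ × ℝ) {m : ℕ} (hm : 3 ≤ m)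
    (ho : Odd m) (rK : ∀ x ∈ T0 '' K, (Rot.ex (2 * π / m) * x.1, x.2) ∈ T0 '' K)
    (rL : ∀ x ∈ T0 '' L, (Rot.ex (2 * π / m) * x.1, x.2) ∈ T0 '' L)
    {t : ℝ} (h0 : 0 < t) (h1 : t < 1) :
    volume K ^ (1 - t) * volume L ^ t ≤ volume (logComb t K L) := by
  set T : EuclideanSpace ℝ (Fin 3) ≃L[ℝ] (Fin 3 → ℝ) :=
    T0.trans cxe.toContinuousLinearEquiv with hT
  have hTx : ∀ x, T x = cxe (T0 x) := fun x => rfl
  obtain ⟨c, hc0, hc1, hc⟩ := exists_scale T
  set v : EuclideanSpace ℝ (Fin 3) → (Fin 3 → ℝ) := fun u i =>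
    inner ℝ (T.symm (Pi.single i 1)) u with hv
  have hdot : ∀ x u, (T x) ⬝ᵥ (v u) = inner ℝ x u := by
    intro x u
    have h2 : x = ∑ i, (T x) i • T.symm (Pi.single i 1) := by
      apply T.injective
      rw [map_sum]
      simp only [map_smul, ContinuousLinearEquiv.apply_symm_apply]
      funext k
      rw [Finset.sum_apply]
      simp [Pi.single_apply]
    conv_rhs => rw [h2, sum_inner]
    simp only [inner_smul_left, dotProduct, hv]
    rfl
  have hsup : ∀ (S : Set (EuclideanSpace ℝ (Fin 3))) u, hs (T '' S) (v u) = supportFn S u := by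
    intro S u
    unfold hs supportFn
    rw [Set.image_image]
    congr 1
    apply Set.image_congr
    intro x _
    exact hdot x u
  have hconv : ∀ S, Convex ℝ S → Convex ℝ (T '' S) := fun S hS =>
    hS.is_linear_image (T : EuclideanSpace ℝ (Fin 3) →ₗ[ℝ] (Fin 3 → ℝ)).isLinear
  have hcomp : ∀ S, IsCompact S → IsCompact (T '' S) := fun S hS => hS.image T.continuous
  have hsym : ∀ S : Set (EuclideanSpace ℝ (Fin 3)), (∀ x ∈ S, -x ∈ S) →
      ∀ y ∈ T '' S, -y ∈ T '' S := by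
    rintro S hS _ ⟨x, hx, rfl⟩
    exact ⟨-x, hS x hx, by simp⟩
  have hrot : ∀ S : Set (EuclideanSpace ℝ (Fin 3)),
      (∀ x ∈ T0 '' S, (Rot.ex (2 * π / m) * x.1, x.2) ∈ T0 '' S) →
      ∀ y ∈ T '' S, rot (2 * π / m) y ∈ T '' S := by
    rintro S hS _ ⟨x, hx, rfl⟩
    obtain ⟨z, hz, hzx⟩ := hS _ ⟨x, hx, rfl⟩
    refine ⟨z, hz, ?_⟩
    rw [hTx, hzx, hTx]
    rw [rex_eq]
    funext i
    fin_cases i
    · rfl
    · simp [cxe, rot]
      ring
    · simp [cxe, rot]
      ring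
  have key := rot_main hm ho (hconv K hK.convex) (hconv L hL.convex)
    (hcomp K hK.isCompact) (hcomp L hL.isCompact) (hsym K hK.symm) (hsym L hL.symm)
    (hrot K rK) (hrot L rL) h0 h1
  have hincl : (wf fun u => hs (T '' K) u ^ (1 - t) * hs (T '' L) u ^ t) ⊆
      T '' (logComb t K L) := by
    intro y hy
    refine ⟨T.symm y, ?_, by simp⟩
    intro u _
    have := hy (v u)
    rw [← hdot, T.apply_symm_apply]
    simpa only [hsup] using this
  have key2 := le_trans key (measure_mono hincl)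
  rw [hc, hc, hc, ENNReal.mul_rpow_of_nonneg _ _ (by linarith), ENNReal.mul_rpow_of_nonneg _ _ h0.le,
    mul_mul_mul_comm, ← ENNReal.rpow_add _ _ hc0 hc1] at key2
  simp only [sub_add_cancel, ENNReal.rpow_one] at key2
  exact (ENNReal.mul_le_mul_iff_right hc0 hc1).1 key2

/-- log-Brunn-Minkowski in `R³` for two bodies with a common linear symmetry other than `±1` -/
theorem sym_main {K L : Set (EuclideanSpace ℝ (Fin 3))} (hK : SymConvexBody K)
    (hL : SymConvexBody L) (A : EuclideanSpace ℝ (Fin 3) →ₗ[ℝ] EuclideanSpace ℝ (Fin 3))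
    (hA : A ≠ LinearMap.id) (hA' : A ≠ -LinearMap.id) (aK : A '' K = K) (aL : A '' L = L)
    {t : ℝ} (ht0 : 0 ≤ t) (ht1 : t ≤ 1) :
    volume K ^ (1 - t) * volume L ^ t ≤ volume (logComb t K L) := by
  have hbdd : ∀ (S : Set (EuclideanSpace ℝ (Fin 3))), IsCompact S → ∀ u,
      BddAbove ((fun x => inner ℝ x u) '' S) := by
    intro S hS u
    exact (hS.image (by fun_prop)).bddAbove
  rcases ht0.eq_or_lt with h0 | h0
  · subst h0
    rw [sub_zero, ENNReal.rpow_one, ENNReal.rpow_zero, mul_one]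
    apply measure_mono
    intro x hx u _
    simp only [sub_zero, Real.rpow_one, Real.rpow_zero, mul_one]
    exact le_csSup (hbdd K hK.isCompact u) ⟨x, hx, rfl⟩
  rcases ht1.eq_or_lt with h1 | h1
  · subst h1
    rw [sub_self, ENNReal.rpow_one, ENNReal.rpow_zero, one_mul]
    apply measure_mono
    intro x hx u _
    simp only [sub_self, Real.rpow_one, Real.rpow_zero, one_mul]
    exact le_csSup (hbdd L hL.isCompact u) ⟨x, hx, rfl⟩
  rcases Rot.symmetry_dichotomy (K := K) (L := L)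
    ⟨hK.convex, hK.isCompact, hK.nonempty_interior, hK.symm⟩
    ⟨hL.convex, hL.isCompact, hL.nonempty_interior, hL.symm⟩ A aK aL hA hA' with
    ⟨v, w, iK, iL⟩ | ⟨T, m, hm, ho, rK, rL⟩
  · exact T1.main_biorth v w iK.biorth K L hK hL iK.mem iL.mem t ⟨h0.le, h1.le⟩
  · exact rot_case hK hL T hm ho rK rL h0 h1

end Vale.Agent.P227.C2
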