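import Vale.Agent.P227.T1.Biorth
import Vale.Agent.P227.C2.Main

/-!
# P227 / C2 : every dimension, coordinate form
-/

open MeasureTheory Set
open scoped ENNReal NNReal Pointwise Matrix

namespace Vale.Agent.P227.C2

open Vale.Agent.P227.T1

/-- The inductive step: from the sections orthogonal to a reflection to the body. -/
theorem refl_step {l : ℝ} (hl0 : 0 < l) (hl1 : l < 1) {n : ℕ} {K L : Set (Fin (n + 1) → ℝ)}
    (hK : IsCompact K) (hL : IsCompact L)
    (sK : ∀ x ∈ K, -x ∈ K) (sL : ∀ x ∈ L, -x ∈ L)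
    (r0K : ∀ x ∈ K, Function.update x 0 (-x 0) ∈ K)
    (r0L : ∀ x ∈ L, Function.update x 0 (-x 0) ∈ L)
    (ssec : ∀ (S : Set (Fin (n + 1) → ℝ)), (∀ x ∈ S, -x ∈ S) →
        (∀ x ∈ S, Function.update x 0 (-x 0) ∈ S) → ∀ (c : ℝ), ∀ x ∈ sec S c, -x ∈ sec S c)
    (key : ∀ a b, volume (sec K a) ≠ 0 → volume (sec L b) ≠ 0 →
      volume (sec K a) ^ (1 - l) * volume (sec L b) ^ l ≤
        volume (wf fun u => hs (sec K a) u ^ (1 - l) * hs (sec L b) u ^ l)) :
    volume K ^ (1 - l) * volume L ^ l ≤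
        volume (wf fun u => hs K u ^ (1 - l) * hs L u ^ l) := by
  have h1l : 0 < 1 - l := by linarith
  set f : (Fin (n + 1) → ℝ) → ℝ := fun u => hs K u ^ (1 - l) * hs L u ^ l with hf
  have flip : ∀ S : Set (Fin (n + 1) → ℝ),
      (∀ x ∈ S, Function.update x 0 (-x 0) ∈ S) → ∀ a, sec S (-a) = sec S a := by
    intro S hS
    have h1 : ∀ a, sec S a ⊆ sec S (-a) := by
      intro a x hx
      have := hS _ hx
      rwa [Fin.cons_zero, Fin.update_cons_zero] at this
    intro a
    apply Subset.antisymm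
    · have := h1 (-a)
      rwa [neg_neg] at this
    · exact h1 a
  have dotupd : ∀ x u : Fin (n + 1) → ℝ,
      Function.update x 0 (-x 0) ⬝ᵥ u = x ⬝ᵥ Function.update u 0 (-u 0) := by
    intro x u
    simp [dotProduct, Fin.sum_univ_succ]
  have hsupd : ∀ S : Set (Fin (n + 1) → ℝ), (∀ x ∈ S, Function.update x 0 (-x 0) ∈ S) →
      ∀ u, hs S (Function.update u 0 (-u 0)) = hs S u := by
    intro S hS u
    unfold hs
    congr 1
    ext c
    constructor
    · rintro ⟨x, hx, rfl⟩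
      exact ⟨_, hS x hx, dotupd x u⟩
    · rintro ⟨x, hx, rfl⟩
      refine ⟨_, hS x hx, ?_⟩
      simp only
      rw [dotupd]
      congr 1
      simp
  have r0M : ∀ x ∈ wf f, Function.update x 0 (-x 0) ∈ wf f := by
    intro x hx u
    rw [dotupd]
    refine le_trans (hx _) (le_of_eq ?_)
    simp only [hf, hsupd K r0K, hsupd L r0L]
  have hMm : MeasurableSet (wf f) := (wf_isClosed f).measurableSet
  have eK := volume_sec hK.measurableSet
  have eL := volume_sec hL.measurableSet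
  have eM := volume_sec hMm
  rw [lintegral_even (measurable_sec hK.measurableSet) fun a => by rw [flip K r0K]] at eK
  rw [lintegral_even (measurable_sec hL.measurableSet) fun a => by rw [flip L r0L]] at eL
  rw [lintegral_even (measurable_sec hMm) fun a => by rw [flip _ r0M]] at eM
  rw [eK, eL, eM, ENNReal.mul_rpow_of_nonneg _ _ h1l.le, ENNReal.mul_rpow_of_nonneg _ _ hl0.le]
  have h2 : (2 : ℝ≥0∞) ^ (1 - l) * 2 ^ l = 2 := by
    rw [← ENNReal.rpow_add _ _ (by norm_num) (by norm_num)]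
    simp
  rw [mul_mul_mul_comm, h2]
  gcongr
  apply pl_mul hl0 hl1 _ _ _ (measurable_sec hK.measurableSet) (measurable_sec hL.measurableSet)
    (measurable_sec hMm)
  intro a b ha hb
  by_cases vK : volume (sec K a) = 0
  · rw [vK, ENNReal.zero_rpow_of_pos h1l, zero_mul]
    exact zero_le
  by_cases vL : volume (sec L b) = 0
  · rw [vL, ENNReal.zero_rpow_of_pos hl0, mul_zero]
    exact zero_le
  have nKa : (sec K a).Nonempty := by
    rw [nonempty_iff_ne_empty]; intro h; rw [h] at vK; simp at vK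
  have nLb : (sec L b).Nonempty := by
    rw [nonempty_iff_ne_empty]; intro h; rw [h] at vL; simp at vL
  refine le_trans (key a b vK vL) (measure_mono ?_)
  have hlow : ∀ (S : Set (Fin (n + 1) → ℝ)) (c : ℝ), 0 < c → IsCompact S →
      (∀ x ∈ S, Function.update x 0 (-x 0) ∈ S) → (sec S c).Nonempty →
      ∀ u : Fin (n + 1) → ℝ, c * |u 0| + hs (sec S c) (Fin.tail u) ≤ hs S u := by
    intro S c hc hS rS nS u
    obtain ⟨y, hy, hyu⟩ := exists_hs (sec_isCompact hS c) nS (Fin.tail u)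
    rw [← hyu]
    rcases le_total 0 (u 0) with h | h
    · rw [abs_of_nonneg h, ← cons_dot]
      exact le_hs hS hy u
    · rw [abs_of_nonpos h]
      have h4 := rS _ hy
      rw [Fin.cons_zero, Fin.update_cons_zero] at h4
      have := le_hs hS h4 u
      rw [cons_dot] at this
      linarith
  intro x hx u
  rw [cons_dot]
  have i1 := hx (Fin.tail u)
  have i2 := hlow K a ha hK r0K nKa u
  have i3 := hlow L b hb hL r0L nLb u
  have j1 : 0 ≤ hs (sec K a) (Fin.tail u) :=
    hs_nonneg (sec_isCompact hK a) nKa (ssec K sK r0K a) _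
  have j2 : 0 ≤ hs (sec L b) (Fin.tail u) :=
    hs_nonneg (sec_isCompact hL b) nLb (ssec L sL r0L b) _
  have e1 : (a * |u 0|) ^ (1 - l) * (b * |u 0|) ^ l = a ^ (1 - l) * b ^ l * |u 0| := by
    rw [Real.mul_rpow ha.le (abs_nonneg _), Real.mul_rpow hb.le (abs_nonneg _)]
    have : |u 0| ^ (1 - l) * |u 0| ^ l = |u 0| := by
      rw [← Real.rpow_add' (abs_nonneg _) (by simp)]
      simp
    calc a ^ (1 - l) * |u 0| ^ (1 - l) * (b ^ l * |u 0| ^ l)
        = a ^ (1 - l) * b ^ l * (|u 0| ^ (1 - l) * |u 0| ^ l) := by ring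
      _ = _ := by rw [this]
  have hh := holder2 hl0 hl1 (p := a * |u 0|) (q := b * |u 0|)
    (r := hs (sec K a) (Fin.tail u)) (s := hs (sec L b) (Fin.tail u))
    (by positivity) (by positivity) j1 j2
  rw [e1] at hh
  have e2 : a ^ (1 - l) * b ^ l * u 0 ≤ a ^ (1 - l) * b ^ l * |u 0| := by
    have := le_abs_self (u 0)
    have : 0 ≤ a ^ (1 - l) * b ^ l := by positivity
    gcongr
  have e3 : (a * |u 0| + hs (sec K a) (Fin.tail u)) ^ (1 - l) *
      (b * |u 0| + hs (sec L b) (Fin.tail u)) ^ l ≤ f u := by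
    simp only [hf]
    have k1 : 0 ≤ hs K u := le_trans (by positivity) i2
    have k2 : 0 ≤ hs L u := le_trans (by positivity) i3
    exact mul_le_mul (Real.rpow_le_rpow (by positivity) i2 h1l.le)
      (Real.rpow_le_rpow (by positivity) i3 hl0.le) (by positivity) (by positivity)
  linarith

theorem ssec_gen {n : ℕ} (S : Set (Fin (n + 1) → ℝ)) (sS : ∀ x ∈ S, -x ∈ S)
    (rS : ∀ x ∈ S, Function.update x 0 (-x 0) ∈ S) (c : ℝ) : ∀ x ∈ sec S c, -x ∈ sec S c := by
  intro x hx
  have h3 := rS _ (sS _ hx)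
  show (Fin.cons c (-x) : Fin (n + 1) → ℝ) ∈ S
  convert h3 using 1
  funext i
  refine Fin.cases ?_ (fun j => ?_) i
  · simp
  · simp

/-- a compact convex set of positive volume has interior points -/
theorem interior_ne {n : ℕ} {K : Set (Fin n → ℝ)} (cK : Convex ℝ K) (hK : IsCompact K)
    (vK : volume K ≠ 0) : (interior K).Nonempty := by
  rw [nonempty_iff_ne_empty]
  intro h
  apply vK
  have h1 := cK.addHaar_frontier (volume : Measure (Fin n → ℝ))
  rw [frontier, h, sdiff_empty, hK.isClosed.closure_eq] at h1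
  exact h1

/-- base case of the induction -/
theorem base_three {l : ℝ} (hl0 : 0 < l) (hl1 : l < 1) (B : (Fin 3 → ℝ) →ₗ[ℝ] (Fin 3 → ℝ))
    (hB : B ≠ LinearMap.id) (hB' : B ≠ -LinearMap.id) {K L : Set (Fin 3 → ℝ)}
    (cK : Convex ℝ K) (cL : Convex ℝ L) (hK : IsCompact K) (hL : IsCompact L)
    (sK : ∀ x ∈ K, -x ∈ K) (sL : ∀ x ∈ L, -x ∈ L) (bK : ∀ x ∈ K, B x ∈ K)
    (bL : ∀ x ∈ L, B x ∈ L) (bK' : ∀ x ∈ K, ∃ z ∈ K, B z = x) (bL' : ∀ x ∈ L, ∃ z ∈ L, B z = x) :
    volume K ^ (1 - l) * volume L ^ l ≤ volume (wf fun u => hs K u ^ (1 - l) * hs L u ^ l) := by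
  have h1l : 0 < 1 - l := by linarith
  by_cases vK : volume K = 0
  · rw [vK, ENNReal.zero_rpow_of_pos h1l, zero_mul]
    exact zero_le
  by_cases vL : volume L = 0
  · rw [vL, ENNReal.zero_rpow_of_pos hl0, mul_zero]
    exact zero_le
  obtain ⟨-, fp, f0, fh⟩ := logFn_props hK hL sK sL vK vL hl0 hl1
  set e : EuclideanSpace ℝ (Fin 3) ≃L[ℝ] (Fin 3 → ℝ) := EuclideanSpace.equiv (Fin 3) ℝ with he
  obtain ⟨c, hc0, hc1, hc⟩ := exists_scale e
  have hin : ∀ x u : EuclideanSpace ℝ (Fin 3), inner ℝ x u = e x ⬝ᵥ e u := by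
    intro x u
    simp [he, PiLp.inner_apply, dotProduct, mul_comm]
  have hbody : ∀ S : Set (Fin 3 → ℝ), Convex ℝ S → IsCompact S → (∀ x ∈ S, -x ∈ S) →
      volume S ≠ 0 → SymConvexBody (e ⁻¹' S) := by
    intro S cS hS sS vS
    refine ⟨?_, ?_, ?_, ?_⟩
    · exact cS.linear_preimage (e : EuclideanSpace ℝ (Fin 3) →ₗ[ℝ] (Fin 3 → ℝ))
    · exact e.toHomeomorph.isCompact_preimage.2 hS
    · have h1 := interior_ne cS hS vS
      have h2 := e.toHomeomorph.preimage_interior S
      change (interior (e.toHomeomorph ⁻¹' S)).Nonempty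
      rw [← h2]
      exact h1.preimage e.toHomeomorph.surjective
    · intro x hx
      have := sS _ hx
      rw [mem_preimage, map_neg]
      exact this
  set A : EuclideanSpace ℝ (Fin 3) →ₗ[ℝ] EuclideanSpace ℝ (Fin 3) :=
    (e.symm : (Fin 3 → ℝ) →ₗ[ℝ] EuclideanSpace ℝ (Fin 3)) ∘ₗ B ∘ₗ
      (e : EuclideanSpace ℝ (Fin 3) →ₗ[ℝ] (Fin 3 → ℝ)) with hAdef
  have hAe : ∀ x, e (A x) = B (e x) := by
    intro x
    simp [hAdef]
  have hAid : A ≠ LinearMap.id := by
    intro h
    apply hB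
    ext1 i
    ext j
    have := hAe (e.symm (Pi.single i 1))
    rw [h] at this
    simp at this
    simp [← this]
  have hAid' : A ≠ -LinearMap.id := by
    intro h
    apply hB'
    ext1 i
    ext j
    have := hAe (e.symm (Pi.single i 1))
    rw [h] at this
    simp at this
    simp [← this]
  have himg : ∀ S : Set (Fin 3 → ℝ), (∀ x ∈ S, B x ∈ S) → (∀ x ∈ S, ∃ z ∈ S, B z = x) →
      A '' (e ⁻¹' S) = e ⁻¹' S := by
    intro S h1 h2
    apply Subset.antisymm
    · rintro _ ⟨x, hx, rfl⟩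
      rw [mem_preimage, hAe]
      exact h1 _ hx
    · intro x hx
      obtain ⟨z, hz, hzx⟩ := h2 _ hx
      refine ⟨e.symm z, by simpa using hz, ?_⟩
      apply e.injective
      rw [hAe, e.apply_symm_apply, hzx]
  have key := sym_main (hbody K cK hK sK vK) (hbody L cL hL sL vL) A hAid hAid'
    (himg K bK bK') (himg L bL bL') hl0.le hl1.le
  have hsup : ∀ (S : Set (Fin 3 → ℝ)) u, supportFn (e ⁻¹' S) u = hs S (e u) := by
    intro S u
    unfold hs supportFn
    congr 1
    ext r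
    constructor
    · rintro ⟨x, hx, rfl⟩
      exact ⟨e x, hx, (hin x u).symm⟩
    · rintro ⟨x, hx, rfl⟩
      refine ⟨e.symm x, by simpa using hx, ?_⟩
      simp only
      rw [hin, e.apply_symm_apply]
  have hincl : e '' (logComb l (e ⁻¹' K) (e ⁻¹' L)) ⊆
      wf fun u => hs K u ^ (1 - l) * hs L u ^ l := by
    rintro _ ⟨x, hx, rfl⟩ u
    by_cases hu : u = 0
    · subst hu
      simp only [dotProduct_zero, f0, le_refl]
    · set u' := e.symm u with hu'
      have hne : u' ≠ 0 := by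
        intro h
        apply hu
        rw [← e.apply_symm_apply u, ← hu', h, map_zero]
      have hnorm : 0 < ‖u'‖ := norm_pos_iff.2 hne
      have h1 := hx (‖u'‖⁻¹ • u') (by
        rw [norm_smul, norm_inv, norm_norm, inv_mul_cancel₀ hnorm.ne'])
      simp only [hsup] at h1
      rw [hin, map_smul, hu', e.apply_symm_apply, ← hu'] at h1
      rw [fh _ (by positivity), dotProduct_smul, smul_eq_mul] at h1
      exact le_of_mul_le_mul_left h1 (by positivity)
  have key2 : volume (e '' (logComb l (e ⁻¹' K) (e ⁻¹' L))) ≤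
      volume (wf fun u => hs K u ^ (1 - l) * hs L u ^ l) := measure_mono hincl
  refine le_trans ?_ key2
  have e1 : e '' (e ⁻¹' K) = K := image_preimage_eq _ e.surjective
  have e2 : e '' (e ⁻¹' L) = L := image_preimage_eq _ e.surjective
  have v1 : volume K = c * volume (e ⁻¹' K) := by rw [← hc, e1]
  have v2 : volume L = c * volume (e ⁻¹' L) := by rw [← hc, e2]
  rw [v1, v2, hc, ENNReal.mul_rpow_of_nonneg _ _ (by linarith), ENNReal.mul_rpow_of_nonneg _ _ hl0.le,
    mul_mul_mul_comm, ← ENNReal.rpow_add _ _ hc0 hc1]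
  simp only [sub_add_cancel, ENNReal.rpow_one]
  gcongr

/-- last three coordinates -/
def tl (m : ℕ) (y : Fin (m + 3) → ℝ) : Fin 3 → ℝ := fun j => y ⟨m + j.val, by omega⟩

/-- invariance of the iterated sections -/
def Inv (B : (Fin 3 → ℝ) → (Fin 3 → ℝ)) : (m : ℕ) → Set (Fin (m + 3) → ℝ) → Prop
  | 0, S => ∀ x ∈ S, B x ∈ S
  | m + 1, S => ∀ c, Inv B m (sec (m := m + 3) S c)

theorem inv_of {B : (Fin 3 → ℝ) → (Fin 3 → ℝ)} (m : ℕ) : ∀ (S : Set (Fin (m + 3) → ℝ)),
    (∀ y ∈ S, ∀ y' : Fin (m + 3) → ℝ, (∀ i, i.val < m → y' i = y i) → tl m y' = B (tl m y) →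
      y' ∈ S) → Inv B m S := by
  induction m with
  | zero =>
    intro S hS x hx
    refine hS x hx (B x) (fun i hi => absurd hi (by omega)) ?_
    have h1 : ∀ z : Fin (0 + 3) → ℝ, tl 0 z = z := by
      intro z
      funext j
      unfold tl
      congr 1
      ext
      simp
    rw [h1, h1]
  | succ m ih =>
    intro S hS c
    apply ih
    intro y hy y' h1 h2
    refine hS _ hy (Fin.cons c y') ?_ ?_
    · intro i hi
      revert hi
      refine Fin.cases (fun _ => rfl) (fun j hj => ?_) i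
      have hj' : j.val < m := by
        have := hj
        simp at this
        omega
      rw [Fin.cons_succ, Fin.cons_succ]
      exact h1 j hj'
    · have h3 : ∀ z : Fin (m + 3) → ℝ,
          tl (m + 1) (Fin.cons c z : Fin (m + 3 + 1) → ℝ) = tl m z := by
        intro z
        funext j
        unfold tl
        have : (⟨m + 1 + j.val, by omega⟩ : Fin (m + 3 + 1)) = Fin.succ ⟨m + j.val, by omega⟩ := by
          ext
          simp
          omega
        change (Fin.cons c z : Fin (m + 3 + 1) → ℝ) ⟨m + 1 + j.val, by omega⟩ = _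
        rw [this, Fin.cons_succ]
      rw [h3, h3, h2]

/-- coordinate form -/
theorem logBM_sym {l : ℝ} (hl0 : 0 < l) (hl1 : l < 1) (B : (Fin 3 → ℝ) →ₗ[ℝ] (Fin 3 → ℝ))
    (C : (Fin 3 → ℝ) → (Fin 3 → ℝ)) (hBC : ∀ z, B (C z) = z)
    (hB : B ≠ LinearMap.id) (hB' : B ≠ -LinearMap.id) (m : ℕ) :
    ∀ K L : Set (Fin (m + 3) → ℝ), Convex ℝ K → Convex ℝ L → IsCompact K → IsCompact L →
      (∀ x ∈ K, -x ∈ K) → (∀ x ∈ L, -x ∈ L) →
      (∀ i : Fin (m + 3), i.val < m → ∀ x ∈ K, Function.update x i (-x i) ∈ K) →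
      (∀ i : Fin (m + 3), i.val < m → ∀ x ∈ L, Function.update x i (-x i) ∈ L) →
      Inv B m K → Inv B m L → Inv C m K → Inv C m L →
      volume K ^ (1 - l) * volume L ^ l ≤
        volume (wf fun u => hs K u ^ (1 - l) * hs L u ^ l) := by
  induction m with
  | zero =>
    intro K L cK cL hK hL sK sL _ _ bK bL bK' bL'
    exact base_three hl0 hl1 B hB hB' cK cL hK hL sK sL bK bL
      (fun x hx => ⟨C x, bK' x hx, hBC x⟩) (fun x hx => ⟨C x, bL' x hx, hBC x⟩)
  | succ m ih =>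
    intro K L cK cL hK hL sK sL rK rL bK bL bK' bL'
    have r0K : ∀ x ∈ K, Function.update x 0 (-x 0) ∈ K := rK 0 (by simp)
    have r0L : ∀ x ∈ L, Function.update x 0 (-x 0) ∈ L := rL 0 (by simp)
    have rsec : ∀ (S : Set (Fin (m + 1 + 3) → ℝ)),
        (∀ i : Fin (m + 1 + 3), i.val < m + 1 → ∀ x ∈ S, Function.update x i (-x i) ∈ S) →
        ∀ (c : ℝ) (i : Fin (m + 3)), i.val < m → ∀ x ∈ sec (m := m + 3) S c,
          Function.update x i (-x i) ∈ sec (m := m + 3) S c := by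
      intro S rS c i hi x hx
      have h3 := rS i.succ (by simp; omega) _ hx
      show (Fin.cons c (Function.update x i (-x i)) : Fin (m + 3 + 1) → ℝ) ∈ S
      rw [Fin.cons_update]
      simpa using h3
    exact refl_step (n := m + 3) hl0 hl1 hK hL sK sL r0K r0L (fun S h1 h2 c => ssec_gen S h1 h2 c)
      (fun a b _ _ => ih (sec (m := m + 3) K a) (sec (m := m + 3) L b) (sec_convex cK a)
        (sec_convex cL b) (sec_isCompact hK a)
        (sec_isCompact hL b) (ssec_gen K sK r0K a) (ssec_gen L sL r0L b) (rsec K rK a)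
        (rsec L rL b) (bK a) (bL b) (bK' a) (bL' b))

end Vale.Agent.P227.C2
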