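import Vale.Agent.P227.T1.Biorth
import Vale.Agent.P227.C2.Main
import Vale.Agent.P227.C2.DimA

/-!
# P227 / C2 : every dimension, commuting reflections and one more common linear symmetry
-/

open Finset Real MeasureTheory
open scoped ENNReal Matrix

namespace Vale.Agent.P227.C2

open Vale.Agent.P227.T1

theorem exists_basis3 {m : ℕ} (v w : Fin m → EuclideanSpace ℝ (Fin (m + 3)))
    (hvw : ∀ i j, inner ℝ (v i) (w j) = if i = j then (1 : ℝ) else 0) :
    ∃ b : Module.Basis (Fin (m + 3)) ℝ (EuclideanSpace ℝ (Fin (m + 3))),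
      (∀ i : Fin m, b (Fin.castAdd 3 i) = v i) ∧
      (∀ i : Fin m, ∀ x, b.repr x (Fin.castAdd 3 i) = inner ℝ x (w i)) := by
  classical
  let Φ : EuclideanSpace ℝ (Fin (m + 3)) →ₗ[ℝ] (Fin m → ℝ) :=
    LinearMap.pi fun i => (innerₛₗ ℝ (w i))
  have hΦ : ∀ x i, Φ x i = inner ℝ (w i) x := fun x i => rfl
  have hsurj : Function.Surjective Φ := by
    intro y
    refine ⟨∑ i, y i • v i, ?_⟩
    funext j
    rw [hΦ, inner_sum]
    simp only [inner_smul_right]
    rw [Finset.sum_eq_single j]
    · rw [real_inner_comm, hvw]; simp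
    · intro i _ hij
      rw [real_inner_comm, hvw, if_neg hij, mul_zero]
    · simp
  have hdim : Module.finrank ℝ (LinearMap.ker Φ) = 3 := by
    have h1 := LinearMap.finrank_range_add_finrank_ker Φ
    rw [LinearMap.range_eq_top.2 hsurj, finrank_top] at h1
    simp at h1
    omega
  let c : Module.Basis (Fin 3) ℝ (LinearMap.ker Φ) := Module.finBasisOfFinrankEq ℝ _ hdim
  let f : Fin (m + 3) → EuclideanSpace ℝ (Fin (m + 3)) :=
    Fin.addCases v (fun j => (c j : EuclideanSpace ℝ (Fin (m + 3))))
  have hfl : ∀ i, f (Fin.castAdd 3 i) = v i := fun i => by simp [f]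
  have hfr : ∀ j, f (Fin.natAdd m j) = c j := fun j => by simp [f]
  have hck : ∀ j k, inner ℝ (w k) (c j : EuclideanSpace ℝ (Fin (m + 3))) = 0 := by
    intro j k
    have : Φ (c j : EuclideanSpace ℝ (Fin (m + 3))) = 0 := (c j).2
    rw [← hΦ, this]; rfl
  have hli : LinearIndependent ℝ f := by
    rw [Fintype.linearIndependent_iff]
    intro g hg
    rw [Fin.sum_univ_add] at hg
    simp only [hfl, hfr] at hg
    have ha : ∀ k : Fin m, g (Fin.castAdd 3 k) = 0 := by
      intro k
      have h2 := congrArg (fun z => inner ℝ (w k) z) hg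
      simp only [inner_add_right, inner_sum, inner_smul_right, inner_zero_right, hck, mul_zero,
        Finset.sum_const_zero, add_zero] at h2
      rw [Finset.sum_eq_single k] at h2
      · rw [real_inner_comm, hvw] at h2
        simpa using h2
      · intro i _ hik
        rw [real_inner_comm, hvw, if_neg hik, mul_zero]
      · simp
    simp only [ha, zero_smul, Finset.sum_const_zero, zero_add] at hg
    have hc' : ∑ j : Fin 3, g (Fin.natAdd m j) • c j = 0 := by
      apply Subtype.ext
      push_cast
      exact hg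
    have hd := Fintype.linearIndependent_iff.1 c.linearIndependent _ hc'
    intro i
    refine Fin.addCases (fun i => ha i) (fun j => hd j) i
  let b := basisOfLinearIndependentOfCardEqFinrank hli (by simp)
  have hb : ∀ i, b i = f i := fun i => by simp [b]
  refine ⟨b, fun i => by rw [hb, hfl], ?_⟩
  intro i x
  have hcoord : b.coord (Fin.castAdd 3 i) = (innerₛₗ ℝ (w i)) := by
    apply b.ext
    intro j
    rw [Module.Basis.coord_apply, Module.Basis.repr_self]
    refine Fin.addCases (fun j => ?_) (fun j => ?_) j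
    · rw [hb, hfl]
      show _ = inner ℝ (w i) (v j)
      rw [real_inner_comm, hvw, Finsupp.single_apply]
      by_cases hij : j = i
      · simp [hij]
      · rw [if_neg hij, if_neg]
        intro h
        exact hij (Fin.castAdd_injective m 3 h)
    · rw [hb, hfr]
      show _ = inner ℝ (w i) (c j : EuclideanSpace ℝ (Fin (m + 3)))
      rw [hck, Finsupp.single_apply, if_neg]
      intro h
      have := congrArg Fin.val h
      simp at this
      omega
  have := congrArg (fun φ => φ x) hcoord
  simp only [Module.Basis.coord_apply] at this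
  rw [this]
  show inner ℝ (w i) x = inner ℝ x (w i)
  exact real_inner_comm _ _

/-- closed under sign changes of some of the first coordinates -/
theorem flips {m : ℕ} {S : Set (Fin (m + 3) → ℝ)}
    (rS : ∀ i : Fin (m + 3), i.val < m → ∀ x ∈ S, Function.update x i (-x i) ∈ S)
    {y : Fin (m + 3) → ℝ} (hy : y ∈ S) (s : Finset (Fin (m + 3))) :
    ∀ z : Fin (m + 3) → ℝ, (∀ i, i ∉ s → z i = y i) →
      (∀ i ∈ s, i.val < m ∧ (z i = y i ∨ z i = -y i)) → z ∈ S := by
  classical
  induction s using Finset.induction_on with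
  | empty =>
    intro z h1 _
    have : z = y := funext fun i => h1 i (by simp)
    rw [this]
    exact hy
  | insert a s ha ih =>
    intro z h1 h2
    have h3 := ih (Function.update z a (y a)) (by
      intro i hi
      by_cases hia : i = a
      · subst hia; simp
      · rw [Function.update_of_ne hia]
        exact h1 i (by simp [hia, hi])) (by
      intro i hi
      have hia : i ≠ a := fun h => ha (h ▸ hi)
      rw [Function.update_of_ne hia]
      exact h2 i (by simp [hi]))
    obtain ⟨ham, hz | hz⟩ := h2 a (by simp)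
    · rw [← hz, Function.update_eq_self] at h3
      exact h3
    · have h4 := rS a ham _ h3
      rw [Function.update_self, Function.update_idem, ← hz, Function.update_eq_self] at h4
      exact h4

/-- log-Brunn-Minkowski in `R^(m+3)` for two bodies sharing `m` commuting reflections and one more
linear symmetry, which commutes with the reflections and is not `±1` on their common fixed space -/
theorem dim_main {m : ℕ} (v w : Fin m → EuclideanSpace ℝ (Fin (m + 3)))
    (hvw : ∀ i j, inner ℝ (v i) (w j) = if i = j then (1 : ℝ) else 0)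
    (A : EuclideanSpace ℝ (Fin (m + 3)) →ₗ[ℝ] EuclideanSpace ℝ (Fin (m + 3)))
    (hA : ∀ i x, A (x - (2 * inner ℝ x (w i)) • v i) = A x - (2 * inner ℝ (A x) (w i)) • v i)
    (h1 : ∃ x, (∀ i, inner ℝ x (w i) = 0) ∧ A x ≠ x)
    (h2 : ∃ x, (∀ i, inner ℝ x (w i) = 0) ∧ A x ≠ -x)
    {K L : Set (EuclideanSpace ℝ (Fin (m + 3)))} (hK : SymConvexBody K) (hL : SymConvexBody L)
    (rK : ∀ i, ∀ x ∈ K, x - (2 * inner ℝ x (w i)) • v i ∈ K)
    (rL : ∀ i, ∀ x ∈ L, x - (2 * inner ℝ x (w i)) • v i ∈ L)
    (aK : A '' K = K) (aL : A '' L = L) {t : ℝ} (ht0 : 0 ≤ t) (ht1 : t ≤ 1) :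
    volume K ^ (1 - t) * volume L ^ t ≤ volume (logComb t K L) := by
  classical
  have bdd : ∀ (S : Set (EuclideanSpace ℝ (Fin (m + 3)))), IsCompact S → ∀ u,
      BddAbove ((fun x => inner ℝ x u) '' S) := by
    intro S hS u
    exact (hS.image (by fun_prop)).bddAbove
  rcases ht0.eq_or_lt with h0 | h0
  · subst h0
    rw [sub_zero, ENNReal.rpow_one, ENNReal.rpow_zero, mul_one]
    apply measure_mono
    intro x hx u _
    simp only [sub_zero, Real.rpow_one, Real.rpow_zero, mul_one]
    exact le_csSup (bdd K hK.isCompact u) ⟨x, hx, rfl⟩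
  rcases ht1.eq_or_lt with h1' | h1'
  · subst h1'
    rw [sub_self, ENNReal.rpow_one, ENNReal.rpow_zero, one_mul]
    apply measure_mono
    intro x hx u _
    simp only [sub_self, Real.rpow_one, Real.rpow_zero, one_mul]
    exact le_csSup (bdd L hL.isCompact u) ⟨x, hx, rfl⟩
  obtain ⟨b, hbv, hbw⟩ := exists_basis3 v w hvw
  set T : EuclideanSpace ℝ (Fin (m + 3)) ≃L[ℝ] (Fin (m + 3) → ℝ) :=
    b.equivFun.toContinuousLinearEquiv with hT
  have hTr : ∀ x, T x = b.repr x := fun x => rfl
  obtain ⟨c, hc0, hc1, hc⟩ := exists_scale T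
  -- index conversion
  have hidx : ∀ i : Fin (m + 3), i.val < m → ∃ k : Fin m, i = Fin.castAdd 3 k := by
    intro i hi
    exact ⟨⟨i.val, hi⟩, by ext; simp⟩
  have hTw : ∀ (k : Fin m) x, T x (Fin.castAdd 3 k) = inner ℝ x (w k) := fun k x => hbw k x
  have hTb : ∀ i, T (b i) = Pi.single i 1 := by
    intro i
    funext k
    rw [hTr, b.repr_self, Finsupp.single_eq_pi_single]
  -- dual coordinates
  set vv : EuclideanSpace ℝ (Fin (m + 3)) → (Fin (m + 3) → ℝ) := fun u i => inner ℝ (b i) u
    with hvv
  have hdot : ∀ x u, (T x) ⬝ᵥ (vv u) = inner ℝ x u := by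
    intro x u
    have : x = ∑ i, b.repr x i • b i := (b.sum_repr x).symm
    conv_rhs => rw [this, sum_inner]
    simp only [inner_smul_left, dotProduct, hTr, hvv]
    rfl
  have hsup : ∀ (S : Set (EuclideanSpace ℝ (Fin (m + 3)))) u,
      hs (T '' S) (vv u) = supportFn S u := by
    intro S u
    unfold hs supportFn
    rw [Set.image_image]
    congr 1
    apply Set.image_congr
    intro x _
    exact hdot x u
  have hconv : ∀ S, Convex ℝ S → Convex ℝ (T '' S) := fun S hS =>
    hS.is_linear_image (T : EuclideanSpace ℝ (Fin (m + 3)) →ₗ[ℝ] (Fin (m + 3) → ℝ)).isLinear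
  have hcomp : ∀ S, IsCompact S → IsCompact (T '' S) := fun S hS => hS.image T.continuous
  have hsym : ∀ S : Set (EuclideanSpace ℝ (Fin (m + 3))), (∀ x ∈ S, -x ∈ S) →
      ∀ y ∈ T '' S, -y ∈ T '' S := by
    rintro S hS _ ⟨x, hx, rfl⟩
    exact ⟨-x, hS x hx, by simp⟩
  have hrefl : ∀ S : Set (EuclideanSpace ℝ (Fin (m + 3))),
      (∀ i, ∀ x ∈ S, x - (2 * inner ℝ x (w i)) • v i ∈ S) →
      ∀ i : Fin (m + 3), i.val < m → ∀ y ∈ T '' S, Function.update y i (-y i) ∈ T '' S := by
    rintro S hS i hi _ ⟨x, hx, rfl⟩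
    obtain ⟨k, rfl⟩ := hidx i hi
    refine ⟨_, hS k x hx, ?_⟩
    rw [map_sub, map_smul]
    funext j
    rw [← hbv k, hTb]
    by_cases hj : j = Fin.castAdd 3 k
    · subst hj
      simp [hTw]
      ring
    · simp [Function.update_of_ne hj, Pi.single_eq_of_ne hj]
  -- the eigenvalues
  have hAv : ∀ k, A (v k) = inner ℝ (A (v k)) (w k) • v k := by
    intro k
    have := hA k (v k)
    rw [hvw, if_pos rfl, mul_one] at this
    have e1 : v k - (2 : ℝ) • v k = -v k := by
      rw [two_smul]; abel
    rw [e1, map_neg] at this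
    have h3 : (2 : ℝ) • A (v k) = (2 : ℝ) • (inner ℝ (A (v k)) (w k) • v k) := by
      rw [smul_smul, two_smul]
      have h4 : A (v k) + A (v k) = (2 * inner ℝ (A (v k)) (w k)) • v k := by
        have := congrArg (fun z => z + A (v k) + (2 * inner ℝ (A (v k)) (w k)) • v k) this
        have e2 : -A (v k) + A (v k) + (2 * inner ℝ (A (v k)) (w k)) • v k =
            (2 * inner ℝ (A (v k)) (w k)) • v k := by abel
        have e3 : A (v k) - (2 * inner ℝ (A (v k)) (w k)) • v k + A (v k) +
            (2 * inner ℝ (A (v k)) (w k)) • v k = A (v k) + A (v k) := by abel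
        rw [e2, e3] at this
        exact this.symm
      exact h4
    exact smul_right_injective _ (two_ne_zero) h3
  set cc : Fin m → ℝ := fun k => inner ℝ (A (v k)) (w k) with hcc
  have hAw : ∀ k x, inner ℝ (A x) (w k) = cc k * inner ℝ x (w k) := by
    intro k x
    have h3 := hA k x
    rw [map_sub, map_smul, hAv k] at h3
    have h4 := congrArg (fun z => inner ℝ z (w k)) h3
    simp only [inner_sub_left, inner_smul_left, hvw, if_pos] at h4
    simp only [conj_trivial, mul_one] at h4
    change inner ℝ (A x) (w k) - 2 * inner ℝ x (w k) * cc k =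
      inner ℝ (A x) (w k) - 2 * inner ℝ (A x) (w k) at h4
    linarith
  -- `A` is bijective
  have hAsurj : Function.Surjective A := by
    rw [← LinearMap.range_eq_top]
    apply Submodule.eq_top_of_nonempty_interior'
    apply hK.nonempty_interior.mono
    apply interior_mono
    rw [← aK]
    rintro _ ⟨x, _, rfl⟩
    exact ⟨x, rfl⟩
  have hAinj : Function.Injective A := LinearMap.injective_iff_surjective.2 hAsurj
  -- `|c_k| = 1`
  have hcabs : ∀ k, cc k = 1 ∨ cc k = -1 := by
    intro k
    have hcont : ContinuousOn (fun x : EuclideanSpace ℝ (Fin (m + 3)) => inner ℝ x (w k)) K := by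
      fun_prop
    have hKn : K.Nonempty := hK.nonempty_interior.mono interior_subset
    obtain ⟨x, hx, hmax⟩ := hK.isCompact.exists_isMaxOn hKn hcont
    set M := inner ℝ x (w k) with hM
    have hle : ∀ y ∈ K, inner ℝ y (w k) ≤ M := fun y hy => hmax hy
    have habs : ∀ y ∈ K, |inner ℝ y (w k)| ≤ M := by
      intro y hy
      rw [abs_le]
      have := hle _ (hK.symm y hy)
      rw [inner_neg_left] at this
      exact ⟨by linarith, hle y hy⟩
    have hMpos : 0 < M := by
      rcases (abs_nonneg _).trans (habs x hx) |>.eq_or_lt with h | h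
      · exfalso
        -- `K` is in the hyperplane
        have hk0 : ∀ y ∈ K, inner ℝ y (w k) = 0 := by
          intro y hy
          have := habs y hy
          rw [← h] at this
          exact abs_eq_zero.1 (le_antisymm this (abs_nonneg _))
        have : LinearMap.ker (innerₛₗ ℝ (w k)) = (⊤ : Submodule ℝ _) := by
          apply Submodule.eq_top_of_nonempty_interior'
          apply hK.nonempty_interior.mono
          apply interior_mono
          intro y hy
          rw [SetLike.mem_coe, LinearMap.mem_ker]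
          show inner ℝ (w k) y = 0
          rw [real_inner_comm]
          exact hk0 y hy
        have hv : v k ∈ LinearMap.ker (innerₛₗ ℝ (w k)) := by rw [this]; trivial
        rw [LinearMap.mem_ker] at hv
        change inner ℝ (w k) (v k) = 0 at hv
        rw [real_inner_comm, hvw, if_pos rfl] at hv
        exact one_ne_zero hv
      · exact h
    -- upper bound
    have hup : |cc k| ≤ 1 := by
      have hAx : A x ∈ K := by rw [← aK]; exact ⟨x, hx, rfl⟩
      have h3 := habs _ hAx
      rw [hAw, abs_mul, ← hM, abs_of_pos hMpos] at h3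
      by_contra hcon
      push Not at hcon
      nlinarith
    have hlo : 1 ≤ |cc k| := by
      obtain ⟨z, hz, hzx⟩ : x ∈ A '' K := by rw [aK]; exact hx
      have h3 := habs z hz
      have h4 : M = cc k * inner ℝ z (w k) := by rw [hM, ← hzx, hAw]
      have h5 : M ≤ |cc k| * M := by
        calc M = |M| := (abs_of_pos hMpos).symm
          _ = |cc k| * |inner ℝ z (w k)| := by rw [← abs_mul, ← h4]
          _ ≤ |cc k| * M := mul_le_mul_of_nonneg_left h3 (abs_nonneg _)
      by_contra hcon
      push Not at hcon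
      nlinarith
    have h6 : |cc k| = 1 := le_antisymm hup hlo
    exact eq_or_eq_neg_of_abs_eq h6
  -- the linear map in coordinates
  set A' : (Fin (m + 3) → ℝ) →ₗ[ℝ] (Fin (m + 3) → ℝ) :=
    (T : EuclideanSpace ℝ (Fin (m + 3)) →ₗ[ℝ] (Fin (m + 3) → ℝ)) ∘ₗ A ∘ₗ
      (T.symm : (Fin (m + 3) → ℝ) →ₗ[ℝ] EuclideanSpace ℝ (Fin (m + 3))) with hA'def
  have hA'T : ∀ x, A' (T x) = T (A x) := by
    intro x
    simp [hA'def]
  have hA'c : ∀ (k : Fin m) y, A' y (Fin.castAdd 3 k) = cc k * y (Fin.castAdd 3 k) := by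
    intro k y
    obtain ⟨x, rfl⟩ := T.surjective y
    rw [hA'T, hTw, hTw, hAw]
  have hA'e : ∀ (k : Fin m), A' (Pi.single (Fin.castAdd 3 k) 1) =
      cc k • Pi.single (Fin.castAdd 3 k) 1 := by
    intro k
    rw [← hTb, hA'T, hbv, hAv, map_smul]
  -- insertion of the last three coordinates
  set ins : (Fin 3 → ℝ) →ₗ[ℝ] (Fin (m + 3) → ℝ) :=
    LinearMap.pi fun i => if h : i.val < m then 0 else LinearMap.proj ⟨i.val - m, by omega⟩
    with hins
  have hins1 : ∀ (z : Fin 3 → ℝ) (i : Fin (m + 3)), i.val < m → ins z i = 0 := by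
    intro z i hi
    simp [hins, hi]
  have hins2 : ∀ z : Fin 3 → ℝ, tl m (ins z) = z := by
    intro z
    funext j
    simp [tl, hins]
  set tlL : (Fin (m + 3) → ℝ) →ₗ[ℝ] (Fin 3 → ℝ) :=
    LinearMap.pi fun j => LinearMap.proj ⟨m + j.val, by omega⟩ with htlL
  have htl : ∀ y, tlL y = tl m y := fun y => rfl
  set B : (Fin 3 → ℝ) →ₗ[ℝ] (Fin 3 → ℝ) := tlL ∘ₗ A' ∘ₗ ins with hBdef
  -- decomposition
  have hdec : ∀ y : Fin (m + 3) → ℝ,
      y = (∑ k : Fin m, y (Fin.castAdd 3 k) • Pi.single (Fin.castAdd 3 k) (1 : ℝ)) +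
        ins (tl m y) := by
    intro y
    funext i
    rw [Pi.add_apply, Finset.sum_apply]
    rcases lt_or_ge i.val m with hi | hi
    · rw [hins1 _ i hi, add_zero]
      obtain ⟨k, rfl⟩ := hidx i hi
      rw [Finset.sum_eq_single k]
      · simp
      · intro k' _ hk'
        have : Fin.castAdd 3 k ≠ Fin.castAdd 3 k' := fun h =>
          hk' (Fin.castAdd_injective m 3 h).symm
        simp [Pi.single_eq_of_ne this]
      · simp
    · have h3 : ∑ k : Fin m, (y (Fin.castAdd 3 k) • Pi.single (Fin.castAdd 3 k) (1 : ℝ) :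
          Fin (m + 3) → ℝ) i = 0 := by
        apply Finset.sum_eq_zero
        intro k _
        have : i ≠ Fin.castAdd 3 k := by
          intro h
          rw [h] at hi
          simp at hi
          omega
        simp [Pi.single_eq_of_ne this]
      rw [h3, zero_add]
      have : ¬ i.val < m := by omega
      simp only [hins, LinearMap.pi_apply, dif_neg this, LinearMap.proj_apply, tl]
      congr 1
      ext
      simp
      omega
  have htlA : ∀ y, tl m (A' y) = B (tl m y) := by
    intro y
    have h3 : A' y = (∑ k : Fin m, (y (Fin.castAdd 3 k) * cc k) •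
        Pi.single (Fin.castAdd 3 k) (1 : ℝ)) + A' (ins (tl m y)) := by
      conv_lhs => rw [hdec y]
      rw [map_add, map_sum]
      congr 1
      refine Finset.sum_congr rfl fun k _ => ?_
      rw [map_smul, hA'e, smul_smul]
    rw [h3, ← htl, map_add, map_sum]
    have h4 : ∑ k : Fin m, tlL ((y (Fin.castAdd 3 k) * cc k) •
        Pi.single (Fin.castAdd 3 k) (1 : ℝ)) = 0 := by
      apply Finset.sum_eq_zero
      intro k _
      rw [map_smul]
      have : tlL (Pi.single (Fin.castAdd 3 k) (1 : ℝ)) = 0 := by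
        funext j
        rw [htl]
        simp only [tl, Pi.zero_apply]
        rw [Pi.single_eq_of_ne]
        intro h
        have := congrArg Fin.val h
        simp at this
        omega
      rw [this, smul_zero]
    rw [h4, zero_add]
    rfl
  have hA'inj : Function.Injective A' := by
    intro y z h
    obtain ⟨x, rfl⟩ := T.surjective y
    obtain ⟨x', rfl⟩ := T.surjective z
    rw [hA'T, hA'T] at h
    rw [hAinj (T.injective h)]
  have hA'surj : Function.Surjective A' := LinearMap.injective_iff_surjective.1 hA'inj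
  have hBsurj : Function.Surjective B := by
    intro z
    obtain ⟨y, hy⟩ := hA'surj (ins z)
    refine ⟨tl m y, ?_⟩
    rw [← htlA, hy, hins2]
  have hBne : ∀ s : ℝ, (∃ x, (∀ i, inner ℝ x (w i) = 0) ∧ A x ≠ s • x) →
      B ≠ s • LinearMap.id := by
    rintro s ⟨x, hx, hne⟩ hB
    apply hne
    apply T.injective
    rw [← hA'T, map_smul]
    have hx0 : ∀ k, T x (Fin.castAdd 3 k) = 0 := fun k => by rw [hTw, hx]
    rw [hdec (A' (T x)), hdec (T x)]
    rw [← hdec (T x)]
    rw [htlA, hB]
    simp only [hA'c, hx0, mul_zero, zero_smul, Finset.sum_const_zero, zero_add,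
      LinearMap.smul_apply, LinearMap.id_apply, map_smul]
    congr 1
    have := hdec (T x)
    simp only [hx0, zero_smul, Finset.sum_const_zero, zero_add] at this
    exact this.symm
  have hB1 : B ≠ LinearMap.id := by
    have := hBne 1 (by simpa using h1)
    simpa using this
  have hB2 : B ≠ -LinearMap.id := by
    intro h
    apply hBne (-1) (by simpa using h2)
    rw [h]
    apply LinearMap.ext
    intro z
    simp
  -- invariance
  set C : (Fin 3 → ℝ) → (Fin 3 → ℝ) := Function.surjInv hBsurj with hC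
  have hBC : ∀ z, B (C z) = z := fun z => Function.surjInv_eq hBsurj z
  have hflip : ∀ S : Set (EuclideanSpace ℝ (Fin (m + 3))),
      (∀ i, ∀ x ∈ S, x - (2 * inner ℝ x (w i)) • v i ∈ S) → ∀ y ∈ T '' S, ∀ z,
      (∀ k : Fin m, z (Fin.castAdd 3 k) = cc k * y (Fin.castAdd 3 k)) → tl m z = tl m y →
      z ∈ T '' S := by
    intro S hS y hy z hz1 hz2
    refine flips (hrefl S hS) hy (Finset.univ.filter fun i : Fin (m + 3) => i.val < m) z ?_ ?_
    · intro i hi
      have hi' : ¬ i.val < m := by simpa using hi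
      have h3 := congrFun hz2 ⟨i.val - m, by omega⟩
      simp only [tl] at h3
      have h4 : (⟨m + (i.val - m), by omega⟩ : Fin (m + 3)) = i := by
        ext
        simp
        omega
      rwa [h4] at h3
    · intro i hi
      have hi' : i.val < m := by simpa using hi
      refine ⟨hi', ?_⟩
      obtain ⟨k, rfl⟩ := hidx i hi'
      rw [hz1]
      rcases hcabs k with h | h
      · left; rw [h, one_mul]
      · right; rw [h]; ring
  have hinvB : ∀ S : Set (EuclideanSpace ℝ (Fin (m + 3))),
      (∀ i, ∀ x ∈ S, x - (2 * inner ℝ x (w i)) • v i ∈ S) → A '' S = S → Inv B m (T '' S) := by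
    intro S hS aS
    apply inv_of
    intro y hy y' h3 h4
    have hAy : A' y ∈ T '' S := by
      obtain ⟨x, hx, rfl⟩ := hy
      rw [hA'T]
      exact ⟨A x, by rw [← aS]; exact ⟨x, hx, rfl⟩, rfl⟩
    refine hflip S hS _ hAy y' ?_ ?_
    · intro k
      rw [hA'c, ← mul_assoc, h3 _ (by simp)]
      rcases hcabs k with h | h <;> rw [h] <;> ring
    · rw [h4, htlA]
  have hinvC : ∀ S : Set (EuclideanSpace ℝ (Fin (m + 3))),
      (∀ i, ∀ x ∈ S, x - (2 * inner ℝ x (w i)) • v i ∈ S) → A '' S = S → Inv C m (T '' S) := by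
    intro S hS aS
    apply inv_of
    intro y hy y' h3 h4
    have hAy : A' y' ∈ T '' S := by
      refine hflip S hS y hy _ ?_ ?_
      · intro k
        rw [hA'c, h3 _ (by simp)]
      · rw [htlA, h4, hBC]
    obtain ⟨x, hx, hxy⟩ := hAy
    obtain ⟨z, hz, hzx⟩ : x ∈ A '' S := by rw [aS]; exact hx
    refine ⟨z, hz, ?_⟩
    apply hA'inj
    rw [hA'T, hzx, hxy]
  have key := logBM_sym h0 h1' B C hBC hB1 hB2 m (T '' K) (T '' L) (hconv K hK.convex)
    (hconv L hL.convex) (hcomp K hK.isCompact) (hcomp L hL.isCompact) (hsym K hK.symm)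
    (hsym L hL.symm) (hrefl K rK) (hrefl L rL) (hinvB K rK aK) (hinvB L rL aL)
    (hinvC K rK aK) (hinvC L rL aL)
  have hincl : (wf fun u => hs (T '' K) u ^ (1 - t) * hs (T '' L) u ^ t) ⊆
      T '' (logComb t K L) := by
    intro y hy
    refine ⟨T.symm y, ?_, by simp⟩
    intro u _
    have := hy (vv u)
    rw [← hdot, T.apply_symm_apply]
    simpa only [hsup] using this
  have key2 := le_trans key (measure_mono hincl)
  rw [hc, hc, hc, ENNReal.mul_rpow_of_nonneg _ _ (by linarith), ENNReal.mul_rpow_of_nonneg _ _ h0.le,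
    mul_mul_mul_comm, ← ENNReal.rpow_add _ _ hc0 hc1] at key2
  simp only [sub_add_cancel, ENNReal.rpow_one] at key2
  exact (ENNReal.mul_le_mul_iff_right hc0 hc1).1 key2

end Vale.Agent.P227.C2
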