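import Mathlib.Analysis.SpecialFunctions.Trigonometric.Bounds
import Mathlib.Algebra.Order.Chebyshev
import Mathlib.Algebra.BigOperators.Field

/-! P227, C2: algebra of the two kernels (P3, P4, reverse Cauchy-Schwarz, P5). -/

open Finset Real

namespace Vale.Agent.P227.C2

/-! ### the min kernel -/

theorem psd_min {ι : Type*} (n : ℕ) : ∀ (S : Finset ι) (x a : ι → ℝ), S.card ≤ n →
    (∀ i ∈ S, 0 ≤ a i) → 0 ≤ ∑ i ∈ S, ∑ j ∈ S, x i * x j * min (a i) (a j) := by
  classical
  induction n with
  | zero =>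
    intro S x a hS _
    have : S = ∅ := by
      rw [← Finset.card_eq_zero]; omega
    simp [this]
  | succ n ih =>
    intro S x a hS ha
    rcases S.eq_empty_or_nonempty with h0 | hne
    · simp [h0]
    obtain ⟨i0, hi0, hmin⟩ := S.exists_min_image a hne
    set m := a i0 with hm
    have h1 : ∀ i j, min (a i) (a j) = m + min (a i - m) (a j - m) := by
      intro i j
      rw [← min_add_add_left]
      congr 1 <;> ring
    have h2 : ∑ i ∈ S, ∑ j ∈ S, x i * x j * min (a i) (a j) =
        m * (∑ i ∈ S, x i) ^ 2 + ∑ i ∈ S, ∑ j ∈ S, x i * x j * min (a i - m) (a j - m) := by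
      have : (∑ i ∈ S, x i) ^ 2 = ∑ i ∈ S, ∑ j ∈ S, x i * x j := by
        rw [sq, Finset.sum_mul_sum]
      rw [this, Finset.mul_sum, ← Finset.sum_add_distrib]
      apply Finset.sum_congr rfl
      intro i _
      rw [Finset.mul_sum, ← Finset.sum_add_distrib]
      apply Finset.sum_congr rfl
      intro j _
      rw [h1 i j]
      ring
    have h3 : ∑ i ∈ S, ∑ j ∈ S, x i * x j * min (a i - m) (a j - m) =
        ∑ i ∈ S.erase i0, ∑ j ∈ S.erase i0, x i * x j * min (a i - m) (a j - m) := by
      rw [← Finset.sum_erase S (a := i0)]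
      · apply Finset.sum_congr rfl
        intro i hi
        symm
        apply Finset.sum_erase
        have : min (a i - m) (a i0 - m) = 0 := by
          rw [← hm, sub_self]
          apply min_eq_right
          have := hmin i (Finset.mem_of_mem_erase hi)
          linarith
        rw [this, mul_zero]
      · apply Finset.sum_eq_zero
        intro j hj
        have : min (a i0 - m) (a j - m) = 0 := by
          rw [← hm, sub_self]
          apply min_eq_left
          have := hmin j hj
          linarith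
        rw [this, mul_zero]
    rw [h2, h3]
    have h4 := ih (S.erase i0) x (fun i => a i - m) (by
      rw [Finset.card_erase_of_mem hi0]; omega) (by
      intro i hi
      have := hmin i (Finset.mem_of_mem_erase hi)
      linarith)
    have h5 : 0 ≤ m * (∑ i ∈ S, x i) ^ 2 := mul_nonneg (ha i0 hi0) (sq_nonneg _)
    linarith

/-- Dirichlet Green kernel of `-(∂² + 1)` on `[0, c]`, `c < π`. -/
theorem psd_green {ι : Type*} [Fintype ι] {c : ℝ} (hc0 : 0 < c) (hc : c < π) (x s : ι → ℝ)
    (hs : ∀ i, 0 ≤ s i ∧ s i < c) :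
    0 ≤ ∑ i, ∑ j, x i * x j * (sin (min (s i) (s j)) * sin (c - max (s i) (s j))) := by
  have hpos : ∀ i, 0 < sin (c - s i) := fun i =>
    sin_pos_of_pos_of_lt_pi (by linarith [(hs i).2]) (by linarith [(hs i).1])
  have hnn : ∀ i, 0 ≤ sin (s i) := fun i =>
    sin_nonneg_of_nonneg_of_le_pi (hs i).1 (by linarith [(hs i).2])
  set φ : ι → ℝ := fun i => sin (s i) / sin (c - s i) with hφ
  have hmono : ∀ i j, s i ≤ s j → φ i ≤ φ j := by
    intro i j hij
    simp only [hφ]
    rw [div_le_div_iff₀ (hpos i) (hpos j)]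
    have h1 : sin (s j) * sin (c - s i) - sin (s i) * sin (c - s j) = sin c * sin (s j - s i) := by
      rw [sin_sub, sin_sub, sin_sub]
      nlinarith [sin_sq_add_cos_sq (s i), sin_sq_add_cos_sq (s j)]
    have h2 : 0 ≤ sin c := sin_nonneg_of_nonneg_of_le_pi hc0.le hc.le
    have h3 : 0 ≤ sin (s j - s i) := sin_nonneg_of_nonneg_of_le_pi (by linarith)
      (by linarith [(hs j).2, (hs i).1])
    nlinarith [mul_nonneg h2 h3]
  have key : ∀ i j, sin (min (s i) (s j)) * sin (c - max (s i) (s j)) =
      sin (c - s i) * sin (c - s j) * min (φ i) (φ j) := by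
    intro i j
    rcases le_total (s i) (s j) with h | h
    · rw [min_eq_left h, max_eq_right h, min_eq_left (hmono i j h)]
      simp only [hφ]
      field_simp [(hpos i).ne']
    · rw [min_eq_right h, max_eq_left h, min_eq_right (hmono j i h)]
      simp only [hφ]
      field_simp [(hpos j).ne']
  have h := psd_min (Finset.univ : Finset ι).card Finset.univ (fun i => x i * sin (c - s i)) φ
    le_rfl (fun i _ => div_nonneg (hnn i) (hpos i).le)
  refine h.trans (le_of_eq ?_)
  apply Finset.sum_congr rfl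
  intro i _
  apply Finset.sum_congr rfl
  intro j _
  rw [key i j]
  ring

/-! ### bilinear forms of kernels -/

variable {ι : Type*} [Fintype ι]

/-- `B K x y = ∑ x_i y_j K_ij`. -/
def B (K : ι → ι → ℝ) (x y : ι → ℝ) : ℝ := ∑ i, ∑ j, x i * y j * K i j

theorem B_add_left (K : ι → ι → ℝ) (x x' y : ι → ℝ) :
    B K (fun i => x i + x' i) y = B K x y + B K x' y := by
  simp only [B, ← Finset.sum_add_distrib]
  refine Finset.sum_congr rfl fun i _ => Finset.sum_congr rfl fun j _ => ?_
  ring

theorem B_add_right (K : ι → ι → ℝ) (x y y' : ι → ℝ) :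
    B K x (fun i => y i + y' i) = B K x y + B K x y' := by
  simp only [B, ← Finset.sum_add_distrib]
  refine Finset.sum_congr rfl fun i _ => Finset.sum_congr rfl fun j _ => ?_
  ring

theorem B_smul_left (K : ι → ι → ℝ) (c : ℝ) (x y : ι → ℝ) :
    B K (fun i => c * x i) y = c * B K x y := by
  simp only [B, Finset.mul_sum]
  refine Finset.sum_congr rfl fun i _ => Finset.sum_congr rfl fun j _ => ?_
  ring

theorem B_smul_right (K : ι → ι → ℝ) (c : ℝ) (x y : ι → ℝ) :
    B K x (fun i => c * y i) = c * B K x y := by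
  simp only [B, Finset.mul_sum]
  refine Finset.sum_congr rfl fun i _ => Finset.sum_congr rfl fun j _ => ?_
  ring

theorem B_symm {K : ι → ι → ℝ} (hK : ∀ i j, K i j = K j i) (x y : ι → ℝ) :
    B K x y = B K y x := by
  simp only [B]
  rw [Finset.sum_comm]
  refine Finset.sum_congr rfl fun i _ => Finset.sum_congr rfl fun j _ => ?_
  rw [hK j i]
  ring

theorem B_eq_sum_left (K : ι → ι → ℝ) (x y : ι → ℝ) :
    B K x y = ∑ i, x i * ∑ j, y j * K i j := by
  simp only [B, Finset.mul_sum]
  refine Finset.sum_congr rfl fun i _ => Finset.sum_congr rfl fun j _ => ?_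
  ring

/-! ### the abstract hypotheses -/

/-- The properties of the pair of kernels `K = kap (θ_i - θ_j)`, `K' = kap (θ_i - θ_j + b)`
used in (P4) and (P5): `γ = cos b`, `σ = 2 sin b`. -/
structure KHyp (K K' : ι → ι → ℝ) (σ γ : ℝ) : Prop where
  σ_pos : 0 < σ
  γ_ge : 1 / 3 ≤ γ
  γ_le : γ ≤ 1
  symm : ∀ i j, K i j = K j i
  symm' : ∀ i j, K' i j = K' j i
  lo : ∀ i j, γ ≤ σ * K i j
  hi : ∀ i j, σ * K i j ≤ 1
  lo' : ∀ i j, γ ≤ σ * K' i j
  hi' : ∀ i j, σ * K' i j ≤ 1
  sum_ge : ∀ i j, 1 + γ ≤ σ * K i j + σ * K' i j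
  psd : ∀ x : ι → ℝ, B K x x ≤ B K' x x
  lor : ∀ l z : ι → ℝ, 0 < B K l l → B K l l * B K z z ≤ B K l z ^ 2

variable {K K' : ι → ι → ℝ} {σ γ : ℝ}

theorem abs_form_le (C : ι → ι → ℝ) (δ : ℝ) (l η : ι → ℝ) (hl : ∀ i, 0 ≤ l i)
    (hC : ∀ i j, |C i j| ≤ δ) :
    |∑ i, ∑ j, (l i * η i) * (l j * η j) * C i j| ≤ δ * ((∑ i, l i) * ∑ i, l i * η i ^ 2) := by
  calc |∑ i, ∑ j, (l i * η i) * (l j * η j) * C i j|
      ≤ ∑ i, ∑ j, |(l i * η i) * (l j * η j) * C i j| :=
        (Finset.abs_sum_le_sum_abs _ _).trans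
          (Finset.sum_le_sum fun i _ => Finset.abs_sum_le_sum_abs _ _)
    _ ≤ ∑ i, ∑ j, δ * ((l i * l j) * ((η i ^ 2 + η j ^ 2) / 2)) := by
        refine Finset.sum_le_sum fun i _ => Finset.sum_le_sum fun j _ => ?_
        rw [abs_mul, abs_mul, abs_mul, abs_mul, abs_of_nonneg (hl i), abs_of_nonneg (hl j)]
        have h1 : |η i| * |η j| ≤ (η i ^ 2 + η j ^ 2) / 2 := by
          nlinarith [sq_nonneg (|η i| - |η j|), sq_abs (η i), sq_abs (η j)]
        have h2 : 0 ≤ l i * l j := mul_nonneg (hl i) (hl j)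
        have h3 : 0 ≤ δ := (abs_nonneg _).trans (hC i j)
        calc l i * |η i| * (l j * |η j|) * |C i j| = (l i * l j) * (|η i| * |η j|) * |C i j| := by
              ring
          _ ≤ (l i * l j) * ((η i ^ 2 + η j ^ 2) / 2) * δ := by
              apply mul_le_mul (mul_le_mul_of_nonneg_left h1 h2) (hC i j) (abs_nonneg _)
              apply mul_nonneg h2
              positivity
          _ = _ := by ring
    _ = δ * ((∑ i, l i) * ∑ i, l i * η i ^ 2) := by
        simp only [← Finset.mul_sum]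
        congr 1
        have e1 : ∑ i, ∑ j, l i * l j * ((η i ^ 2 + η j ^ 2) / 2) =
            (∑ i, ∑ j, l i * (l j * η j ^ 2)) / 2 + (∑ i, ∑ j, (l i * η i ^ 2) * l j) / 2 := by
          rw [← add_div, ← Finset.sum_add_distrib, Finset.sum_div]
          refine Finset.sum_congr rfl fun i _ => ?_
          rw [← Finset.sum_add_distrib, Finset.sum_div]
          refine Finset.sum_congr rfl fun j _ => ?_
          ring
        rw [e1, ← Finset.sum_mul_sum, ← Finset.sum_mul_sum]
        ring

/-- (P4) in the form `z_i = l_i β_i`. -/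
theorem P4 (h : KHyp K K' σ γ) (l β : ι → ℝ) (hl : ∀ i, 0 ≤ l i) :
    4 * B K l (fun i => l i * β i) ^ 2 ≤ B K l l *
      (2 * B K (fun i => l i * β i) (fun i => l i * β i) +
        ∑ i, l i * β i ^ 2 * ∑ k, l k * (K i k + K' i k)) := by
  have hKpos : ∀ i j, 0 < K i j := by
    intro i j
    have h1 := h.lo i j
    have h2 := h.γ_ge
    by_contra hcon
    push Not at hcon
    nlinarith [h.σ_pos]
  have hBB0 : 0 ≤ B K l l := Finset.sum_nonneg fun i _ => Finset.sum_nonneg fun j _ =>
    mul_nonneg (mul_nonneg (hl i) (hl j)) (hKpos i j).le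
  rcases hBB0.eq_or_lt with h0 | hBB
  · -- all `l i = 0`
    have hz : ∀ i, l i = 0 := by
      intro i
      have h1 : ∑ j, l i * l j * K i j = 0 := by
        have := (Finset.sum_eq_zero_iff_of_nonneg (fun i _ => Finset.sum_nonneg fun j _ =>
          mul_nonneg (mul_nonneg (hl i) (hl j)) (hKpos i j).le)).1 h0.symm i (Finset.mem_univ i)
        exact this
      have h2 := (Finset.sum_eq_zero_iff_of_nonneg (fun j _ =>
          mul_nonneg (mul_nonneg (hl i) (hl j)) (hKpos i j).le)).1 h1 i (Finset.mem_univ i)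
      have h3 := hKpos i i
      rcases mul_eq_zero.1 h2 with h4 | h4
      · exact mul_self_eq_zero.1 h4
      · exact absurd h4 h3.ne'
    have : B K l (fun i => l i * β i) = 0 := by
      simp [B, hz]
    rw [this, ← h0]
    simp
  set c : ℝ := B K l (fun i => l i * β i) / B K l l with hc
  set η : ι → ℝ := fun i => β i - c with hη
  have hcB : B K l (fun i => l i * β i) = c * B K l l := by
    rw [hc, div_mul_cancel₀ _ hBB.ne']
  have hβ : (fun i => l i * β i) = fun i => c * l i + l i * η i := by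
    funext i
    simp only [hη]
    ring
  have hlη : B K l (fun i => l i * η i) = 0 := by
    have h1 : B K l (fun i => l i * β i) = c * B K l l + B K l (fun i => l i * η i) := by
      rw [hβ, B_add_right, B_smul_right]
    linarith
  have e1 : B K (fun i => l i * β i) (fun i => l i * β i) =
      c ^ 2 * B K l l + B K (fun i => l i * η i) (fun i => l i * η i) := by
    rw [hβ, B_add_right, B_add_left, B_add_left, B_smul_right, B_smul_right, B_smul_left,
      B_smul_left, B_symm h.symm (fun i => l i * η i) l, hlη]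
    ring
  have e2 : B K' (fun i => l i * β i) (fun i => l i * β i) =
      c ^ 2 * B K' l l + 2 * c * B K' l (fun i => l i * η i) +
        B K' (fun i => l i * η i) (fun i => l i * η i) := by
    rw [hβ, B_add_right, B_add_left, B_add_left, B_smul_right, B_smul_right, B_smul_left,
      B_smul_left, B_symm h.symm' (fun i => l i * η i) l]
    ring
  have e3 : ∑ i, l i * β i ^ 2 * ∑ k, l k * (K i k + K' i k) =
      c ^ 2 * (B K l l + B K' l l) + 2 * c * B K' l (fun i => l i * η i) +
        ∑ i, l i * η i ^ 2 * ∑ k, l k * (K i k + K' i k) := by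
    have a1 : ∑ i, l i * ∑ k, l k * (K i k + K' i k) = B K l l + B K' l l := by
      rw [B_eq_sum_left, B_eq_sum_left, ← Finset.sum_add_distrib]
      refine Finset.sum_congr rfl fun i _ => ?_
      rw [← mul_add, ← Finset.sum_add_distrib]
      congr 1
      refine Finset.sum_congr rfl fun k _ => ?_
      ring
    have a2 : ∑ i, l i * η i * ∑ k, l k * (K i k + K' i k) = B K' l (fun i => l i * η i) := by
      have : B K (fun i => l i * η i) l + B K' (fun i => l i * η i) l =
          B K' l (fun i => l i * η i) := by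
        rw [B_symm h.symm (fun i => l i * η i) l, hlη, B_symm h.symm' (fun i => l i * η i) l,
          zero_add]
      rw [← this, B_eq_sum_left, B_eq_sum_left, ← Finset.sum_add_distrib]
      refine Finset.sum_congr rfl fun i _ => ?_
      rw [← mul_add, ← Finset.sum_add_distrib]
      congr 1
      refine Finset.sum_congr rfl fun k _ => ?_
      ring
    rw [← a1, ← a2, Finset.mul_sum, Finset.mul_sum, ← Finset.sum_add_distrib,
      ← Finset.sum_add_distrib]
    refine Finset.sum_congr rfl fun i _ => ?_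
    simp only [hη]
    ring
  -- the residual form
  have hσ := h.σ_pos
  have hres : 0 ≤ 3 * B K (fun i => l i * η i) (fun i => l i * η i) -
      B K' (fun i => l i * η i) (fun i => l i * η i) +
        ∑ i, l i * η i ^ 2 * ∑ k, l k * (K i k + K' i k) := by
    have b1 := abs_form_le (fun i j => 3 * (σ * K i j) - σ * K' i j - (1 + γ)) (2 * (1 - γ)) l η hl
      (by
        intro i j
        have := h.lo i j
        have := h.hi i j
        have := h.lo' i j
        have := h.hi' i j
        rw [abs_le]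
        constructor <;> linarith)
    have b2 : ∑ i, ∑ j, (l i * η i) * (l j * η j) * (3 * (σ * K i j) - σ * K' i j - (1 + γ)) =
        σ * (3 * B K (fun i => l i * η i) (fun i => l i * η i) -
          B K' (fun i => l i * η i) (fun i => l i * η i)) - (1 + γ) * (∑ i, l i * η i) ^ 2 := by
      rw [sq, Finset.sum_mul_sum]
      simp only [B, Finset.mul_sum, ← Finset.sum_sub_distrib]
      refine Finset.sum_congr rfl fun i _ => Finset.sum_congr rfl fun j _ => ?_
      ring
    have b3 : (1 + γ) * ((∑ i, l i) * ∑ i, l i * η i ^ 2) ≤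
        σ * ∑ i, l i * η i ^ 2 * ∑ k, l k * (K i k + K' i k) := by
      rw [mul_comm (∑ i, l i), Finset.sum_mul_sum]
      simp only [Finset.mul_sum]
      refine Finset.sum_le_sum fun i _ => Finset.sum_le_sum fun k _ => ?_
      have h1 : 0 ≤ l i * η i ^ 2 * l k := mul_nonneg (mul_nonneg (hl i) (sq_nonneg _)) (hl k)
      have h2 := h.sum_ge i k
      nlinarith
    rw [b2] at b1
    have b4 := (abs_le.1 b1).1
    have b5 : 0 ≤ (∑ i, l i) * ∑ i, l i * η i ^ 2 :=
      mul_nonneg (Finset.sum_nonneg fun i _ => hl i)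
        (Finset.sum_nonneg fun i _ => mul_nonneg (hl i) (sq_nonneg _))
    have b6 : 0 ≤ (1 + γ) * (∑ i, l i * η i) ^ 2 :=
      mul_nonneg (by linarith [h.γ_ge]) (sq_nonneg _)
    have b7 : 0 ≤ (3 * γ - 1) * ((∑ i, l i) * ∑ i, l i * η i ^ 2) :=
      mul_nonneg (by linarith [h.γ_ge]) b5
    have b8 : 0 ≤ σ * (3 * B K (fun i => l i * η i) (fun i => l i * η i) -
      B K' (fun i => l i * η i) (fun i => l i * η i) +
        ∑ i, l i * η i ^ 2 * ∑ k, l k * (K i k + K' i k)) := by
      nlinarith
    exact nonneg_of_mul_nonneg_right b8 hσ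
  have hpsd := h.psd (fun i => l i * β i)
  rw [e1, e2] at hpsd
  rw [hcB, e1, e3]
  have hfin : 4 * (c ^ 2 * B K l l) ≤
      2 * (c ^ 2 * B K l l + B K (fun i => l i * η i) (fun i => l i * η i)) +
        (c ^ 2 * (B K l l + B K' l l) + 2 * c * B K' l (fun i => l i * η i) +
        ∑ i, l i * η i ^ 2 * ∑ k, l k * (K i k + K' i k)) := by
    linarith
  calc 4 * (c * B K l l) ^ 2 = B K l l * (4 * (c ^ 2 * B K l l)) := by ring
    _ ≤ _ := mul_le_mul_of_nonneg_left hfin hBB.le

/-- core of (P5). -/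
theorem P5core (h : KHyp K K' σ γ) (l δ r : ι → ℝ) (hl : ∀ i, 0 ≤ l i) (hBB : 0 < B K l l)
    (hr : ∀ i, 0 < r i) (hw : ∀ i, 0 < l i → ∑ k, l k * (K i k + K' i k) ≤ 2 * r i) :
    B K δ δ + ∑ i, l i * (∑ j, δ j * K i j) ^ 2 / r i ≤ 2 * B K l δ ^ 2 / B K l l := by
  set g : ι → ℝ := fun i => ∑ j, δ j * K i j with hg
  set β : ι → ℝ := fun i => g i / r i with hβ
  set z : ι → ℝ := fun i => l i * β i with hz
  have e2 : B K z δ = ∑ i, l i * g i ^ 2 / r i := by
    rw [B_eq_sum_left]
    refine Finset.sum_congr rfl fun i _ => ?_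
    simp only [hz, hβ]
    change l i * (g i / r i) * g i = _
    ring
  have h4 := P4 h l β hl
  have h5 : ∑ i, l i * β i ^ 2 * ∑ k, l k * (K i k + K' i k) ≤ 2 * ∑ i, l i * g i ^ 2 / r i := by
    rw [Finset.mul_sum]
    refine Finset.sum_le_sum fun i _ => ?_
    rcases (hl i).eq_or_lt with h0 | h0
    · rw [← h0]; simp
    have h1 := hw i h0
    have h2 := hr i
    calc l i * β i ^ 2 * ∑ k, l k * (K i k + K' i k) ≤ l i * β i ^ 2 * (2 * r i) :=
          mul_le_mul_of_nonneg_left h1 (mul_nonneg (hl i) (sq_nonneg _))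
      _ = 2 * (l i * g i ^ 2 / r i) := by
          simp only [hβ]
          field_simp
  have h6 := h.lor l (fun i => δ i + z i) hBB
  rw [B_add_right, B_add_right, B_add_left, B_add_left, B_symm h.symm δ z, e2] at h6
  change 4 * B K l z ^ 2 ≤ B K l l * (2 * B K z z +
    ∑ i, l i * β i ^ 2 * ∑ k, l k * (K i k + K' i k)) at h4
  set S := ∑ i, l i * g i ^ 2 / r i with hS
  set BB := B K l l with hBBdef
  have h7 : (B K l δ + B K l z) ^ 2 ≤ 2 * B K l δ ^ 2 + 2 * B K l z ^ 2 := by
    nlinarith [sq_nonneg (B K l δ - B K l z)]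
  have h8 : 4 * B K l z ^ 2 ≤ BB * (2 * B K z z + 2 * S) :=
    h4.trans (mul_le_mul_of_nonneg_left (by linarith) hBB.le)
  have h9 : BB * (B K δ δ + S) ≤ 2 * B K l δ ^ 2 := by nlinarith
  rw [le_div_iff₀ hBB]
  linarith

/-- (P5), the local inequality. -/
theorem P5 (h : KHyp K K' σ γ) (l l' r : ι → ℝ) (hl : ∀ i, 0 ≤ l i) (hBB : 0 < B K l l)
    (hr : ∀ i, 0 < r i) (hw : ∀ i, 0 < l i → ∑ k, l k * (K i k + K' i k) ≤ 2 * r i) :
    B K l' l' ≤ B K l l + 2 * B K l (fun i => l' i - l i) +
      2 * B K l (fun i => l' i - l i) ^ 2 / B K l l -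
        ∑ i, l i * (∑ j, (l' j - l j) * K i j) ^ 2 / r i := by
  set δ : ι → ℝ := fun i => l' i - l i with hδ
  have e0 : l' = fun i => l i + δ i := by
    funext i
    simp only [hδ]
    ring
  have e1 : B K l' l' = B K l l + 2 * B K l δ + B K δ δ := by
    rw [e0, B_add_left, B_add_right, B_add_right, B_symm h.symm δ l]
    ring
  have := P5core h l δ r hl hBB hr hw
  rw [e1]
  linarith

/-- scaling of the kernels -/
theorem KHyp.scale (h : KHyp K K' σ γ) :
    KHyp (fun i j => σ * K i j) (fun i j => σ * K' i j) 1 γ := by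
  have hB : ∀ (L : ι → ι → ℝ) (x y : ι → ℝ), B (fun i j => σ * L i j) x y = σ * B L x y := by
    intro L x y
    simp only [B, Finset.mul_sum]
    refine Finset.sum_congr rfl fun i _ => Finset.sum_congr rfl fun j _ => ?_
    ring
  refine ⟨one_pos, h.γ_ge, h.γ_le, fun i j => by rw [h.symm i j], fun i j => by rw [h.symm' i j],
    fun i j => by rw [one_mul]; exact h.lo i j, fun i j => by rw [one_mul]; exact h.hi i j,
    fun i j => by rw [one_mul]; exact h.lo' i j, fun i j => by rw [one_mul]; exact h.hi' i j,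
    fun i j => by rw [one_mul, one_mul]; exact h.sum_ge i j, ?_, ?_⟩
  · intro x
    rw [hB, hB]
    exact mul_le_mul_of_nonneg_left (h.psd x) h.σ_pos.le
  · intro l z hl
    rw [hB] at hl
    have hl' : 0 < B K l l := by
      by_contra hcon
      push Not at hcon
      nlinarith [h.σ_pos]
    rw [hB, hB, hB]
    have := h.lor l z hl'
    calc σ * B K l l * (σ * B K z z) = σ ^ 2 * (B K l l * B K z z) := by ring
      _ ≤ σ ^ 2 * B K l z ^ 2 := mul_le_mul_of_nonneg_left this (sq_nonneg _)
      _ = _ := by ring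

end Vale.Agent.P227.C2
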