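import Vale.Agent.P227.C2.KAlg

/-! P227, C2: the kernel `kap` (mixed areas of rotated regular `m`-gons, `b = π/m`). -/

open Finset Real

namespace Vale.Agent.P227.C2

/-- `kap b d = cos (b - d) / (2 sin b)` on `[0, 2b]`, extended with period `2b`. -/
noncomputable def kap (b d : ℝ) : ℝ := cos (b * (1 - 2 * Int.fract (d / (2 * b)))) / (2 * sin b)

theorem kap_add_int {b : ℝ} (hb : 0 < b) (d : ℝ) (n : ℤ) : kap b (d + 2 * b * n) = kap b d := by
  unfold kap
  have : (d + 2 * b * n) / (2 * b) = d / (2 * b) + n := by field_simp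
  rw [this, Int.fract_add_intCast]

theorem kap_add_period {b : ℝ} (hb : 0 < b) (d : ℝ) : kap b (d + 2 * b) = kap b d := by
  simpa using kap_add_int hb d 1

theorem kap_of_mem {b d : ℝ} (hb : 0 < b) (h0 : 0 ≤ d) (h1 : d ≤ 2 * b) :
    kap b d = cos (b - d) / (2 * sin b) := by
  rcases h1.eq_or_lt with h | h
  · subst h
    unfold kap
    rw [div_self (by positivity)]
    have : Int.fract (1 : ℝ) = 0 := Int.fract_one
    rw [this]
    congr 1
    rw [show b - 2 * b = -b by ring, cos_neg]
    congr 1
    ring
  · unfold kap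
    have : Int.fract (d / (2 * b)) = d / (2 * b) := by
      rw [Int.fract_eq_self]
      exact ⟨by positivity, by rw [div_lt_one (by positivity)]; exact h⟩
    rw [this]
    congr 2
    field_simp

theorem kap_neg {b : ℝ} (hb : 0 < b) (d : ℝ) : kap b (-d) = kap b d := by
  have key : ∀ t : ℝ, 0 ≤ t → t < 2 * b → kap b (-t) = kap b t := by
    intro t h0 h1
    rw [← kap_add_period hb (-t), kap_of_mem hb (by linarith) (by linarith),
      kap_of_mem hb h0 h1.le, show b - (-t + 2 * b) = -(b - t) by ring, cos_neg]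
  set n : ℤ := ⌊d / (2 * b)⌋ with hn
  set t : ℝ := d - 2 * b * n with ht
  have ht' : t = 2 * b * Int.fract (d / (2 * b)) := by
    rw [ht, Int.fract, ← hn]
    field_simp
  have h0 : 0 ≤ t := by rw [ht']; have := Int.fract_nonneg (d / (2 * b)); positivity
  have h1 : t < 2 * b := by
    rw [ht']
    have := Int.fract_lt_one (d / (2 * b))
    nlinarith
  have e1 : d = t + 2 * b * n := by rw [ht]; ring
  have e2 : -d = -t + 2 * b * ((-n : ℤ) : ℝ) := by rw [e1]; push_cast; ring
  rw [e2, kap_add_int hb, key t h0 h1]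
  conv_rhs => rw [e1, kap_add_int hb]

theorem kap_abs {b d : ℝ} (hb : 0 < b) (h : |d| ≤ 2 * b) :
    kap b d = cos (b - |d|) / (2 * sin b) := by
  rcases le_total 0 d with h0 | h0
  · rw [abs_of_nonneg h0] at h ⊢
    exact kap_of_mem hb h0 h
  · rw [abs_of_nonpos h0] at h ⊢
    rw [← kap_neg hb d]
    exact kap_of_mem hb (by linarith) h

/-- difference kernel -/
noncomputable def kd (b d : ℝ) : ℝ := kap b (d + b) - kap b d

theorem kd_add {b : ℝ} (hb : 0 < b) (d : ℝ) : kd b (d + b) = -kd b d := by
  unfold kd
  rw [show d + b + b = d + 2 * b by ring, kap_add_period hb]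
  ring

theorem kd_add_nat {b : ℝ} (hb : 0 < b) (d : ℝ) (n : ℕ) :
    kd b (d + b * n) = (-1 : ℝ) ^ n * kd b d := by
  induction n with
  | zero => simp
  | succ n ih =>
    rw [show d + b * ((n + 1 : ℕ) : ℝ) = (d + b * n) + b by push_cast; ring, kd_add hb, ih,
      pow_succ]
    ring

theorem kd_add_int {b : ℝ} (hb : 0 < b) (d : ℝ) (n : ℤ) :
    kd b (d + b * n) = (-1 : ℝ) ^ n * kd b d := by
  rcases n.eq_nat_or_neg with ⟨k, rfl | rfl⟩
  · simpa using kd_add_nat hb d k
  · have h := kd_add_nat hb (d + b * ((-(k : ℤ) : ℤ) : ℝ)) k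
    have e : d + b * ((-(k : ℤ) : ℤ) : ℝ) + b * (k : ℝ) = d := by push_cast; ring
    rw [e] at h
    rw [h, zpow_neg, zpow_natCast, ← mul_assoc, inv_mul_cancel₀ (by simp), one_mul]

theorem kd_abs {b d : ℝ} (hb : 0 < b) (h : |d| ≤ b) :
    kd b d = (cos d - cos (b - |d|)) / (2 * sin b) := by
  have h' := abs_le.1 h
  unfold kd
  rw [kap_abs hb (by linarith : |d| ≤ 2 * b), kap_of_mem hb (by linarith) (by linarith),
    show b - (d + b) = -d by ring, cos_neg]
  ring

/-- (K1) -/
theorem kd_eq {b s t : ℝ} (hb : 0 < b) (hb' : b < π) (hs : 0 ≤ s ∧ s ≤ b) (ht : 0 ≤ t ∧ t ≤ b) :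
    sin b * kd b (s - t) = sin (min s t) * sin (b - max s t) +
      sin (b / 2 - s) * sin (b / 2 - t) := by
  have hsb : 0 < sin b := sin_pos_of_pos_of_lt_pi hb hb'
  have key : ∀ s t : ℝ, 0 ≤ s → s ≤ b → 0 ≤ t → t ≤ b → t ≤ s →
      sin b * kd b (s - t) = sin t * sin (b - s) + sin (b / 2 - s) * sin (b / 2 - t) := by
    intro s t h1 h2 h3 h4 h5
    have habs : |s - t| = s - t := abs_of_nonneg (by linarith)
    rw [kd_abs hb (by rw [habs]; linarith), habs]
    have e1 : sin b * ((cos (s - t) - cos (b - (s - t))) / (2 * sin b)) =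
        (cos (s - t) - cos (b - (s - t))) / 2 := by field_simp
    rw [e1]
    have e2 : 2 * (sin t * sin (b - s)) = cos (b - s - t) - cos (b - (s - t)) := by
      rw [show b - (s - t) = (b - s) + t by ring, cos_add, cos_sub]
      ring
    have e3 : 2 * (sin (b / 2 - s) * sin (b / 2 - t)) = cos (s - t) - cos (b - s - t) := by
      rw [show s - t = (b / 2 - t) - (b / 2 - s) by ring,
        show b - s - t = (b / 2 - t) + (b / 2 - s) by ring, cos_add, cos_sub]
      ring
    linarith
  rcases le_total t s with h | h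
  · rw [min_eq_right h, max_eq_left h]
    exact key s t hs.1 hs.2 ht.1 ht.2 h
  · rw [min_eq_left h, max_eq_right h]
    have := key t s ht.1 ht.2 hs.1 hs.2 h
    have e : kd b (s - t) = kd b (t - s) := by
      rw [kd_abs hb (by rw [abs_le]; constructor <;> linarith [hs.1, hs.2, ht.1, ht.2]),
        kd_abs hb (by rw [abs_le]; constructor <;> linarith [hs.1, hs.2, ht.1, ht.2]),
        abs_sub_comm, show s - t = -(t - s) by ring, cos_neg]
    rw [e, this]
    ring

/-- (K2) -/
theorem kap_eq {b s t : ℝ} (hb : 0 < b) (hb' : b < π / 2) (hs : 0 ≤ s ∧ s ≤ 2 * b)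
    (ht : 0 ≤ t ∧ t ≤ 2 * b) :
    sin (2 * b) * kap b (s - t) = cos (b - s) * cos (b - t) -
      sin (min s t) * sin (2 * b - max s t) := by
  have hsb : 0 < sin b := sin_pos_of_pos_of_lt_pi hb (by linarith [pi_pos])
  have key : ∀ s t : ℝ, 0 ≤ s → s ≤ 2 * b → 0 ≤ t → t ≤ 2 * b → t ≤ s →
      sin (2 * b) * kap b (s - t) = cos (b - s) * cos (b - t) - sin t * sin (2 * b - s) := by
    intro s t h1 h2 h3 h4 h5
    rw [kap_of_mem hb (by linarith) (by linarith), sin_two_mul]
    have e1 : 2 * sin b * cos b * (cos (b - (s - t)) / (2 * sin b)) =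
        cos b * cos (b - (s - t)) := by field_simp
    rw [e1]
    have e2 : 2 * (cos b * cos (b - (s - t))) = cos (2 * b - (s - t)) + cos (s - t) := by
      rw [show 2 * b - (s - t) = b + (b - (s - t)) by ring,
        show cos (s - t) = cos (b - (b - (s - t))) by congr 1; ring, cos_add,
        cos_sub b (b - (s - t))]
      ring
    have e3 : 2 * (cos (b - s) * cos (b - t)) = cos (2 * b - s - t) + cos (s - t) := by
      rw [show s - t = (b - t) - (b - s) by ring,
        show 2 * b - s - t = (b - t) + (b - s) by ring, cos_add, cos_sub (b - t) (b - s)]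
      ring
    have e4 : 2 * (sin t * sin (2 * b - s)) = cos (2 * b - s - t) - cos (2 * b - (s - t)) := by
      rw [show 2 * b - (s - t) = (2 * b - s) + t by ring, cos_add, cos_sub]
      ring
    linarith
  rcases le_total t s with h | h
  · rw [min_eq_right h, max_eq_left h]
    exact key s t hs.1 hs.2 ht.1 ht.2 h
  · rw [min_eq_left h, max_eq_right h]
    have := key t s ht.1 ht.2 hs.1 hs.2 h
    rw [show s - t = -(t - s) by ring, kap_neg hb, this]
    ring

variable {ι : Type*} [Fintype ι]

/-- The kernels `kap (θ_i - θ_j)` and `kap (θ_i - θ_j + b)` satisfy `KHyp`. -/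
theorem kHyp_kap {b : ℝ} (hb : 0 < b) (hb' : b ≤ π / 3) (θ : ι → ℝ) :
    KHyp (fun i j => kap b (θ i - θ j)) (fun i j => kap b (θ i - θ j + b)) (2 * sin b)
      (cos b) := by
  have hpi := pi_pos
  have hsb : 0 < sin b := sin_pos_of_pos_of_lt_pi hb (by linarith)
  have hs2b : 0 < sin (2 * b) := sin_pos_of_pos_of_lt_pi (by linarith) (by linarith)
  have hcos : (1 : ℝ) / 2 ≤ cos b := by
    rw [← cos_pi_div_three]
    exact cos_le_cos_of_nonneg_of_le_pi hb.le (by linarith) hb'
  have hlo : ∀ d, cos b ≤ 2 * sin b * kap b d := by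
    intro d
    unfold kap
    rw [mul_div_cancel₀ _ (by positivity)]
    have h0 := Int.fract_nonneg (d / (2 * b))
    have h1 := (Int.fract_lt_one (d / (2 * b))).le
    rw [← cos_abs (b * _)]
    apply cos_le_cos_of_nonneg_of_le_pi (abs_nonneg _) (by linarith)
    rw [abs_le]
    constructor <;> nlinarith
  have hhi : ∀ d, 2 * sin b * kap b d ≤ 1 := by
    intro d
    unfold kap
    rw [mul_div_cancel₀ _ (by positivity)]
    exact cos_le_one _
  refine ⟨by positivity, by linarith, cos_le_one _, ?_, ?_, fun i j => hlo _, fun i j => hhi _,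
    fun i j => hlo _, fun i j => hhi _, ?_, ?_, ?_⟩
  · intro i j
    rw [← kap_neg hb]
    congr 1
    ring
  · intro i j
    rw [← kap_neg hb, ← kap_add_period hb]
    congr 1
    ring
  · -- sum_ge
    intro i j
    set d := θ i - θ j with hd
    set n : ℤ := ⌊d / b⌋ with hn
    set t : ℝ := d - b * n with ht
    have ht' : t = b * Int.fract (d / b) := by
      rw [ht, Int.fract, ← hn]
      field_simp
    have h0 : 0 ≤ t := by rw [ht']; have := Int.fract_nonneg (d / b); positivity
    have h1 : t ≤ b := by
      rw [ht']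
      have := Int.fract_lt_one (d / b)
      nlinarith
    have hsum : ∀ t : ℝ, 0 ≤ t → t ≤ b → 1 + cos b ≤
        2 * sin b * kap b t + 2 * sin b * kap b (t + b) := by
      intro t h0 h1
      rw [kap_of_mem hb h0 (by linarith), kap_of_mem hb (by linarith) (by linarith),
        mul_div_cancel₀ _ (by positivity), mul_div_cancel₀ _ (by positivity),
        show b - (t + b) = -t by ring, cos_neg]
      have e1 : cos (b - t) + cos t = 2 * cos (b / 2) * cos (b / 2 - t) := by
        rw [show b - t = b / 2 + (b / 2 - t) by ring,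
          show cos t = cos (b / 2 - (b / 2 - t)) by congr 1; ring, cos_add, cos_sub (b / 2) (b / 2 - t)]
        ring
      have e2 : 1 + cos b = 2 * cos (b / 2) * cos (b / 2) := by
        have := cos_sq (b / 2)
        rw [show 2 * (b / 2) = b by ring] at this
        nlinarith
      have h2 : cos (b / 2) ≤ cos (b / 2 - t) := by
        rw [← cos_abs (b / 2 - t)]
        apply cos_le_cos_of_nonneg_of_le_pi (abs_nonneg _) (by linarith)
        rw [abs_le]
        constructor <;> linarith
      have h3 : 0 ≤ cos (b / 2) := cos_nonneg_of_mem_Icc ⟨by linarith, by linarith⟩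
      rw [e1, e2]
      nlinarith
    -- the sum is `b`-periodic
    have hper : ∀ x : ℝ, kap b (x + b) + kap b (x + b + b) = kap b x + kap b (x + b) := by
      intro x
      rw [show x + b + b = x + 2 * b by ring, kap_add_period hb]
      ring
    have hpern : ∀ (k : ℕ) (x : ℝ), kap b (x + b * k) + kap b (x + b * k + b) =
        kap b x + kap b (x + b) := by
      intro k
      induction k with
      | zero => intro x; simp
      | succ k ih =>
        intro x
        rw [← ih x, ← hper (x + b * k)]
        congr 2 <;> (push_cast; ring)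
    have hperz : kap b d + kap b (d + b) = kap b t + kap b (t + b) := by
      rcases n.eq_nat_or_neg with ⟨k, hk | hk⟩
      · have e : d = t + b * (k : ℝ) := by
          rw [ht, hk]
          push_cast
          ring
        rw [e]
        exact hpern k t
      · have e : t = d + b * (k : ℝ) := by
          rw [ht, hk]
          push_cast
          ring
        rw [e]
        exact (hpern k d).symm
    have := hsum t h0 h1
    nlinarith [hperz]
  · -- psd
    intro x
    have e0 : ∀ i, θ i = b * Int.fract (θ i / b) + b * (⌊θ i / b⌋ : ℝ) := by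
      intro i
      rw [Int.fract]
      field_simp
      ring
    set s : ι → ℝ := fun i => b * Int.fract (θ i / b) with hs
    set n : ι → ℤ := fun i => ⌊θ i / b⌋ with hn
    have hs0 : ∀ i, 0 ≤ s i ∧ s i < b := by
      intro i
      have h0 := Int.fract_nonneg (θ i / b)
      have h1 := Int.fract_lt_one (θ i / b)
      simp only [hs]
      exact ⟨by positivity, by nlinarith⟩
    have hk : ∀ i j, kap b (θ i - θ j + b) - kap b (θ i - θ j) =
        (-1 : ℝ) ^ (n i) * (-1 : ℝ) ^ (n j) * kd b (s i - s j) := by
      intro i j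
      change kd b (θ i - θ j) = _
      have : θ i - θ j = (s i - s j) + b * ((n i - n j : ℤ) : ℝ) := by
        rw [e0 i, e0 j]
        push_cast
        ring
      rw [this, kd_add_int hb, zpow_sub₀ (by norm_num), div_eq_mul_inv]
      congr 2
      rcases Int.even_or_odd (n j) with h | h
      · rw [h.neg_one_zpow]; simp
      · rw [h.neg_one_zpow]; norm_num
    have h1 := psd_green (c := b) hb (by linarith) (fun i => x i * (-1 : ℝ) ^ (n i)) s hs0
    have h2 : 0 ≤ (∑ i, x i * (-1 : ℝ) ^ (n i) * sin (b / 2 - s i)) ^ 2 := sq_nonneg _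
    rw [sq, Finset.sum_mul_sum] at h2
    have h3 : 0 ≤ sin b * (B (fun i j => kap b (θ i - θ j + b)) x x -
        B (fun i j => kap b (θ i - θ j)) x x) := by
      calc (0 : ℝ) ≤ _ := add_nonneg h1 h2
        _ = _ := by
          simp only [B, ← Finset.sum_add_distrib, ← Finset.sum_sub_distrib, Finset.mul_sum]
          refine Finset.sum_congr rfl fun i _ => Finset.sum_congr rfl fun j _ => ?_
          rw [← mul_sub, hk i j]
          have := kd_eq hb (by linarith) ⟨(hs0 i).1, (hs0 i).2.le⟩ ⟨(hs0 j).1, (hs0 j).2.le⟩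
          calc _ = (x i * (-1 : ℝ) ^ (n i)) * (x j * (-1 : ℝ) ^ (n j)) *
                (sin (min (s i) (s j)) * sin (b - max (s i) (s j)) +
                  sin (b / 2 - s i) * sin (b / 2 - s j)) := by ring
            _ = _ := by rw [← this]; ring
    have := nonneg_of_mul_nonneg_right h3 hsb
    linarith
  · -- lorentzian
    intro l z hBB
    have e0 : ∀ i, θ i = 2 * b * Int.fract (θ i / (2 * b)) + 2 * b * (⌊θ i / (2 * b)⌋ : ℝ) := by
      intro i
      rw [Int.fract]
      field_simp
      ring
    set s : ι → ℝ := fun i => 2 * b * Int.fract (θ i / (2 * b)) with hs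
    set n : ι → ℤ := fun i => ⌊θ i / (2 * b)⌋ with hn
    have hs0 : ∀ i, 0 ≤ s i ∧ s i < 2 * b := by
      intro i
      have h0 := Int.fract_nonneg (θ i / (2 * b))
      have h1 := Int.fract_lt_one (θ i / (2 * b))
      simp only [hs]
      exact ⟨by positivity, by nlinarith⟩
    have hk : ∀ i j, kap b (θ i - θ j) = kap b (s i - s j) := by
      intro i j
      have : θ i - θ j = (s i - s j) + 2 * b * ((n i - n j : ℤ) : ℝ) := by
        rw [e0 i, e0 j]
        push_cast
        ring
      rw [this, kap_add_int hb]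
    set K : ι → ι → ℝ := fun i j => kap b (θ i - θ j) with hK
    -- `sin (2b) B y y ≤ (∑ y_i cos (b - s_i))²`
    have hneg : ∀ y : ι → ℝ, sin (2 * b) * B K y y ≤ (∑ i, y i * cos (b - s i)) ^ 2 := by
      intro y
      have h1 := psd_green (c := 2 * b) (by linarith) (by linarith) y s hs0
      have e1 : sin (2 * b) * B K y y = (∑ i, y i * cos (b - s i)) ^ 2 -
          ∑ i, ∑ j, y i * y j * (sin (min (s i) (s j)) * sin (2 * b - max (s i) (s j))) := by
        rw [sq, Finset.sum_mul_sum]
        simp only [B, Finset.mul_sum, ← Finset.sum_sub_distrib]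
        refine Finset.sum_congr rfl fun i _ => Finset.sum_congr rfl fun j _ => ?_
        have h2 := kap_eq (s := s i) (t := s j) hb (by linarith) ⟨(hs0 i).1, (hs0 i).2.le⟩
          ⟨(hs0 j).1, (hs0 j).2.le⟩
        simp only [hK, hk i j]
        calc sin (2 * b) * (y i * y j * kap b (s i - s j)) =
              y i * y j * (sin (2 * b) * kap b (s i - s j)) := by ring
          _ = _ := by rw [h2]; ring
      linarith
    set a := ∑ i, l i * cos (b - s i) with ha
    set c := ∑ i, z i * cos (b - s i) with hc
    have hsym : ∀ i j, K i j = K j i := by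
      intro i j
      simp only [hK]
      rw [← kap_neg hb]
      congr 1
      ring
    have h1 := hneg l
    have ha2 : 0 < a ^ 2 := lt_of_lt_of_le (mul_pos hs2b hBB) h1
    have h2 := hneg (fun i => c * l i + -a * z i)
    have e2 : ∑ i, (c * l i + -a * z i) * cos (b - s i) = 0 := by
      have : ∑ i, (c * l i + -a * z i) * cos (b - s i) = c * a + -a * c := by
        rw [ha, hc, Finset.mul_sum, Finset.mul_sum, ← Finset.sum_add_distrib]
        refine Finset.sum_congr rfl fun i _ => ?_
        ring
      rw [this]; ring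
    rw [e2] at h2
    have e3 : B K (fun i => c * l i + -a * z i) (fun i => c * l i + -a * z i) =
        c ^ 2 * B K l l - 2 * a * c * B K l z + a ^ 2 * B K z z := by
      rw [B_add_left (x := fun i => c * l i) (x' := fun i => -a * z i),
        B_add_right (y := fun i => c * l i) (y' := fun i => -a * z i),
        B_add_right (y := fun i => c * l i) (y' := fun i => -a * z i),
        B_smul_left, B_smul_left, B_smul_right, B_smul_left, B_smul_left, B_smul_right,
        B_smul_right, B_smul_right, B_symm hsym z l]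
      ring
    rw [e3] at h2
    have h3 : c ^ 2 * B K l l - 2 * a * c * B K l z + a ^ 2 * B K z z ≤ 0 := by
      by_contra hcon
      push Not at hcon
      have := mul_pos hs2b hcon
      linarith
    have h4 : a ^ 2 * (B K l l * B K z z) ≤ a ^ 2 * B K l z ^ 2 := by
      nlinarith [mul_le_mul_of_nonneg_left h3 hBB.le, sq_nonneg (c * B K l l - a * B K l z)]
    exact le_of_mul_le_mul_left h4 ha2

end Vale.Agent.P227.C2
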