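import Vale.Agent.P227.C2.Defs
import Vale.Agent.P227.C2.KKer

/-!
# P227 / C2 : the planar second order inequality (helper930; proof helper275)
-/

open Finset Real MeasureTheory

namespace Vale.Agent.P227.C2


theorem ck_intCast {b : ℝ} {r : ℕ} [NeZero r] (hb : 0 < b) (hb' : b < π) (n : ℤ) :
    ck b r (n : ZMod (2 * r)) = 2 * sin b * kap b (b / r * n) := by
  have hr : (0 : ℝ) < r := by exact_mod_cast Nat.pos_of_ne_zero (NeZero.ne r)
  have hr' : (0 : ℤ) < 2 * r := by
    have : 0 < r := Nat.pos_of_ne_zero (NeZero.ne r)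
    omega
  have hsb : 0 < sin b := sin_pos_of_pos_of_lt_pi hb hb'
  have h1 : (((n : ZMod (2 * r)).val : ℤ)) = n % ((2 * r : ℕ) : ℤ) := ZMod.val_intCast n
  have h1' : (((n : ZMod (2 * r)).val : ℝ)) = ((n % (2 * r) : ℤ) : ℝ) := by
    have : (((n : ZMod (2 * r)).val : ℤ) : ℝ) = ((n % ((2 * r : ℕ) : ℤ) : ℤ) : ℝ) := by rw [h1]
    rw [← Int.cast_natCast, this]
    push_cast
    rfl
  have h2 : (n : ℝ) = ((n % (2 * r) : ℤ) : ℝ) + 2 * r * ((n / (2 * r) : ℤ) : ℝ) := by
    have := Int.emod_add_mul_ediv n (2 * r)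
    have h3 : ((n % (2 * r) + 2 * r * (n / (2 * r)) : ℤ) : ℝ) = (n : ℝ) := by rw [this]
    rw [← h3]
    push_cast
    ring
  have h3 : b / r * n = b / r * ((n % (2 * r) : ℤ) : ℝ) + 2 * b * ((n / (2 * r) : ℤ) : ℝ) := by
    rw [h2]
    field_simp
  have h4 : 0 ≤ ((n % (2 * r) : ℤ) : ℝ) := by
    exact_mod_cast Int.emod_nonneg n hr'.ne'
  have h5 : ((n % (2 * r) : ℤ) : ℝ) ≤ 2 * r := by
    have := (Int.emod_lt_of_pos n hr').le
    exact_mod_cast this
  rw [h3, kap_add_int hb, kap_of_mem hb (by positivity) (by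
    rw [div_mul_eq_mul_div, div_le_iff₀ hr]
    nlinarith)]
  unfold ck
  rw [h1', mul_div_cancel₀ _ (by positivity)]

theorem kHyp_ck {b : ℝ} {r : ℕ} [NeZero r] (hb0 : 0 < b) (hb3 : b ≤ π / 3) :
    KHyp (fun i j : ZMod (2 * r) => ck b r (i - j))
      (fun i j : ZMod (2 * r) => ck b r (i - j + r)) 1 (cos b) := by
  have hr : (0 : ℝ) < r := by exact_mod_cast Nat.pos_of_ne_zero (NeZero.ne r)
  have h := (kHyp_kap hb0 hb3 (fun i : ZMod (2 * r) => b / r * (i.val : ℝ))).scale
  have hpi : b < π := by linarith [pi_pos]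
  have e1 : ∀ i j : ZMod (2 * r), ck b r (i - j) =
      2 * sin b * kap b (b / r * (i.val : ℝ) - b / r * (j.val : ℝ)) := by
    intro i j
    have : i - j = (((i.val : ℤ) - (j.val : ℤ) : ℤ) : ZMod (2 * r)) := by
      push_cast
      rw [ZMod.natCast_zmod_val, ZMod.natCast_zmod_val]
    rw [this, ck_intCast hb0 hpi]
    congr 2
    push_cast
    ring
  have e2 : ∀ i j : ZMod (2 * r), ck b r (i - j + r) =
      2 * sin b * kap b (b / r * (i.val : ℝ) - b / r * (j.val : ℝ) + b) := by
    intro i j
    have : i - j + r = (((i.val : ℤ) - (j.val : ℤ) + (r : ℤ) : ℤ) : ZMod (2 * r)) := by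
      push_cast
      rw [ZMod.natCast_zmod_val, ZMod.natCast_zmod_val]
    rw [this, ck_intCast hb0 hpi]
    congr 2
    push_cast
    field_simp
  convert h using 1
  · funext i j
    exact e1 i j
  · funext i j
    exact e2 i j

/-- the Green identity -/
theorem cv_el {b : ℝ} {r : ℕ} [NeZero r] (hb0 : 0 < b) (hb' : b < π) (q : ZMod (2 * r) → ℝ)
    (i : ZMod (2 * r)) : cv b r (el b r q) i = 2 * sin b * sin (b / r) * q i := by
  classical
  have hr0 : 0 < r := Nat.pos_of_ne_zero (NeZero.ne r)
  have hr : (0 : ℝ) < r := by exact_mod_cast hr0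
  have hsb : 0 < sin b := sin_pos_of_pos_of_lt_pi hb0 hb'
  have hk : ∀ k : ZMod (2 * r), ck b r (k + 1) + ck b r (k - 1) - 2 * cos (b / r) * ck b r k =
      if k = 0 then 2 * sin b * sin (b / r) else 0 := by
    intro k
    have hkv : k = ((k.val : ℤ) : ZMod (2 * r)) := by
      push_cast
      rw [ZMod.natCast_zmod_val]
    have hlt : k.val < 2 * r := ZMod.val_lt k
    have hle : ((k.val : ℝ)) + 1 ≤ 2 * r := by exact_mod_cast hlt
    have hv0 : (0 : ℝ) ≤ k.val := Nat.cast_nonneg _
    have a1 : ck b r (k + 1) = cos (b - b / r * (k.val + 1)) := by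
      have : k + 1 = (((k.val : ℤ) + 1 : ℤ) : ZMod (2 * r)) := by
        conv_lhs => rw [hkv]
        push_cast
        rfl
      rw [this, ck_intCast hb0 hb', kap_of_mem hb0, mul_div_cancel₀ _ (by positivity)]
      · push_cast; rfl
      · push_cast; positivity
      · push_cast
        rw [div_mul_eq_mul_div, div_le_iff₀ hr]
        nlinarith
    have a0 : ck b r k = cos (b - b / r * k.val) := rfl
    by_cases hk0 : k = 0
    · rw [if_pos hk0]
      have hval : k.val = 0 := by rw [hk0]; exact ZMod.val_zero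
      have a2 : ck b r (k - 1) = cos (b - b / r) := by
        have : k - 1 = ((-1 : ℤ) : ZMod (2 * r)) := by
          rw [hk0]
          push_cast
          ring
        rw [this, ck_intCast hb0 hb']
        have : b / r * ((-1 : ℤ) : ℝ) = -(b / r) := by push_cast; ring
        rw [this, kap_neg hb0, kap_of_mem hb0 (by positivity), mul_div_cancel₀ _ (by positivity)]
        rw [div_le_iff₀ hr]
        have : (1 : ℝ) ≤ r := by exact_mod_cast hr0
        nlinarith
      rw [a1, a2, a0, hval]
      simp only [Nat.cast_zero, mul_zero, sub_zero, zero_add, mul_one]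
      rw [cos_sub]
      ring
    · rw [if_neg hk0]
      have hval : 1 ≤ k.val := by
        rcases Nat.eq_zero_or_pos k.val with h | h
        · exact absurd ((ZMod.val_eq_zero k).1 h) hk0
        · exact h
      have hval' : (1 : ℝ) ≤ k.val := by exact_mod_cast hval
      have a2 : ck b r (k - 1) = cos (b - b / r * (k.val - 1)) := by
        have : k - 1 = (((k.val : ℤ) - 1 : ℤ) : ZMod (2 * r)) := by
          conv_lhs => rw [hkv]
          push_cast
          rfl
        rw [this, ck_intCast hb0 hb', kap_of_mem hb0, mul_div_cancel₀ _ (by positivity)]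
        · push_cast; rfl
        · push_cast
          apply mul_nonneg (by positivity)
          linarith
        · push_cast
          rw [div_mul_eq_mul_div, div_le_iff₀ hr]
          nlinarith
      rw [a1, a2, a0]
      have e1 : b - b / r * ((k.val : ℝ) + 1) = (b - b / r * k.val) - b / r := by ring
      have e2 : b - b / r * ((k.val : ℝ) - 1) = (b - b / r * k.val) + b / r := by ring
      rw [e1, e2, cos_sub (b - b / r * k.val), cos_add]
      ring
  have s1 : ∑ j, ck b r (i - j) * q (j + 1) = ∑ j, ck b r (i - j + 1) * q j := by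
    rw [← Equiv.sum_comp (Equiv.addRight (1 : ZMod (2 * r))) (fun j => ck b r (i - j + 1) * q j)]
    refine Finset.sum_congr rfl fun j _ => ?_
    simp only [Equiv.coe_addRight]
    congr 2
    ring
  have s2 : ∑ j, ck b r (i - j) * q (j - 1) = ∑ j, ck b r (i - j - 1) * q j := by
    rw [← Equiv.sum_comp (Equiv.subRight (1 : ZMod (2 * r))) (fun j => ck b r (i - j - 1) * q j)]
    refine Finset.sum_congr rfl fun j _ => ?_
    simp only [Equiv.subRight_apply]
    congr 2
    ring
  have s3 : cv b r (el b r q) i = ∑ j, ck b r (i - j) * q (j + 1) +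
      ∑ j, ck b r (i - j) * q (j - 1) - ∑ j, 2 * cos (b / r) * ck b r (i - j) * q j := by
    unfold cv el
    rw [← Finset.sum_add_distrib, ← Finset.sum_sub_distrib]
    refine Finset.sum_congr rfl fun j _ => ?_
    ring
  rw [s3, s1, s2, ← Finset.sum_add_distrib, ← Finset.sum_sub_distrib]
  have s4 : ∀ j, ck b r (i - j + 1) * q j + ck b r (i - j - 1) * q j -
      2 * cos (b / r) * ck b r (i - j) * q j =
      if j = i then 2 * sin b * sin (b / r) * q i else 0 := by
    intro j
    have := hk (i - j)
    have e : ck b r (i - j + 1) * q j + ck b r (i - j - 1) * q j -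
      2 * cos (b / r) * ck b r (i - j) * q j =
      (ck b r (i - j + 1) + ck b r (i - j - 1) - 2 * cos (b / r) * ck b r (i - j)) * q j := by
      ring
    rw [e, this]
    by_cases hij : j = i
    · subst hij
      simp
    · have : i - j ≠ 0 := fun h => hij (sub_eq_zero.1 h).symm
      rw [if_neg this, if_neg hij, zero_mul]
  rw [Finset.sum_congr rfl fun j _ => s4 j, Finset.sum_ite_eq' Finset.univ i]
  simp

/-- the second order inequality for rotation invariant polygons -/
theorem star {b : ℝ} {r : ℕ} [NeZero r] (hb0 : 0 < b) (hb3 : b ≤ π / 3)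
    (f q : ZMod (2 * r) → ℝ) (hf : ∀ j, 0 < f j) (hl : ∀ j, 0 ≤ el b r f j) :
    ∑ j, q j * el b r q j + ∑ j, el b r f j * (q j ^ 2 / ((f j + f (j + r)) / 2)) ≤
      2 * (∑ j, el b r f j * q j) ^ 2 / qa b r f := by
  have hr0 : 0 < r := Nat.pos_of_ne_zero (NeZero.ne r)
  have hr : (0 : ℝ) < r := by exact_mod_cast hr0
  have hr1 : (1 : ℝ) ≤ r := by exact_mod_cast hr0
  have hpi : b < π := by linarith [pi_pos]
  have hsb : 0 < sin b := sin_pos_of_pos_of_lt_pi hb0 hpi
  have hsr : 0 < sin (b / r) := by
    apply sin_pos_of_pos_of_lt_pi (by positivity)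
    have : b / r ≤ b := div_le_self hb0.le hr1
    linarith
  set S : ℝ := 2 * sin b * sin (b / r) with hS
  have hS0 : 0 < S := by positivity
  have hK := kHyp_ck (r := r) hb0 hb3
  set K : ZMod (2 * r) → ZMod (2 * r) → ℝ := fun i j => ck b r (i - j) with hKdef
  set K' : ZMod (2 * r) → ZMod (2 * r) → ℝ := fun i j => ck b r (i - j + r) with hKdef'
  have hcv : ∀ (x : ZMod (2 * r) → ℝ) i, ∑ j, x j * K i j = cv b r x i := by
    intro x i
    unfold cv
    refine Finset.sum_congr rfl fun j _ => ?_
    simp only [hKdef]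
    ring
  have hB : ∀ x y : ZMod (2 * r) → ℝ, B K x y = ∑ i, x i * cv b r y i := by
    intro x y
    rw [B_eq_sum_left]
    refine Finset.sum_congr rfl fun i _ => ?_
    rw [hcv]
  have hcvl : ∀ i, cv b r (el b r f) i = S * f i := fun i => cv_el hb0 hpi f i
  have hcvx : ∀ i, cv b r (el b r q) i = S * q i := fun i => cv_el hb0 hpi q i
  -- positivity of `B K l l`
  have hBll : B K (el b r f) (el b r f) = S * qa b r f := by
    rw [hB]
    unfold qa
    rw [Finset.mul_sum]
    refine Finset.sum_congr rfl fun i _ => ?_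
    rw [hcvl]
    ring
  have hqa : 0 < qa b r f := by
    unfold qa
    have hnn : ∀ j ∈ (Finset.univ : Finset (ZMod (2 * r))), 0 ≤ f j * el b r f j :=
      fun j _ => mul_nonneg (hf j).le (hl j)
    rcases (Finset.sum_nonneg hnn).eq_or_lt with h0 | h0
    · exfalso
      have hz : ∀ j, el b r f j = 0 := by
        intro j
        have := (Finset.sum_eq_zero_iff_of_nonneg hnn).1 h0.symm j (Finset.mem_univ j)
        rcases mul_eq_zero.1 this with h | h
        · exact absurd h (hf j).ne'
        · exact h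
      have h1 := hcvl 0
      have h2 : cv b r (el b r f) 0 = 0 := by
        unfold cv
        simp [hz]
      rw [h2] at h1
      have := mul_pos hS0 (hf 0)
      linarith
    · exact h0
  have hBB : 0 < B K (el b r f) (el b r f) := by
    rw [hBll]
    positivity
  have hw : ∀ i, ∑ k, el b r f k * (K i k + K' i k) = 2 * (S * ((f i + f (i + r)) / 2)) := by
    intro i
    have e1 : ∑ k, el b r f k * K' i k = S * f (i + r) := by
      rw [← hcvl (i + r), ← hcv]
      refine Finset.sum_congr rfl fun k _ => ?_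
      simp only [hKdef, hKdef']
      congr 2
      ring
    have e2 : ∑ k, el b r f k * K i k = S * f i := by rw [hcv, hcvl]
    simp only [mul_add, Finset.sum_add_distrib]
    rw [e1, e2]
    ring
  have key := P5core hK (el b r f) (el b r q) (fun i => S * ((f i + f (i + r)) / 2)) hl hBB
    (fun i => by have := hf i; have := hf (i + r); positivity) (fun i _ => (hw i).le)
  have e1 : B K (el b r q) (el b r q) = S * ∑ j, q j * el b r q j := by
    rw [hB, Finset.mul_sum]
    refine Finset.sum_congr rfl fun i _ => ?_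
    rw [hcvx]
    ring
  have e2 : ∑ i, el b r f i * (∑ j, el b r q j * K i j) ^ 2 / (S * ((f i + f (i + r)) / 2)) =
      S * ∑ j, el b r f j * (q j ^ 2 / ((f j + f (j + r)) / 2)) := by
    rw [Finset.mul_sum]
    refine Finset.sum_congr rfl fun i _ => ?_
    rw [hcv, hcvx]
    have h1 : 0 < (f i + f (i + r)) / 2 := by
      have := hf i; have := hf (i + r); positivity
    field_simp
  have e3 : B K (el b r f) (el b r q) = S * ∑ j, el b r f j * q j := by
    rw [hB, Finset.mul_sum]
    refine Finset.sum_congr rfl fun i _ => ?_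
    rw [hcvx]
    ring
  rw [e1, e2, e3, hBll, ← mul_add] at key
  have e4 : 2 * (S * ∑ j, el b r f j * q j) ^ 2 / (S * qa b r f) =
      S * (2 * (∑ j, el b r f j * q j) ^ 2 / qa b r f) := by
    field_simp
  rw [e4] at key
  exact le_of_mul_le_mul_left key hS0

end Vale.Agent.P227.C2
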