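import Vale.Agent.P227.C2.Ker

/-!
# P227 / C2 : concavity of the logarithm of the area along logarithmic families (planar part)
-/

open Finset Real MeasureTheory

namespace Vale.Agent.P227.C2

/-- a function with these upper bounds lies above its chord -/
theorem chord {a p : ℝ → ℝ} {C : ℝ}
    (hp : ∀ t ∈ Set.Icc (0 : ℝ) 1, |p t| ≤ C)
    (h : ∀ s ∈ Set.Icc (0 : ℝ) 1, ∀ t ∈ Set.Icc (0 : ℝ) 1,
      a s ≤ a t + p t * (s - t) + C * |s - t| ^ 3) {t : ℝ} (ht0 : 0 ≤ t) (ht1 : t ≤ 1) :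
    (1 - t) * a 0 + t * a 1 ≤ a t := by
  have hC : 0 ≤ C := (abs_nonneg _).trans (hp 0 (by simp))
  have hlip : ∀ s ∈ Set.Icc (0 : ℝ) 1, ∀ t ∈ Set.Icc (0 : ℝ) 1, a s - a t ≤ 2 * C * |s - t| := by
    intro s hs t ht
    have h1 := h s hs t ht
    have h2 : |s - t| ≤ 1 := by
      rw [abs_le]
      constructor <;> linarith [hs.1, hs.2, ht.1, ht.2]
    have h3 : p t * (s - t) ≤ C * |s - t| := by
      calc p t * (s - t) ≤ |p t * (s - t)| := le_abs_self _
        _ = |p t| * |s - t| := abs_mul _ _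
        _ ≤ C * |s - t| := mul_le_mul_of_nonneg_right (hp t ht) (abs_nonneg _)
    have h4 : |s - t| ^ 3 ≤ |s - t| := by
      have := pow_le_of_le_one (abs_nonneg (s - t)) h2 (n := 3) (by norm_num)
      exact this
    have h5 := mul_le_mul_of_nonneg_left h4 hC
    linarith
  have hcont : ContinuousOn a (Set.Icc 0 1) := by
    have : LipschitzOnWith (Real.toNNReal (2 * C)) a (Set.Icc 0 1) := by
      apply LipschitzOnWith.of_dist_le_mul
      intro s hs t ht
      rw [Real.coe_toNNReal _ (by positivity), Real.dist_eq, Real.dist_eq, abs_le]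
      have h1 := hlip s hs t ht
      have h2 := hlip t ht s hs
      rw [abs_sub_comm t s] at h2
      constructor <;> linarith
    exact this.continuousOn
  by_contra hneg
  push Not at hneg
  set η : ℝ := (1 - t) * a 0 + t * a 1 - a t with hη
  have hη0 : 0 < η := by linarith
  set c : ℝ → ℝ := fun s => a s - ((1 - s) * a 0 + s * a 1) + η * (s * (1 - s)) with hc
  have hcc : ContinuousOn c (Set.Icc 0 1) := by
    apply ContinuousOn.add
    · exact hcont.sub (by fun_prop)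
    · fun_prop
  obtain ⟨s, hs, hmin⟩ := isCompact_Icc.exists_isMinOn (Set.nonempty_Icc.2 zero_le_one) hcc
  have hct : c t < 0 := by
    have h1 : t * (1 - t) ≤ 1 / 4 := by nlinarith [sq_nonneg (t - 1 / 2)]
    have h2 : η * (t * (1 - t)) ≤ η * (1 / 4) := mul_le_mul_of_nonneg_left h1 hη0.le
    simp only [hc]
    linarith
  have hcs : c s < 0 := lt_of_le_of_lt (hmin (⟨ht0, ht1⟩ : t ∈ Set.Icc (0 : ℝ) 1)) hct
  have hs0 : 0 < s := by
    rcases hs.1.eq_or_lt with h0 | h0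
    · exfalso
      rw [← h0] at hcs
      simp [hc] at hcs
    · exact h0
  have hs1 : s < 1 := by
    rcases hs.2.eq_or_lt with h0 | h0
    · exfalso
      rw [h0] at hcs
      simp [hc] at hcs
    · exact h0
  set d : ℝ := min (min s (1 - s)) (η / (2 * (C + 1))) with hd
  have hd0 : 0 < d := by
    apply lt_min (lt_min hs0 (by linarith))
    positivity
  have hd1 : d ≤ s := (min_le_left _ _).trans (min_le_left _ _)
  have hd2 : d ≤ 1 - s := (min_le_left _ _).trans (min_le_right _ _)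
  have hd3 : d ≤ η / (2 * (C + 1)) := min_le_right _ _
  have m1 : s + d ∈ Set.Icc (0 : ℝ) 1 := ⟨by linarith, by linarith⟩
  have m2 : s - d ∈ Set.Icc (0 : ℝ) 1 := ⟨by linarith, by linarith⟩
  have k1 := hmin m1
  have k2 := hmin m2
  have j1 := h _ m1 s hs
  have j2 := h _ m2 s hs
  simp only [Set.mem_ofPred_eq, hc] at k1 k2
  rw [show s + d - s = d by ring, abs_of_pos hd0] at j1
  rw [show s - d - s = -d by ring, abs_neg, abs_of_pos hd0] at j2
  have e1 : η * d ^ 2 ≤ C * d ^ 3 := by nlinarith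
  have e2 : η ≤ C * d := by
    have : η * d ^ 2 ≤ (C * d) * d ^ 2 := by linarith [show C * d ^ 3 = C * d * d ^ 2 by ring]
    exact le_of_mul_le_mul_right this (by positivity)
  have e3 : C * d ≤ η / 2 := by
    calc C * d ≤ (C + 1) * d := by nlinarith
      _ ≤ (C + 1) * (η / (2 * (C + 1))) := mul_le_mul_of_nonneg_left hd3 (by linarith)
      _ = η / 2 := by field_simp
  linarith

/-- existence of the support numbers -/
theorem exists_supp {b : ℝ} {r : ℕ} [NeZero r] (hb0 : 0 < b) (hb3 : b ≤ π / 3)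
    (c : ZMod (2 * r) → ℝ) (hc : ∀ j, 0 < c j) : ∃ f, IsSupp b r c f ∧ ∀ j, 0 < f j := by
  have hr : (1 : ℝ) ≤ r := by exact_mod_cast NeZero.one_le
  have hd0 : 0 < b / r := by positivity
  have hd3 : b / r ≤ π / 3 := (div_le_self hb0.le hr).trans hb3
  have hcos : 0 < cos (b / r) := cos_pos_of_mem_Ioo ⟨by linarith, by linarith [pi_pos]⟩
  have hcos1 : cos (b / r) ≤ 1 := cos_le_one _
  set S : ZMod (2 * r) → Set ℝ := fun j =>
    {x | ∃ g : ZMod (2 * r) → ℝ, (∀ i, g i ≤ c i) ∧ (∀ i, 0 ≤ el b r g i) ∧ g j = x} with hS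
  have hbdd : ∀ j, BddAbove (S j) := by
    intro j
    refine ⟨c j, ?_⟩
    rintro x ⟨g, hg, _, rfl⟩
    exact hg j
  obtain ⟨κ, hκ0, hκ⟩ : ∃ κ : ℝ, 0 < κ ∧ ∀ j, κ ≤ c j := by
    obtain ⟨i, _, hi⟩ := exists_min_image univ c univ_nonempty
    exact ⟨c i, hc i, fun j => hi j (mem_univ j)⟩
  have hκel : ∀ i, 0 ≤ el b r (fun _ => κ) i := by
    intro i
    unfold el
    nlinarith
  have hκS : ∀ j, κ ∈ S j := fun j => ⟨fun _ => κ, hκ, hκel, rfl⟩
  refine ⟨fun j => sSup (S j), ⟨?_, ?_, ?_⟩, ?_⟩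
  · intro j
    apply csSup_le ⟨κ, hκS j⟩
    rintro x ⟨g, hg, _, rfl⟩
    exact hg j
  · intro j
    have h1 : sSup (S j) ≤ (sSup (S (j + 1)) + sSup (S (j - 1))) / (2 * cos (b / r)) := by
      apply csSup_le ⟨κ, hκS j⟩
      rintro x ⟨g, hg, hg', rfl⟩
      rw [le_div_iff₀ (by positivity)]
      have h2 := hg' j
      unfold el at h2
      have h3 : g (j + 1) ≤ sSup (S (j + 1)) := le_csSup (hbdd _) ⟨g, hg, hg', rfl⟩
      have h4 : g (j - 1) ≤ sSup (S (j - 1)) := le_csSup (hbdd _) ⟨g, hg, hg', rfl⟩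
      linarith
    rw [le_div_iff₀ (by positivity)] at h1
    unfold el
    linarith
  · intro g hg hg' j
    exact le_csSup (hbdd _) ⟨g, hg, hg', rfl⟩
  · intro j
    exact hκ0.trans_le (le_csSup (hbdd _) (hκS j))

/-- complementarity -/
theorem IsSupp.compl {b : ℝ} {r : ℕ} [NeZero r] {c f : ZMod (2 * r) → ℝ} (h : IsSupp b r c f)
    {j : ZMod (2 * r)} (hj : 0 < el b r f j) : f j = c j := by
  by_contra hne
  have hlt : f j < c j := lt_of_le_of_ne (h.le j) hne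
  set η : ℝ := min (c j - f j) (el b r f j / 2) with hη
  have hη0 : 0 < η := lt_min (by linarith) (by linarith)
  have h1 : η ≤ c j - f j := min_le_left _ _
  have h2 : η ≤ el b r f j / 2 := min_le_right _ _
  set g : ZMod (2 * r) → ℝ := fun i => f i + (if i = j then η else 0) with hg
  have hgc : ∀ i, g i ≤ c i := by
    intro i
    by_cases hi : i = j
    · subst hi
      simp only [hg, if_true]
      linarith
    · simp only [hg, hi, if_false, add_zero]
      exact h.le i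
  have hnn : ∀ i : ZMod (2 * r), (0 : ℝ) ≤ if i = j then η else 0 := by
    intro i
    split_ifs
    · exact hη0.le
    · exact le_rfl
  have hgel : ∀ i, 0 ≤ el b r g i := by
    intro i
    have hcos1 : cos (b / r) ≤ 1 := cos_le_one _
    have a1 := hnn (i + 1)
    have a2 := hnn (i - 1)
    have a3 := h.adm i
    unfold el at a3 ⊢
    simp only [hg]
    by_cases hi : i = j
    · subst hi
      unfold el at h2
      simp only [if_true]
      nlinarith
    · simp only [hi, if_false, add_zero]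
      linarith
  have := h.max g hgc hgel j
  simp only [hg, if_true] at this
  linarith

/-- constants below `c` are below `f` -/
theorem IsSupp.const_le {b : ℝ} {r : ℕ} [NeZero r] {c f : ZMod (2 * r) → ℝ} (h : IsSupp b r c f)
    {κ : ℝ} (hκ0 : 0 ≤ κ) (hκ : ∀ j, κ ≤ c j) (j : ZMod (2 * r)) : κ ≤ f j := by
  refine h.max (fun _ => κ) hκ (fun i => ?_) j
  have hcos1 : cos (b / r) ≤ 1 := cos_le_one _
  unfold el
  nlinarith

theorem IsSupp.unique {b : ℝ} {r : ℕ} {c f g : ZMod (2 * r) → ℝ} (h : IsSupp b r c f)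
    (h' : IsSupp b r c g) : f = g :=
  funext fun j => le_antisymm (h'.max f h.le h.adm j) (h.max g h'.le h'.adm j)

theorem el_symm {b : ℝ} {r : ℕ} [NeZero r] (f g : ZMod (2 * r) → ℝ) :
    ∑ j, f j * el b r g j = ∑ j, el b r f j * g j := by
  have h1 : ∑ j, f j * g (j + 1) = ∑ j, f (j - 1) * g j := by
    rw [← Equiv.sum_comp (Equiv.addRight (1 : ZMod (2 * r))) fun j => f (j - 1) * g j]
    simp
  have h2 : ∑ j, f j * g (j - 1) = ∑ j, f (j + 1) * g j := by
    rw [← Equiv.sum_comp (Equiv.subRight (1 : ZMod (2 * r))) fun j => f (j + 1) * g j]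
    simp
  have e1 : ∑ j, f j * el b r g j = ∑ j, f j * g (j + 1) + ∑ j, f j * g (j - 1) -
      2 * cos (b / r) * ∑ j, f j * g j := by
    rw [mul_sum, ← sum_add_distrib, ← sum_sub_distrib]
    refine sum_congr rfl fun j _ => ?_
    unfold el
    ring
  have e2 : ∑ j, el b r f j * g j = ∑ j, f (j + 1) * g j + ∑ j, f (j - 1) * g j -
      2 * cos (b / r) * ∑ j, f j * g j := by
    rw [mul_sum, ← sum_add_distrib, ← sum_sub_distrib]
    refine sum_congr rfl fun j _ => ?_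
    unfold el
    ring
  rw [e1, e2, h1, h2]
  ring

theorem qa_add {b : ℝ} {r : ℕ} [NeZero r] (f q : ZMod (2 * r) → ℝ) :
    qa b r (fun j => f j + q j) =
      qa b r f + 2 * ∑ j, el b r f j * q j + ∑ j, q j * el b r q j := by
  have h1 : ∀ j, el b r (fun j => f j + q j) j = el b r f j + el b r q j := by
    intro j
    unfold el
    ring
  unfold qa
  simp only [h1]
  have h2 := el_symm (b := b) f q
  have h3 : ∑ j, (f j + q j) * (el b r f j + el b r q j) = ∑ j, f j * el b r f j +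
      ∑ j, f j * el b r q j + ∑ j, el b r f j * q j + ∑ j, q j * el b r q j := by
    rw [← sum_add_distrib, ← sum_add_distrib, ← sum_add_distrib]
    refine sum_congr rfl fun j _ => ?_
    ring
  rw [h3, h2]
  ring

/-- sum of the edge lengths -/
theorem sum_el {b : ℝ} {r : ℕ} [NeZero r] (f : ZMod (2 * r) → ℝ) :
    ∑ j, el b r f j = (2 - 2 * cos (b / r)) * ∑ j, f j := by
  have := el_symm (b := b) (fun _ => (1 : ℝ)) f
  simp only [one_mul] at this
  rw [this, mul_sum]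
  refine sum_congr rfl fun j _ => ?_
  unfold el
  ring

theorem log_step {A A' z y E : ℝ} (hA : 0 < A) (hA' : 0 < A') (h : A' ≤ A * (1 + z + z ^ 2 / 2 - y))
    (hy0 : 0 ≤ y) (hz : |z| ≤ E) (hy : y ≤ E ^ 2) (hE : E ≤ 1 / 4) :
    log A' ≤ log A + (z - y) + 6 * E ^ 3 := by
  have hE0 : 0 ≤ E := (abs_nonneg z).trans hz
  have hz' := abs_le.1 hz
  have hE2 : E ^ 2 ≤ E / 4 := by nlinarith
  have hw : |z - y| ≤ 2 * E := by
    rw [abs_le]
    constructor <;> linarith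
  have hw1 : |z - y| ≤ 1 := by linarith
  have h1 := Real.exp_bound hw1 (n := 3) (by norm_num)
  have h2 := (abs_le.1 h1).1
  have h3 : |z - y| ^ 3 ≤ 8 * E ^ 3 := by
    calc |z - y| ^ 3 ≤ (2 * E) ^ 3 := pow_le_pow_left₀ (abs_nonneg _) hw 3
      _ = 8 * E ^ 3 := by ring
  norm_num [Finset.sum_range_succ, Nat.factorial] at h2
  have hE3 : 0 ≤ E ^ 3 := by positivity
  have h4 : z * y ≤ E ^ 3 := by
    calc z * y ≤ E * y := mul_le_mul_of_nonneg_right hz'.2 hy0
      _ ≤ E * E ^ 2 := mul_le_mul_of_nonneg_left hy hE0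
      _ = E ^ 3 := by ring
  have h5 : 1 + z + z ^ 2 / 2 - y ≤ exp (z - y) + 3 * E ^ 3 := by nlinarith [sq_nonneg y]
  have h6 : 1 / 2 ≤ exp (z - y) := by
    have := Real.add_one_le_exp (z - y)
    have := (abs_le.1 hw).1
    linarith
  have h7 : exp (z - y) + 3 * E ^ 3 ≤ exp (z - y + 6 * E ^ 3) := by
    rw [exp_add]
    have h8 := Real.add_one_le_exp (6 * E ^ 3)
    nlinarith
  have h9 : A' ≤ A * exp (z - y + 6 * E ^ 3) :=
    h.trans (mul_le_mul_of_nonneg_left (h5.trans h7) hA.le)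
  have h10 := Real.log_le_log hA' h9
  rw [Real.log_mul hA.ne' (exp_pos _).ne', Real.log_exp] at h10
  linarith

theorem scalar_step {x : ℝ} (hx : |x| ≤ 1) :
    (exp x - 1) - (exp x - 1) ^ 2 / 2 ≤ x + 2 * |x| ^ 3 := by
  have h1 := Real.exp_bound hx (n := 3) (by norm_num)
  have h2 := (abs_le.1 h1).2
  norm_num [Finset.sum_range_succ, Nat.factorial] at h2
  have h3 := Real.abs_exp_sub_one_sub_id_le hx
  have h0 : 0 ≤ |x| ^ 3 := by positivity
  have h4 : x ^ 2 - 2 * |x| ^ 3 ≤ (exp x - 1) ^ 2 := by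
    set ρ := exp x - 1 - x with hρ
    have e1 : exp x - 1 = x + ρ := by rw [hρ]; ring
    rw [e1]
    have e2 : |x * ρ| ≤ |x| ^ 3 := by
      rw [abs_mul]
      calc |x| * |ρ| ≤ |x| * x ^ 2 := mul_le_mul_of_nonneg_left h3 (abs_nonneg _)
        _ = |x| ^ 3 := by rw [← sq_abs x]; ring
    have e3 := (abs_le.1 e2).1
    nlinarith [sq_nonneg ρ]
  linarith

theorem mono_step {q qb fe G : ℝ} (h1 : q ≤ qb) (h2 : qb ≤ fe) (h3 : 0 < fe) (h4 : fe ≤ G) :
    q - q ^ 2 / fe / 2 ≤ qb - qb ^ 2 / (2 * G) := by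
  have hG : 0 < G := h3.trans_le h4
  have e1 : q - q ^ 2 / fe / 2 ≤ qb - qb ^ 2 / fe / 2 := by
    have : (qb - qb ^ 2 / fe / 2) - (q - q ^ 2 / fe / 2) = (qb - q) * (2 * fe - qb - q) / (2 * fe) := by
      field_simp
      ring
    have h5 : 0 ≤ (qb - q) * (2 * fe - qb - q) / (2 * fe) := by
      apply div_nonneg
      · apply mul_nonneg <;> linarith
      · positivity
    linarith
  have e2 : qb ^ 2 / (2 * G) ≤ qb ^ 2 / fe / 2 := by
    rw [div_div, mul_comm fe 2]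
    apply div_le_div_of_nonneg_left (sq_nonneg _) (by positivity)
    linarith
  linarith

/-- the logarithmic family -/
noncomputable def gt {r : ℕ} (G0 G1 : ZMod (2 * r) → ℝ → ℝ) (t : ℝ) (j : ZMod (2 * r)) (v : ℝ) : ℝ :=
  exp ((1 - t) * log (G0 j v) + t * log (G1 j v))

theorem gt_pos {r : ℕ} (G0 G1 : ZMod (2 * r) → ℝ → ℝ) (t : ℝ) (j : ZMod (2 * r)) (v : ℝ) :
    0 < gt G0 G1 t j v := exp_pos _

theorem gt_eq {r : ℕ} {G0 G1 : ZMod (2 * r) → ℝ → ℝ} {j : ZMod (2 * r)} {v : ℝ}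
    (h0 : 0 < G0 j v) (h1 : 0 < G1 j v) (t : ℝ) :
    gt G0 G1 t j v = G0 j v ^ (1 - t) * G1 j v ^ t := by
  rw [gt, exp_add, rpow_def_of_pos h0, rpow_def_of_pos h1, mul_comm (1 - t), mul_comm t]

theorem gt_shift {r : ℕ} (G0 G1 : ZMod (2 * r) → ℝ → ℝ) (s t : ℝ) (j : ZMod (2 * r)) (v : ℝ) :
    gt G0 G1 s j v = gt G0 G1 t j v * exp ((s - t) * (log (G1 j v) - log (G0 j v))) := by
  rw [gt, gt, ← exp_add]
  congr 1
  ring

/-- everything known about the family -/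
structure Fam {r : ℕ} [NeZero r] (b : ℝ) (V : Finset ℝ) (G0 G1 : ZMod (2 * r) → ℝ → ℝ)
    (κ R Λ : ℝ) : Prop where
  hb0 : 0 < b
  hb3 : b ≤ π / 3
  hVs : ∀ v ∈ V, -v ∈ V
  even : ∀ t j, ∀ v ∈ V, gt G0 G1 t (j + r) (-v) = gt G0 G1 t j v
  κ0 : 0 < κ
  low : ∀ t ∈ Set.Icc (0 : ℝ) 1, ∀ j, ∀ v ∈ V, κ ≤ gt G0 G1 t j v - v
  up : ∀ t ∈ Set.Icc (0 : ℝ) 1, ∀ j, ∀ v ∈ V, gt G0 G1 t j v ≤ R
  lam : ∀ j, ∀ v ∈ V, |log (G1 j v) - log (G0 j v)| ≤ Λ

section fam

variable {r : ℕ} [NeZero r] {b : ℝ} {V : Finset ℝ} {hV : V.Nonempty}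
  {G0 G1 : ZMod (2 * r) → ℝ → ℝ} {κ R Λ : ℝ}

omit [NeZero r] in
theorem cm_le (G : ZMod (2 * r) → ℝ → ℝ) (j : ZMod (2 * r)) {v : ℝ} (hv : v ∈ V) :
    cm V hV G j ≤ G j v - v :=
  inf'_le (fun v => G j v - v) hv

omit [NeZero r] in
theorem cm_attained (G : ZMod (2 * r) → ℝ → ℝ) (j : ZMod (2 * r)) :
    ∃ v ∈ V, cm V hV G j = G j v - v :=
  exists_mem_eq_inf' hV fun v => G j v - v

theorem Fam.R0 (F : Fam b V G0 G1 κ R Λ) (hV : V.Nonempty) : 0 < R := by
  obtain ⟨v, hv⟩ := hV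
  exact (gt_pos G0 G1 0 0 v).trans_le (F.up 0 (by simp) 0 v hv)

theorem Fam.L0 (F : Fam b V G0 G1 κ R Λ) (hV : V.Nonempty) : 0 ≤ Λ := by
  obtain ⟨v, hv⟩ := hV
  exact (abs_nonneg _).trans (F.lam 0 v hv)

theorem Fam.cm_low (F : Fam b V G0 G1 κ R Λ) {t : ℝ} (ht : t ∈ Set.Icc (0 : ℝ) 1)
    (j : ZMod (2 * r)) : κ ≤ cm V hV (gt G0 G1 t) j := by
  obtain ⟨v, hv, h⟩ := cm_attained (hV := hV) (gt G0 G1 t) j
  rw [h]
  exact F.low t ht j v hv

theorem Fam.cm_up (F : Fam b V G0 G1 κ R Λ) {t : ℝ} (ht : t ∈ Set.Icc (0 : ℝ) 1)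
    (j : ZMod (2 * r)) : cm V hV (gt G0 G1 t) j ≤ R := by
  obtain ⟨v, hv, hv0⟩ : ∃ v ∈ V, 0 ≤ v := by
    obtain ⟨v, hv⟩ := hV
    rcases le_total 0 v with h | h
    · exact ⟨v, hv, h⟩
    · exact ⟨-v, F.hVs v hv, by linarith⟩
  have h1 := cm_le (hV := hV) (gt G0 G1 t) j hv
  have h2 := F.up t ht j v hv
  linarith

theorem Fam.f_low (F : Fam b V G0 G1 κ R Λ) {t : ℝ} (ht : t ∈ Set.Icc (0 : ℝ) 1)
    {f : ZMod (2 * r) → ℝ} (h : IsSupp b r (cm V hV (gt G0 G1 t)) f) (j : ZMod (2 * r)) :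
    κ ≤ f j :=
  h.const_le F.κ0.le (fun j => F.cm_low ht j) j

theorem Fam.f_up (F : Fam b V G0 G1 κ R Λ) {t : ℝ} (ht : t ∈ Set.Icc (0 : ℝ) 1)
    {f : ZMod (2 * r) → ℝ} (h : IsSupp b r (cm V hV (gt G0 G1 t)) f) (j : ZMod (2 * r)) :
    f j ≤ R :=
  (h.le j).trans (F.cm_up ht j)

theorem Fam.scale (F : Fam b V G0 G1 κ R Λ) {s t : ℝ} (hs : s ∈ Set.Icc (0 : ℝ) 1)
    (ht : t ∈ Set.Icc (0 : ℝ) 1) {fs ft : ZMod (2 * r) → ℝ}
    (Ss : IsSupp b r (cm V hV (gt G0 G1 s)) fs) (St : IsSupp b r (cm V hV (gt G0 G1 t)) ft)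
    (j : ZMod (2 * r)) : (1 - Λ * R / κ * |s - t|) * ft j ≤ fs j := by
  have hκ := F.κ0
  have hR := F.R0 hV
  have hL := F.L0 hV
  set u : ℝ := 1 - Λ * R / κ * |s - t| with hu
  rcases le_total u 0 with h0 | h0
  · have h1 := F.f_low ht St j
    have h2 := F.f_low hs Ss j
    nlinarith
  · refine Ss.max (fun i => u * ft i) (fun i => ?_) (fun i => ?_) j
    · have h1 : u * ft i ≤ u * cm V hV (gt G0 G1 t) i := mul_le_mul_of_nonneg_left (St.le i) h0
      obtain ⟨v, hv, h⟩ := cm_attained (hV := hV) (gt G0 G1 s) i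
      rw [h, gt_shift G0 G1 s t]
      have h2 := cm_le (hV := hV) (gt G0 G1 t) i hv
      have h3 := F.cm_low (hV := hV) ht i
      have h4 := F.up t ht i v hv
      have h5 := gt_pos G0 G1 t i v
      set g := gt G0 G1 t i v with hg
      set x := (s - t) * (log (G1 i v) - log (G0 i v)) with hx
      have h6 : -(Λ * |s - t|) ≤ x := by
        have h7 : |x| ≤ Λ * |s - t| := by
          rw [hx, abs_mul, mul_comm]
          exact mul_le_mul_of_nonneg_right (F.lam i v hv) (abs_nonneg _)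
        exact (abs_le.1 h7).1
      have h8 := Real.add_one_le_exp x
      have h9 : g * (1 - Λ * |s - t|) ≤ g * exp x :=
        mul_le_mul_of_nonneg_left (by linarith) h5.le
      have h10 : g * (Λ * |s - t|) ≤ R * (Λ * |s - t|) :=
        mul_le_mul_of_nonneg_right h4 (by positivity)
      have h11 : R * (Λ * |s - t|) ≤ Λ * R / κ * |s - t| * cm V hV (gt G0 G1 t) i := by
        calc R * (Λ * |s - t|) = Λ * R / κ * |s - t| * κ := by field_simp
          _ ≤ _ := mul_le_mul_of_nonneg_left h3 (by positivity)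
      have h12 : u * cm V hV (gt G0 G1 t) i = cm V hV (gt G0 G1 t) i -
          Λ * R / κ * |s - t| * cm V hV (gt G0 G1 t) i := by rw [hu]; ring
      have h13 : g * (1 - Λ * |s - t|) = g - g * (Λ * |s - t|) := by ring
      linarith
    · have h1 := St.adm i
      have h2 : el b r (fun i => u * ft i) i = u * el b r ft i := by
        unfold el
        ring
      rw [h2]
      positivity

theorem Fam.close (F : Fam b V G0 G1 κ R Λ) {s t : ℝ} (hs : s ∈ Set.Icc (0 : ℝ) 1)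
    (ht : t ∈ Set.Icc (0 : ℝ) 1) {fs ft : ZMod (2 * r) → ℝ}
    (Ss : IsSupp b r (cm V hV (gt G0 G1 s)) fs) (St : IsSupp b r (cm V hV (gt G0 G1 t)) ft)
    (j : ZMod (2 * r)) : |fs j - ft j| ≤ Λ * R ^ 2 / κ * |s - t| := by
  have hκ := F.κ0
  have hR := F.R0 hV
  have hL := F.L0 hV
  have h1 := F.scale hs ht Ss St j
  have h2 := F.scale ht hs St Ss j
  rw [abs_sub_comm t s] at h2
  have h3 := F.f_up ht St j
  have h4 := F.f_up hs Ss j
  have h5 : Λ * R / κ * |s - t| * ft j ≤ Λ * R / κ * |s - t| * R :=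
    mul_le_mul_of_nonneg_left h3 (by positivity)
  have h6 : Λ * R / κ * |s - t| * fs j ≤ Λ * R / κ * |s - t| * R :=
    mul_le_mul_of_nonneg_left h4 (by positivity)
  have h7 : Λ * R / κ * |s - t| * R = Λ * R ^ 2 / κ * |s - t| := by ring
  rw [abs_le]
  constructor <;> nlinarith

theorem Fam.cosd (F : Fam b V G0 G1 κ R Λ) : 0 < 2 - 2 * cos (b / r) := by
  have hb0 := F.hb0
  have hr : (1 : ℝ) ≤ r := by exact_mod_cast NeZero.one_le
  have hd0 : 0 < b / r := by positivity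
  have hd3 : b / r ≤ π / 3 := (div_le_self hb0.le hr).trans F.hb3
  have := cos_lt_cos_of_nonneg_of_le_pi_div_two le_rfl (by linarith [pi_pos]) hd0
  rw [cos_zero] at this
  linarith

theorem Fam.qa_low (F : Fam b V G0 G1 κ R Λ) {t : ℝ} (ht : t ∈ Set.Icc (0 : ℝ) 1)
    {f : ZMod (2 * r) → ℝ} (h : IsSupp b r (cm V hV (gt G0 G1 t)) f) :
    κ * ∑ j, el b r f j ≤ qa b r f := by
  unfold qa
  rw [mul_sum]
  exact sum_le_sum fun j _ => mul_le_mul_of_nonneg_right (F.f_low ht h j) (h.adm j)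

theorem Fam.sum_el_pos (F : Fam b V G0 G1 κ R Λ) {t : ℝ} (ht : t ∈ Set.Icc (0 : ℝ) 1)
    {f : ZMod (2 * r) → ℝ} (h : IsSupp b r (cm V hV (gt G0 G1 t)) f) :
    0 < ∑ j, el b r f j := by
  rw [sum_el]
  have := F.cosd
  have : 0 < ∑ j, f j := sum_pos (fun j _ => F.κ0.trans_le (F.f_low ht h j)) univ_nonempty
  positivity

theorem Fam.qa_pos (F : Fam b V G0 G1 κ R Λ) {t : ℝ} (ht : t ∈ Set.Icc (0 : ℝ) 1)
    {f : ZMod (2 * r) → ℝ} (h : IsSupp b r (cm V hV (gt G0 G1 t)) f) : 0 < qa b r f :=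
  (mul_pos F.κ0 (F.sum_el_pos ht h)).trans_le (F.qa_low ht h)

theorem Fam.crude (F : Fam b V G0 G1 κ R Λ) {s t : ℝ} (hs : s ∈ Set.Icc (0 : ℝ) 1)
    (ht : t ∈ Set.Icc (0 : ℝ) 1) {fs ft : ZMod (2 * r) → ℝ}
    (Ss : IsSupp b r (cm V hV (gt G0 G1 s)) fs) (St : IsSupp b r (cm V hV (gt G0 G1 t)) ft) :
    log (qa b r fs) ≤ log (qa b r ft) + 2 * log (R / κ) := by
  have hκ := F.κ0
  have hR := F.R0 hV
  have hc := F.cosd
  have h1 : qa b r fs ≤ R * ((2 - 2 * cos (b / r)) * ∑ _j : ZMod (2 * r), R) := by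
    calc qa b r fs ≤ ∑ j, R * el b r fs j :=
          sum_le_sum fun j _ => mul_le_mul_of_nonneg_right (F.f_up hs Ss j) (Ss.adm j)
      _ = R * ((2 - 2 * cos (b / r)) * ∑ j, fs j) := by rw [← mul_sum, sum_el]
      _ ≤ _ := by
          refine mul_le_mul_of_nonneg_left (mul_le_mul_of_nonneg_left ?_ hc.le) hR.le
          exact sum_le_sum fun j _ => F.f_up hs Ss j
  have h2 : κ * ((2 - 2 * cos (b / r)) * ∑ _j : ZMod (2 * r), κ) ≤ qa b r ft := by
    calc κ * ((2 - 2 * cos (b / r)) * ∑ _j : ZMod (2 * r), κ)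
        ≤ κ * ((2 - 2 * cos (b / r)) * ∑ j, ft j) := by
          refine mul_le_mul_of_nonneg_left (mul_le_mul_of_nonneg_left ?_ hc.le) hκ.le
          exact sum_le_sum fun j _ => F.f_low ht St j
      _ = κ * ∑ j, el b r ft j := by rw [sum_el]
      _ ≤ _ := F.qa_low ht St
  have h3 : qa b r fs ≤ (R / κ) ^ 2 * qa b r ft := by
    refine h1.trans ?_
    calc R * ((2 - 2 * cos (b / r)) * ∑ _j : ZMod (2 * r), R)
        = (R / κ) ^ 2 * (κ * ((2 - 2 * cos (b / r)) * ∑ _j : ZMod (2 * r), κ)) := by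
          simp only [sum_const, nsmul_eq_mul]
          field_simp
      _ ≤ _ := mul_le_mul_of_nonneg_left h2 (by positivity)
  have h4 := Real.log_le_log (F.qa_pos hs Ss) h3
  have h5 := F.qa_pos ht St
  rw [Real.log_mul (by positivity) h5.ne', Real.log_pow] at h4
  push_cast at h4
  linarith

/-- the main local estimate -/
theorem Fam.step (F : Fam b V G0 G1 κ R Λ) {s t : ℝ} (hs : s ∈ Set.Icc (0 : ℝ) 1)
    (ht : t ∈ Set.Icc (0 : ℝ) 1) {fs ft : ZMod (2 * r) → ℝ}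
    (Ss : IsSupp b r (cm V hV (gt G0 G1 s)) fs) (St : IsSupp b r (cm V hV (gt G0 G1 t)) ft)
    {w : ZMod (2 * r) → ℝ} (hw : ∀ j, w j ∈ V)
    (hcw : ∀ j, cm V hV (gt G0 G1 t) j = gt G0 G1 t j (w j) - w j)
    (q1 : 2 * (Λ * R ^ 2 / κ) / κ * |s - t| ≤ 1 / 4) (q2 : Λ * |s - t| ≤ 1)
    (q3 : 2 * R * Λ * |s - t| ≤ κ) :
    log (qa b r fs) ≤ log (qa b r ft) + 2 / qa b r ft * (∑ j, el b r ft j *
      (gt G0 G1 t j (w j) * (log (G1 j (w j)) - log (G0 j (w j))))) * (s - t) +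
      (4 * R * Λ ^ 3 / κ + 6 * (2 * (Λ * R ^ 2 / κ) / κ) ^ 3) * |s - t| ^ 3 := by
  have hκ := F.κ0
  have hR := F.R0 hV
  have hL := F.L0 hV
  set A := qa b r ft with hA
  have hA0 : 0 < A := F.qa_pos ht St
  set S := ∑ j, el b r ft j with hS
  have hS0 : 0 < S := F.sum_el_pos ht St
  have hSA : κ * S ≤ A := F.qa_low ht St
  set D := Λ * R ^ 2 / κ with hD
  have hD0 : 0 ≤ D := by positivity
  set q : ZMod (2 * r) → ℝ := fun j => fs j - ft j with hq
  have hqD : ∀ j, |q j| ≤ D * |s - t| := fun j => F.close hs ht Ss St j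
  set σ := ∑ j, el b r ft j * q j with hσ
  set Y := ∑ j, el b r ft j * (q j ^ 2 / ((ft j + ft (j + r)) / 2)) with hY
  have hfe : ∀ j, κ ≤ (ft j + ft (j + r)) / 2 := by
    intro j
    have h1 := F.f_low ht St j
    have h2 := F.f_low ht St (j + r)
    linarith
  have hstar := star (b := b) F.hb0 F.hb3 ft q (fun j => hκ.trans_le (F.f_low ht St j)) St.adm
  have hadd := qa_add (b := b) ft q
  have hfs : (fun j => ft j + q j) = fs := by
    funext j
    simp [hq]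
  rw [hfs] at hadd
  -- the quadratic bound
  have hA' : qa b r fs ≤ A * (1 + 2 * σ / A + (2 * σ / A) ^ 2 / 2 - Y / A) := by
    have h1 : A * (1 + 2 * σ / A + (2 * σ / A) ^ 2 / 2 - Y / A) = A + 2 * σ + 2 * σ ^ 2 / A - Y := by
      field_simp
    rw [h1, hadd]
    linarith
  have hσb : |σ| ≤ S * (D * |s - t|) := by
    rw [hσ, hS, sum_mul]
    refine (abs_sum_le_sum_abs _ _).trans (sum_le_sum fun j _ => ?_)
    rw [abs_mul, abs_of_nonneg (St.adm j)]
    exact mul_le_mul_of_nonneg_left (hqD j) (St.adm j)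
  have hz : |2 * σ / A| ≤ 2 * D / κ * |s - t| := by
    rw [abs_div, abs_of_pos hA0, abs_mul, abs_two, div_le_iff₀ hA0]
    calc 2 * |σ| ≤ 2 * (S * (D * |s - t|)) := by linarith
      _ = 2 * D / κ * |s - t| * (κ * S) := by field_simp
      _ ≤ 2 * D / κ * |s - t| * A := mul_le_mul_of_nonneg_left hSA (by positivity)
  have hY0 : 0 ≤ Y := by
    refine sum_nonneg fun j _ => mul_nonneg (St.adm j) (div_nonneg (sq_nonneg _) ?_)
    exact hκ.le.trans (hfe j)
  have hYb : Y / A ≤ (2 * D / κ * |s - t|) ^ 2 := by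
    rw [div_le_iff₀ hA0]
    calc Y ≤ ∑ j, el b r ft j * ((D * |s - t|) ^ 2 / κ) := by
          refine sum_le_sum fun j _ => mul_le_mul_of_nonneg_left ?_ (St.adm j)
          refine div_le_div₀ (sq_nonneg _) ?_ hκ (hfe j)
          rw [← sq_abs]
          exact pow_le_pow_left₀ (abs_nonneg _) (hqD j) 2
      _ = S * ((D * |s - t|) ^ 2 / κ) := by rw [← sum_mul]
      _ ≤ 4 * (S * ((D * |s - t|) ^ 2 / κ)) := by
          have : 0 ≤ S * ((D * |s - t|) ^ 2 / κ) := by positivity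
          linarith
      _ = (2 * D / κ * |s - t|) ^ 2 * (κ * S) := by
          field_simp
          ring
      _ ≤ (2 * D / κ * |s - t|) ^ 2 * A := mul_le_mul_of_nonneg_left hSA (by positivity)
  have hlog := log_step hA0 (F.qa_pos hs Ss) hA' (div_nonneg hY0 hA0.le) hz hYb q1
  -- the first order term
  have hterm : ∀ j, el b r ft j * (q j - q j ^ 2 / ((ft j + ft (j + r)) / 2) / 2) ≤
      el b r ft j * ((s - t) * (gt G0 G1 t j (w j) * (log (G1 j (w j)) - log (G0 j (w j)))) +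
        2 * R * Λ ^ 3 * |s - t| ^ 3) := by
    intro j
    rcases (St.adm j).eq_or_lt with h0 | h0
    · rw [← h0, zero_mul, zero_mul]
    refine mul_le_mul_of_nonneg_left ?_ h0.le
    have hc := St.compl h0
    rw [hcw j] at hc
    set g := gt G0 G1 t j (w j) with hg
    set x := (s - t) * (log (G1 j (w j)) - log (G0 j (w j))) with hx
    have hg0 : 0 < g := gt_pos _ _ _ _ _
    have hgR : g ≤ R := F.up t ht j _ (hw j)
    have hxL : |x| ≤ Λ * |s - t| := by
      rw [hx, abs_mul, mul_comm]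
      exact mul_le_mul_of_nonneg_right (F.lam j _ (hw j)) (abs_nonneg _)
    have hx1 : |x| ≤ 1 := hxL.trans q2
    have e1 : q j ≤ g * (exp x - 1) := by
      have h1 := Ss.le j
      have h2 := cm_le (hV := hV) (gt G0 G1 s) j (hw j)
      rw [gt_shift G0 G1 s t] at h2
      simp only [hq]
      linarith [show g * (exp x - 1) = g * exp x - g by ring]
    have e2 : g * (exp x - 1) ≤ (ft j + ft (j + r)) / 2 := by
      have h1 := Real.abs_exp_sub_one_le hx1
      have h2 : exp x - 1 ≤ 2 * (Λ * |s - t|) := by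
        have := le_abs_self (exp x - 1)
        linarith
      have h3 : g * (exp x - 1) ≤ R * (2 * (Λ * |s - t|)) := by
        calc g * (exp x - 1) ≤ g * (2 * (Λ * |s - t|)) := mul_le_mul_of_nonneg_left h2 hg0.le
          _ ≤ R * (2 * (Λ * |s - t|)) := mul_le_mul_of_nonneg_right hgR (by positivity)
      linarith [hfe j, show R * (2 * (Λ * |s - t|)) = 2 * R * Λ * |s - t| by ring]
    have e3 : (ft j + ft (j + r)) / 2 ≤ g := by
      have h1 := St.le (j + r)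
      have h2 := cm_le (hV := hV) (gt G0 G1 t) (j + r) (F.hVs _ (hw j))
      rw [F.even t j _ (hw j)] at h2
      linarith
    refine (mono_step e1 e2 (hκ.trans_le (hfe j)) e3).trans ?_
    have e4 := scalar_step hx1
    have e5 : g * (exp x - 1) - (g * (exp x - 1)) ^ 2 / (2 * g) =
        g * ((exp x - 1) - (exp x - 1) ^ 2 / 2) := by
      field_simp
    rw [e5]
    have e6 : g * ((exp x - 1) - (exp x - 1) ^ 2 / 2) ≤ g * (x + 2 * |x| ^ 3) :=
      mul_le_mul_of_nonneg_left e4 hg0.le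
    have e7 : g * (2 * |x| ^ 3) ≤ R * (2 * (Λ * |s - t|) ^ 3) := by
      refine mul_le_mul hgR ?_ (by positivity) hR.le
      have := pow_le_pow_left₀ (abs_nonneg x) hxL 3
      linarith
    have e8 : g * x = (s - t) * (g * (log (G1 j (w j)) - log (G0 j (w j)))) := by
      rw [hx]
      ring
    calc g * ((exp x - 1) - (exp x - 1) ^ 2 / 2) ≤ g * x + g * (2 * |x| ^ 3) := by linarith
      _ ≤ (s - t) * (g * (log (G1 j (w j)) - log (G0 j (w j)))) + R * (2 * (Λ * |s - t|) ^ 3) := by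
          linarith
      _ = _ := by ring
  have hsum := sum_le_sum fun j (_ : j ∈ (univ : Finset (ZMod (2 * r)))) => hterm j
  have hl : ∑ j, el b r ft j * (q j - q j ^ 2 / ((ft j + ft (j + r)) / 2) / 2) = σ - Y / 2 := by
    rw [hσ, hY, sum_div, ← sum_sub_distrib]
    refine sum_congr rfl fun j _ => ?_
    ring
  have hr' : ∑ j, el b r ft j * ((s - t) * (gt G0 G1 t j (w j) *
      (log (G1 j (w j)) - log (G0 j (w j)))) + 2 * R * Λ ^ 3 * |s - t| ^ 3) =
      (s - t) * ∑ j, el b r ft j * (gt G0 G1 t j (w j) *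
      (log (G1 j (w j)) - log (G0 j (w j)))) + S * (2 * R * Λ ^ 3 * |s - t| ^ 3) := by
    rw [hS, sum_mul, mul_sum, ← sum_add_distrib]
    refine sum_congr rfl fun j _ => ?_
    ring
  rw [hl, hr'] at hsum
  set Ψ := ∑ j, el b r ft j * (gt G0 G1 t j (w j) * (log (G1 j (w j)) - log (G0 j (w j)))) with hΨ
  have hfin : 2 * σ / A - Y / A ≤ 2 / A * Ψ * (s - t) + 4 * R * Λ ^ 3 / κ * |s - t| ^ 3 := by
    have h1 : 2 * σ / A - Y / A = 2 / A * (σ - Y / 2) := by ring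
    rw [h1]
    calc 2 / A * (σ - Y / 2) ≤ 2 / A * ((s - t) * Ψ + S * (2 * R * Λ ^ 3 * |s - t| ^ 3)) :=
          mul_le_mul_of_nonneg_left hsum (by positivity)
      _ = 2 / A * Ψ * (s - t) + 4 * R * Λ ^ 3 / κ * |s - t| ^ 3 * (κ * S / A) := by
          field_simp
          ring
      _ ≤ 2 / A * Ψ * (s - t) + 4 * R * Λ ^ 3 / κ * |s - t| ^ 3 * 1 := by
          have : κ * S / A ≤ 1 := (div_le_one hA0).2 hSA
          have h2 := mul_le_mul_of_nonneg_left this
            (show 0 ≤ 4 * R * Λ ^ 3 / κ * |s - t| ^ 3 by positivity)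
          linarith
      _ = _ := by ring
  calc log (qa b r fs) ≤ log A + (2 * σ / A - Y / A) + 6 * (2 * D / κ * |s - t|) ^ 3 := hlog
    _ ≤ log A + (2 / A * Ψ * (s - t) + 4 * R * Λ ^ 3 / κ * |s - t| ^ 3) +
        6 * (2 * D / κ * |s - t|) ^ 3 := by linarith
    _ = _ := by ring

/-- logarithmic concavity along the family -/
theorem Fam.main (F : Fam b V G0 G1 κ R Λ) {t : ℝ} (ht0 : 0 ≤ t) (ht1 : t ≤ 1)
    {f0 f1 f : ZMod (2 * r) → ℝ} (s0 : IsSupp b r (cm V hV (gt G0 G1 0)) f0)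
    (s1 : IsSupp b r (cm V hV (gt G0 G1 1)) f1) (s : IsSupp b r (cm V hV (gt G0 G1 t)) f) :
    (1 - t) * log (qa b r f0) + t * log (qa b r f1) ≤ log (qa b r f) := by
  have hκ := F.κ0
  have hR := F.R0 hV
  have hL := F.L0 hV
  -- support numbers at all times
  have hex : ∀ t : ℝ, ∃ f : ZMod (2 * r) → ℝ, t ∈ Set.Icc (0 : ℝ) 1 →
      IsSupp b r (cm V hV (gt G0 G1 t)) f := by
    intro t
    by_cases ht : t ∈ Set.Icc (0 : ℝ) 1
    · obtain ⟨f, hf, _⟩ := exists_supp F.hb0 F.hb3 (cm V hV (gt G0 G1 t))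
        fun j => hκ.trans_le (F.cm_low ht j)
      exact ⟨f, fun _ => hf⟩
    · exact ⟨fun _ => 0, fun h => absurd h ht⟩
  choose φ hφ using hex
  choose w hw hcw using fun (t : ℝ) (j : ZMod (2 * r)) =>
    cm_attained (hV := hV) (gt G0 G1 t) j
  set D := 2 * (Λ * R ^ 2 / κ) / κ with hD
  have hD0 : 0 ≤ D := by positivity
  have hRκ : 0 ≤ log (R / κ) := by
    apply Real.log_nonneg
    rw [le_div_iff₀ hκ, one_mul]
    exact (F.cm_low (hV := hV) (t := 0) (by simp) 0).trans (F.cm_up (by simp) 0)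
  set Q := 4 * D + Λ + 2 * R * Λ / κ with hQ
  have hQ0 : 0 ≤ Q := by positivity
  set p : ℝ → ℝ := fun t => 2 / qa b r (φ t) * (∑ j, el b r (φ t) j *
      (gt G0 G1 t j (w t j) * (log (G1 j (w t j)) - log (G0 j (w t j))))) with hp
  have hpb : ∀ t ∈ Set.Icc (0 : ℝ) 1, |p t| ≤ 2 * R * Λ / κ := by
    intro t ht
    have hA := F.qa_pos ht (hφ t ht)
    have hS := F.sum_el_pos ht (hφ t ht)
    simp only [hp]
    rw [abs_mul, abs_div, abs_two, abs_of_pos hA, div_mul_eq_mul_div, div_le_div_iff₀ hA hκ]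
    have h1 : |∑ j, el b r (φ t) j * (gt G0 G1 t j (w t j) *
        (log (G1 j (w t j)) - log (G0 j (w t j))))| ≤ (∑ j, el b r (φ t) j) * (R * Λ) := by
      rw [sum_mul]
      refine (abs_sum_le_sum_abs _ _).trans (sum_le_sum fun j _ => ?_)
      rw [abs_mul, abs_of_nonneg ((hφ t ht).adm j), abs_mul, abs_of_pos (gt_pos _ _ _ _ _)]
      refine mul_le_mul_of_nonneg_left ?_ ((hφ t ht).adm j)
      exact mul_le_mul (F.up t ht j _ (hw t j)) (F.lam j _ (hw t j)) (abs_nonneg _) hR.le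
    have h2 := F.qa_low ht (hφ t ht)
    have h3 : (κ * ∑ j, el b r (φ t) j) * (2 * R * Λ) ≤ qa b r (φ t) * (2 * R * Λ) :=
      mul_le_mul_of_nonneg_right h2 (by positivity)
    have h4 := mul_le_mul_of_nonneg_right h1 hκ.le
    linarith
  set C := 4 * R * Λ ^ 3 / κ + 6 * D ^ 3 + 2 * R * Λ / κ +
    (2 * log (R / κ) + 2 * R * Λ / κ) * Q ^ 3 with hC
  have key := chord (a := fun t => log (qa b r (φ t))) (p := p) (C := C) ?_ ?_ ht0 ht1
  · have u0 : φ 0 = f0 := (hφ 0 (by simp)).unique s0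
    have u1 : φ 1 = f1 := (hφ 1 (by simp)).unique s1
    have ut : φ t = f := (hφ t ⟨ht0, ht1⟩).unique s
    simp only [u0, u1, ut] at key
    exact key
  · intro t ht
    refine (hpb t ht).trans ?_
    have h1 : 0 ≤ 4 * R * Λ ^ 3 / κ := by positivity
    have h2 : 0 ≤ 6 * D ^ 3 := by positivity
    have h3 : 0 ≤ (2 * log (R / κ) + 2 * R * Λ / κ) * Q ^ 3 := by positivity
    linarith
  · intro x hx t ht
    have hε : 0 ≤ |x - t| := abs_nonneg _
    have hε3 : 0 ≤ |x - t| ^ 3 := by positivity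
    rcases le_or_gt (Q * |x - t|) 1 with hs | hl
    · have k1 : D * |x - t| ≤ 1 / 4 := by
        have h1 : 0 ≤ Λ * |x - t| := by positivity
        have h2 : 0 ≤ 2 * R * Λ / κ * |x - t| := by positivity
        have h3 : Q * |x - t| = 4 * (D * |x - t|) + Λ * |x - t| + 2 * R * Λ / κ * |x - t| := by
          rw [hQ]
          ring
        linarith
      have k2 : Λ * |x - t| ≤ 1 := by
        have h1 : 0 ≤ D * |x - t| := by positivity
        have h2 : 0 ≤ 2 * R * Λ / κ * |x - t| := by positivity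
        have h3 : Q * |x - t| = 4 * (D * |x - t|) + Λ * |x - t| + 2 * R * Λ / κ * |x - t| := by
          rw [hQ]
          ring
        linarith
      have k3 : 2 * R * Λ * |x - t| ≤ κ := by
        have h1 : 0 ≤ D * |x - t| := by positivity
        have h2 : 0 ≤ Λ * |x - t| := by positivity
        have h3 : Q * |x - t| = 4 * (D * |x - t|) + Λ * |x - t| + 2 * R * Λ / κ * |x - t| := by
          rw [hQ]
          ring
        have h4 : 2 * R * Λ / κ * |x - t| ≤ 1 := by linarith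
        have h5 := mul_le_mul_of_nonneg_left h4 hκ.le
        have h6 : κ * (2 * R * Λ / κ * |x - t|) = 2 * R * Λ * |x - t| := by
          field_simp
        linarith
      have h1 := F.step hx ht (hφ x hx) (hφ t ht) (hw t) (hcw t) k1 k2 k3
      refine h1.trans ?_
      have h2 : (4 * R * Λ ^ 3 / κ + 6 * D ^ 3) * |x - t| ^ 3 ≤ C * |x - t| ^ 3 := by
        refine mul_le_mul_of_nonneg_right ?_ hε3
        have h3 : 0 ≤ 2 * R * Λ / κ := by positivity
        have h4 : 0 ≤ (2 * log (R / κ) + 2 * R * Λ / κ) * Q ^ 3 := by positivity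
        linarith
      linarith
    · have h1 := F.crude hx ht (hφ x hx) (hφ t ht)
      have h2 : -(2 * R * Λ / κ) ≤ p t * (x - t) := by
        have h3 : |p t * (x - t)| ≤ 2 * R * Λ / κ * 1 := by
          rw [abs_mul]
          refine mul_le_mul (hpb t ht) ?_ hε (by positivity)
          rw [abs_le]
          constructor <;> linarith [hx.1, hx.2, ht.1, ht.2]
        linarith [(abs_le.1 h3).1]
      have h4 : 1 ≤ (Q * |x - t|) ^ 3 := one_le_pow₀ hl.le
      have h5 : (2 * log (R / κ) + 2 * R * Λ / κ) * 1 ≤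
          (2 * log (R / κ) + 2 * R * Λ / κ) * (Q * |x - t|) ^ 3 :=
        mul_le_mul_of_nonneg_left h4 (by positivity)
      have h6 : (2 * log (R / κ) + 2 * R * Λ / κ) * (Q * |x - t|) ^ 3 ≤ C * |x - t| ^ 3 := by
        have h7 : 0 ≤ (4 * R * Λ ^ 3 / κ + 6 * D ^ 3 + 2 * R * Λ / κ) * |x - t| ^ 3 := by
          positivity
        rw [hC]
        linarith [show (2 * log (R / κ) + 2 * R * Λ / κ) * (Q * |x - t|) ^ 3 =
          (2 * log (R / κ) + 2 * R * Λ / κ) * Q ^ 3 * |x - t| ^ 3 by ring]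
      linarith

end fam

/-- construction of the constants -/
theorem exists_fam {b : ℝ} {r : ℕ} [NeZero r] (hb0 : 0 < b) (hb3 : b ≤ π / 3) {V : Finset ℝ}
    (hV : V.Nonempty) (hVs : ∀ v ∈ V, -v ∈ V) {G0 G1 : ZMod (2 * r) → ℝ → ℝ}
    (p0 : ∀ j, ∀ v ∈ V, 0 < G0 j v) (p1 : ∀ j, ∀ v ∈ V, 0 < G1 j v)
    (e0 : ∀ j, ∀ v ∈ V, G0 (j + r) (-v) = G0 j v) (e1 : ∀ j, ∀ v ∈ V, G1 (j + r) (-v) = G1 j v)
    (c0 : ∀ j, ∀ v ∈ V, v < G0 j v) (c1 : ∀ j, ∀ v ∈ V, v < G1 j v) :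
    ∃ κ R Λ : ℝ, Fam b V G0 G1 κ R Λ := by
  have hne : ((univ : Finset (ZMod (2 * r))) ×ˢ V).Nonempty := univ_nonempty.product hV
  obtain ⟨⟨i, u⟩, hiu, hmin⟩ := exists_min_image ((univ : Finset (ZMod (2 * r))) ×ˢ V)
    (fun x => min (G0 x.1 x.2 - x.2) (G1 x.1 x.2 - x.2)) hne
  obtain ⟨⟨i', u'⟩, hiu', hmax⟩ := exists_max_image ((univ : Finset (ZMod (2 * r))) ×ˢ V)
    (fun x => max (G0 x.1 x.2) (G1 x.1 x.2)) hne
  obtain ⟨⟨i2, u2⟩, hiu2, hmax2⟩ := exists_max_image ((univ : Finset (ZMod (2 * r))) ×ˢ V)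
    (fun x => |log (G1 x.1 x.2) - log (G0 x.1 x.2)|) hne
  have hu : u ∈ V := (mem_product.1 hiu).2
  have hu' : u' ∈ V := (mem_product.1 hiu').2
  set κ := min (G0 i u - u) (G1 i u - u) with hκ
  set R := max (G0 i' u') (G1 i' u') with hR
  have hκ0 : 0 < κ := lt_min (by linarith [c0 i u hu]) (by linarith [c1 i u hu])
  have hR0 : 0 < R := lt_max_of_lt_left (p0 i' u' hu')
  have hlo : ∀ j, ∀ v ∈ V, κ ≤ G0 j v - v ∧ κ ≤ G1 j v - v := by
    intro j v hv
    have := hmin (j, v) (mem_product.2 ⟨mem_univ _, hv⟩)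
    exact le_min_iff.1 this
  have hup : ∀ j, ∀ v ∈ V, G0 j v ≤ R ∧ G1 j v ≤ R := by
    intro j v hv
    have := hmax (j, v) (mem_product.2 ⟨mem_univ _, hv⟩)
    exact max_le_iff.1 this
  refine ⟨κ, R, |log (G1 i2 u2) - log (G0 i2 u2)|, hb0, hb3, hVs, ?_, hκ0, ?_, ?_, ?_⟩
  · intro t j v hv
    simp only [gt, e0 j v hv, e1 j v hv]
  · intro t ht j v hv
    obtain ⟨h1, h2⟩ := hlo j v hv
    rcases le_or_gt (κ + v) 0 with h | h
    · have := gt_pos G0 G1 t j v
      linarith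
    · have l1 : log (κ + v) ≤ log (G0 j v) := Real.log_le_log h (by linarith)
      have l2 : log (κ + v) ≤ log (G1 j v) := Real.log_le_log h (by linarith)
      have l3 : log (κ + v) ≤ (1 - t) * log (G0 j v) + t * log (G1 j v) := by
        have h3 := mul_le_mul_of_nonneg_left l1 (show 0 ≤ 1 - t by linarith [ht.2])
        have h4 := mul_le_mul_of_nonneg_left l2 ht.1
        linarith
      have := Real.exp_le_exp.2 l3
      rw [Real.exp_log h] at this
      rw [gt]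
      linarith
  · intro t ht j v hv
    obtain ⟨h1, h2⟩ := hup j v hv
    have l1 : log (G0 j v) ≤ log R := Real.log_le_log (p0 j v hv) h1
    have l2 : log (G1 j v) ≤ log R := Real.log_le_log (p1 j v hv) h2
    have l3 : (1 - t) * log (G0 j v) + t * log (G1 j v) ≤ log R := by
      have h3 := mul_le_mul_of_nonneg_left l1 (show 0 ≤ 1 - t by linarith [ht.2])
      have h4 := mul_le_mul_of_nonneg_left l2 ht.1
      linarith
    have := Real.exp_le_exp.2 l3
    rwa [Real.exp_log hR0] at this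
  · intro j v hv
    exact hmax2 (j, v) (mem_product.2 ⟨mem_univ _, hv⟩)

theorem cm_congr {r : ℕ} {V : Finset ℝ} (hV : V.Nonempty) {G G' : ZMod (2 * r) → ℝ → ℝ}
    (h : ∀ j, ∀ v ∈ V, G j v = G' j v) : cm V hV G = cm V hV G' := by
  funext j
  exact inf'_congr hV rfl fun v hv => by rw [h j v hv]

/-- the planar inequality, in terms of support numbers -/
theorem seq_main {b : ℝ} {r : ℕ} [NeZero r] (hb0 : 0 < b) (hb3 : b ≤ π / 3) {V : Finset ℝ}
    (hV : V.Nonempty) (hVs : ∀ v ∈ V, -v ∈ V) {G0 G1 : ZMod (2 * r) → ℝ → ℝ}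
    (p0 : ∀ j, ∀ v ∈ V, 0 < G0 j v) (p1 : ∀ j, ∀ v ∈ V, 0 < G1 j v)
    (e0 : ∀ j, ∀ v ∈ V, G0 (j + r) (-v) = G0 j v) (e1 : ∀ j, ∀ v ∈ V, G1 (j + r) (-v) = G1 j v)
    (c0 : ∀ j, ∀ v ∈ V, v < G0 j v) (c1 : ∀ j, ∀ v ∈ V, v < G1 j v)
    {t : ℝ} (ht0 : 0 < t) (ht1 : t < 1) {f0 f1 f : ZMod (2 * r) → ℝ}
    (s0 : IsSupp b r (cm V hV G0) f0) (s1 : IsSupp b r (cm V hV G1) f1)
    (s : IsSupp b r (cm V hV fun j v => G0 j v ^ (1 - t) * G1 j v ^ t) f) :
    qa b r f0 ^ (1 - t) * qa b r f1 ^ t ≤ qa b r f := by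
  obtain ⟨κ, R, Λ, F⟩ := exists_fam hb0 hb3 hV hVs p0 p1 e0 e1 c0 c1
  have t0 : IsSupp b r (cm V hV (gt G0 G1 0)) f0 := by
    rw [cm_congr hV (G' := G0) fun j v hv => by
      rw [gt_eq (p0 j v hv) (p1 j v hv)]; simp]
    exact s0
  have t1 : IsSupp b r (cm V hV (gt G0 G1 1)) f1 := by
    rw [cm_congr hV (G' := G1) fun j v hv => by
      rw [gt_eq (p0 j v hv) (p1 j v hv)]; simp]
    exact s1
  have tt : IsSupp b r (cm V hV (gt G0 G1 t)) f := by
    rw [cm_congr hV (G' := fun j v => G0 j v ^ (1 - t) * G1 j v ^ t) fun j v hv =>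
      gt_eq (p0 j v hv) (p1 j v hv) t]
    exact s
  have h := F.main ht0.le ht1.le t0 t1 tt
  have q0 := F.qa_pos (by simp) t0
  have q1 := F.qa_pos (by simp) t1
  have q := F.qa_pos ⟨ht0.le, ht1.le⟩ tt
  have h1 := Real.exp_le_exp.2 h
  rw [Real.exp_add, Real.exp_log q] at h1
  rwa [rpow_def_of_pos q0, rpow_def_of_pos q1, mul_comm (log (qa b r f0)),
    mul_comm (log (qa b r f1))]

end Vale.Agent.P227.C2
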