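import Vale.Agent.P227.T1.Refl
import Vale.Agent.P227.C2.Seq
import Vale.Agent.P227.C2.Area

/-!
# P227 / C2 : finite systems of normals in `R³` (slices and Prekopa-Leindler)
-/

open Finset Real MeasureTheory
open scoped ENNReal Pointwise

namespace Vale.Agent.P227.C2

open Vale.Agent.P227.T1 (sec volume_sec measurable_sec lintegral_even pl_mul)

theorem pol3_isClosed (b : ℝ) (r : ℕ) (V : Finset ℝ) (H : ZMod (2 * r) → ℝ → ℝ) :
    IsClosed (pol3 b r V H) := by
  have h : pol3 b r V H = ⋂ j : ℤ, ⋂ v ∈ V, {x : Fin 3 → ℝ |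
      x 0 * v + x 1 * cos (j * (b / r)) + x 2 * sin (j * (b / r)) ≤
        H (j : ZMod (2 * r)) v} := by
    ext x
    simp [pol3]
  rw [h]
  refine isClosed_iInter fun j => isClosed_iInter fun v => isClosed_iInter fun _ => ?_
  exact isClosed_le (by fun_prop) continuous_const

theorem mem_sec_pol3 {b : ℝ} {r : ℕ} {V : Finset ℝ} {H : ZMod (2 * r) → ℝ → ℝ} {a : ℝ}
    {x : Fin 2 → ℝ} : x ∈ sec (pol3 b r V H) a ↔ ∀ j : ℤ, ∀ v ∈ V,
      a * v + x 0 * cos (j * (b / r)) + x 1 * sin (j * (b / r)) ≤ H (j : ZMod (2 * r)) v :=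
  Iff.rfl

/-- the section at height `a > 0` -/
theorem sec_pol3 {b : ℝ} {r : ℕ} {V : Finset ℝ} (hV : V.Nonempty) {H : ZMod (2 * r) → ℝ → ℝ}
    {a : ℝ} (ha : 0 < a) :
    sec (pol3 b r V H) a = a • poly b r (cm V hV fun j v => H j v / a) := by
  ext x
  rw [Set.mem_smul_set_iff_inv_smul_mem₀ ha.ne', mem_sec_pol3]
  simp only [poly, Set.mem_ofPred_eq, cm, Pi.smul_apply, smul_eq_mul, le_inf'_iff]
  refine forall_congr' fun j => forall_congr' fun v => imp_congr_right fun _ => ?_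
  rw [le_sub_iff_add_le, le_div_iff₀ ha]
  have : (a⁻¹ * x 0 * cos (j * (b / r)) + a⁻¹ * x 1 * sin (j * (b / r)) + v) * a =
      a * v + x 0 * cos (j * (b / r)) + x 1 * sin (j * (b / r)) := by
    field_simp
    ring
  rw [this]

theorem volume_sec_pol3 {b : ℝ} {r : ℕ} {V : Finset ℝ} (hV : V.Nonempty)
    {H : ZMod (2 * r) → ℝ → ℝ} {a : ℝ} (ha : 0 < a) :
    volume (sec (pol3 b r V H) a) =
      ENNReal.ofReal (a ^ 2) * volume (poly b r (cm V hV fun j v => H j v / a)) := by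
  rw [sec_pol3 hV ha, Measure.addHaar_smul]
  simp

/-- `-1` symmetry of the sections -/
theorem sec_pol3_neg {m r : ℕ} [NeZero r] (hm : 3 ≤ m) (hodd : Odd m) {V : Finset ℝ}
    (hVs : ∀ v ∈ V, -v ∈ V) {H : ZMod (2 * r) → ℝ → ℝ}
    (e : ∀ j, ∀ v ∈ V, H (j + r) (-v) = H j v) (a : ℝ) :
    sec (pol3 (π / m) r V H) (-a) = -sec (pol3 (π / m) r V H) a := by
  have hr : (r : ℝ) ≠ 0 := by exact_mod_cast NeZero.ne r
  have hm0 : (m : ℝ) ≠ 0 := by
    have : m ≠ 0 := by omega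
    exact_mod_cast this
  have hcast : ∀ j : ℤ, ((j + m * r : ℤ) : ZMod (2 * r)) = (j : ZMod (2 * r)) + r := by
    intro j
    obtain ⟨k, hk⟩ := hodd
    have h2 : ((2 * r : ℕ) : ZMod (2 * r)) = 0 := ZMod.natCast_self _
    push_cast at h2 ⊢
    rw [hk]
    push_cast
    linear_combination (k : ZMod (2 * r)) * h2
  have key : ∀ (a : ℝ) (x : Fin 2 → ℝ), x ∈ sec (pol3 (π / m) r V H) a →
      -x ∈ sec (pol3 (π / m) r V H) (-a) := by
    intro a x hx
    rw [mem_sec_pol3] at hx ⊢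
    intro j v hv
    have h := hx (j + m * r) (-v) (hVs v hv)
    rw [hcast, e _ v hv] at h
    have hang : ((j + m * r : ℤ) : ℝ) * (π / m / r) = j * (π / m / r) + π := by
      push_cast
      field_simp
    rw [hang, cos_add_pi, sin_add_pi] at h
    simp only [Pi.neg_apply]
    linarith
  ext x
  rw [Set.mem_neg]
  constructor
  · intro hx
    have := key _ _ hx
    rwa [neg_neg] at this
  · intro hx
    have := key _ _ hx
    rwa [neg_neg] at this

/-- the inequality for a finite system of normals, invariant under the rotation of order `m` and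
under `-1` -/
theorem slice_main {m r : ℕ} [NeZero r] (hm : 3 ≤ m) (hodd : Odd m) {V : Finset ℝ}
    (hV : V.Nonempty) (hVs : ∀ v ∈ V, -v ∈ V) {H0 H1 : ZMod (2 * r) → ℝ → ℝ}
    (p0 : ∀ j, ∀ v ∈ V, 0 < H0 j v) (p1 : ∀ j, ∀ v ∈ V, 0 < H1 j v)
    (e0 : ∀ j, ∀ v ∈ V, H0 (j + r) (-v) = H0 j v) (e1 : ∀ j, ∀ v ∈ V, H1 (j + r) (-v) = H1 j v)
    {t : ℝ} (ht0 : 0 < t) (ht1 : t < 1) :
    volume (pol3 (π / m) r V H0) ^ (1 - t) * volume (pol3 (π / m) r V H1) ^ t ≤
      volume (pol3 (π / m) r V fun j v => H0 j v ^ (1 - t) * H1 j v ^ t) := by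
  have h1t : 0 < 1 - t := by linarith
  have hmr : (3 : ℝ) ≤ m := by exact_mod_cast hm
  have hr1 : (1 : ℝ) ≤ r := by exact_mod_cast NeZero.one_le
  have hb0 : 0 < π / m := div_pos pi_pos (by linarith)
  have hb3 : π / m ≤ π / 3 := div_le_div_of_nonneg_left pi_pos.le (by norm_num) hmr
  have hs0 : 0 < sin (π / m / r) := by
    refine sin_pos_of_pos_of_lt_pi (by positivity) ?_
    have : π / m / r ≤ π / m := div_le_self hb0.le hr1
    linarith [pi_pos]
  have hC0 : 0 < m / (2 * sin (π / m / r)) := by positivity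
  set M : ZMod (2 * r) → ℝ → ℝ := fun j v => H0 j v ^ (1 - t) * H1 j v ^ t with hM
  have eM : ∀ j, ∀ v ∈ V, M (j + r) (-v) = M j v := by
    intro j v hv
    simp only [hM, e0 j v hv, e1 j v hv]
  have m0 := (pol3_isClosed (π / m) r V H0).measurableSet
  have m1 := (pol3_isClosed (π / m) r V H1).measurableSet
  have mM := (pol3_isClosed (π / m) r V M).measurableSet
  have E0 := volume_sec m0
  have E1 := volume_sec m1
  have EM := volume_sec mM
  rw [lintegral_even (measurable_sec m0) fun a => by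
    rw [sec_pol3_neg hm hodd hVs e0, Measure.measure_neg]] at E0
  rw [lintegral_even (measurable_sec m1) fun a => by
    rw [sec_pol3_neg hm hodd hVs e1, Measure.measure_neg]] at E1
  rw [lintegral_even (measurable_sec mM) fun a => by
    rw [sec_pol3_neg hm hodd hVs eM, Measure.measure_neg]] at EM
  rw [E0, E1, EM, ENNReal.mul_rpow_of_nonneg _ _ h1t.le, ENNReal.mul_rpow_of_nonneg _ _ ht0.le]
  have h2 : (2 : ℝ≥0∞) ^ (1 - t) * 2 ^ t = 2 := by
    rw [← ENNReal.rpow_add _ _ (by norm_num) (by norm_num)]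
    simp
  rw [mul_mul_mul_comm, h2]
  gcongr
  apply pl_mul ht0 ht1 _ _ _ (measurable_sec m0) (measurable_sec m1) (measurable_sec mM)
  intro a0 a1 ha0 ha1
  have ha : 0 < a0 ^ (1 - t) * a1 ^ t := by positivity
  rw [volume_sec_pol3 hV ha0, volume_sec_pol3 hV ha1, volume_sec_pol3 hV ha]
  set G0 : ZMod (2 * r) → ℝ → ℝ := fun j v => H0 j v / a0 with hG0
  set G1 : ZMod (2 * r) → ℝ → ℝ := fun j v => H1 j v / a1 with hG1
  by_cases v0 : volume (poly (π / m) r (cm V hV G0)) = 0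
  · rw [v0, mul_zero, ENNReal.zero_rpow_of_pos h1t, zero_mul]
    exact zero_le
  by_cases v1 : volume (poly (π / m) r (cm V hV G1)) = 0
  · rw [v1, mul_zero, ENNReal.zero_rpow_of_pos ht0, mul_zero]
    exact zero_le
  have c0 := pos_of_poly hm v0
  have c1 := pos_of_poly hm v1
  have pG0 : ∀ j, ∀ v ∈ V, 0 < G0 j v := fun j v hv => div_pos (p0 j v hv) ha0
  have pG1 : ∀ j, ∀ v ∈ V, 0 < G1 j v := fun j v hv => div_pos (p1 j v hv) ha1
  have g0 : ∀ j, ∀ v ∈ V, v < G0 j v := by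
    intro j v hv
    have := (c0 j).trans_le (cm_le G0 j hv (hV := hV))
    linarith
  have g1 : ∀ j, ∀ v ∈ V, v < G1 j v := by
    intro j v hv
    have := (c1 j).trans_le (cm_le G1 j hv (hV := hV))
    linarith
  have hG : cm V hV (fun j v => M j v / (a0 ^ (1 - t) * a1 ^ t)) =
      cm V hV (fun j v => G0 j v ^ (1 - t) * G1 j v ^ t) := by
    apply cm_congr
    intro j v hv
    simp only [hM, hG0, hG1]
    rw [div_rpow (p0 j v hv).le ha0.le, div_rpow (p1 j v hv).le ha1.le]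
    field_simp
  rw [hG]
  have cG : ∀ j, 0 < cm V hV (fun j v => G0 j v ^ (1 - t) * G1 j v ^ t) j := by
    intro j
    rw [cm, lt_inf'_iff]
    intro v hv
    have q0 := pG0 j v hv
    have q1 := pG1 j v hv
    rcases le_or_gt v 0 with h | h
    · have : 0 < G0 j v ^ (1 - t) * G1 j v ^ t := by positivity
      linarith
    · have k0 : v ^ (1 - t) < G0 j v ^ (1 - t) := rpow_lt_rpow h.le (g0 j v hv) h1t
      have k1 : v ^ t < G1 j v ^ t := rpow_lt_rpow h.le (g1 j v hv) ht0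
      have k2 : v ^ (1 - t) * v ^ t = v := by
        rw [← rpow_add h]
        simp
      have k3 : v ^ (1 - t) * v ^ t < G0 j v ^ (1 - t) * G1 j v ^ t :=
        mul_lt_mul'' k0 k1 (by positivity) (by positivity)
      linarith
  obtain ⟨f0, s0, f0p⟩ := exists_supp hb0 hb3 _ c0
  obtain ⟨f1, s1, f1p⟩ := exists_supp hb0 hb3 _ c1
  obtain ⟨f, s, fp⟩ := exists_supp hb0 hb3 _ cG
  have eG0 : ∀ j, ∀ v ∈ V, G0 (j + r) (-v) = G0 j v := by
    intro j v hv
    simp only [hG0, e0 j v hv]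
  have eG1 : ∀ j, ∀ v ∈ V, G1 (j + r) (-v) = G1 j v := by
    intro j v hv
    simp only [hG1, e1 j v hv]
  have key := seq_main hb0 hb3 hV hVs pG0 pG1 eG0 eG1 g0 g1 ht0 ht1 s0 s1 s
  rw [poly_supp hm s0, poly_supp hm s1, poly_supp hm s, area_adm hm f0 f0p s0.adm,
    area_adm hm f1 f1p s1.adm, area_adm hm f fp s.adm]
  set C : ℝ := m / (2 * sin (π / m / r)) with hC
  have q0 : 0 ≤ qa (π / m) r f0 := by
    unfold qa
    exact sum_nonneg fun j _ => mul_nonneg (f0p j).le (s0.adm j)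
  have q1 : 0 ≤ qa (π / m) r f1 := by
    unfold qa
    exact sum_nonneg fun j _ => mul_nonneg (f1p j).le (s1.adm j)
  rw [← ENNReal.ofReal_mul (by positivity), ← ENNReal.ofReal_mul (by positivity),
    ← ENNReal.ofReal_mul (by positivity), ENNReal.ofReal_rpow_of_nonneg (by positivity) h1t.le,
    ENNReal.ofReal_rpow_of_nonneg (by positivity) ht0.le, ← ENNReal.ofReal_mul (by positivity)]
  apply ENNReal.ofReal_le_ofReal
  have r1 : (a0 ^ 2 * (C * qa (π / m) r f0)) ^ (1 - t) =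
      (a0 ^ (1 - t)) ^ 2 * (C ^ (1 - t) * qa (π / m) r f0 ^ (1 - t)) := by
    rw [mul_rpow (by positivity) (by positivity), mul_rpow hC0.le q0, ← rpow_natCast a0 2,
      ← rpow_natCast (a0 ^ (1 - t)) 2, ← rpow_mul ha0.le, ← rpow_mul ha0.le, mul_comm (1 - t)]
  have r2 : (a1 ^ 2 * (C * qa (π / m) r f1)) ^ t =
      (a1 ^ t) ^ 2 * (C ^ t * qa (π / m) r f1 ^ t) := by
    rw [mul_rpow (by positivity) (by positivity), mul_rpow hC0.le q1, ← rpow_natCast a1 2,
      ← rpow_natCast (a1 ^ t) 2, ← rpow_mul ha1.le, ← rpow_mul ha1.le, mul_comm t]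
  have r3 : C ^ (1 - t) * C ^ t = C := by
    rw [← rpow_add hC0]
    simp
  rw [r1, r2]
  calc (a0 ^ (1 - t)) ^ 2 * (C ^ (1 - t) * qa (π / m) r f0 ^ (1 - t)) *
        ((a1 ^ t) ^ 2 * (C ^ t * qa (π / m) r f1 ^ t))
      = (a0 ^ (1 - t) * a1 ^ t) ^ 2 * ((C ^ (1 - t) * C ^ t) *
        (qa (π / m) r f0 ^ (1 - t) * qa (π / m) r f1 ^ t)) := by ring
    _ ≤ (a0 ^ (1 - t) * a1 ^ t) ^ 2 * (C * qa (π / m) r f) := by
        rw [r3]
        gcongr

end Vale.Agent.P227.C2
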